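import Mathlib

/-!
# P199: centraliser of a commutative subfield of a central division algebra

Input: a symmetric trace `τ` with `trace (x ↦ a x b) = τ a τ b`.  For a finite separable subfield
`ι : L → C` we build the projection `proj` of `C` on the centraliser of `ι L` along the
commutators and obtain `[L : F] * dim (centraliser) = τ 1 ^ 2`.
-/

namespace Vale.P199K

open LinearMap (mulLeftRight)

/-- A trace datum on `C`: what a central simple algebra provides. -/
structure TraceDatum (F C : Type*) [Field F] [Ring C] [Algebra F C] where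
  τ : C →ₗ[F] F
  mul_comm : ∀ a b, τ (a * b) = τ (b * a)
  trace_lr : ∀ a b, LinearMap.trace F C (mulLeftRight F (a, b)) = τ a * τ b

namespace Centralizer

variable {F C L : Type*} [Field F] [Ring C] [Algebra F C] [Field L] [Algebra F L]

section Proj

variable [FiniteDimensional F L] [Algebra.IsSeparable F L] (ι : L →ₐ[F] C)

noncomputable def basis : Module.Basis (Fin (Module.finrank F L)) F L := Module.finBasis F L

/-- Dual of the basis for the trace form. -/
noncomputable def dual : Module.Basis (Fin (Module.finrank F L)) F L :=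
  (basis (F := F) (L := L)).traceDual


lemma basis_repr (x : L) (i) : ((basis (F := F) (L := L))).repr x i = Algebra.trace F L (x * (dual (F := F) (L := L)) i) := by
  conv_rhs => rw [← ((basis (F := F) (L := L))).sum_repr x]
  rw [Finset.sum_mul, map_sum]
  simp [dual, Module.Basis.trace_mul_traceDual]

lemma dual_repr (x : L) (i) : ((dual (F := F) (L := L))).repr x i = Algebra.trace F L (x * (basis (F := F) (L := L)) i) := by
  simp [dual, Algebra.traceForm_apply]

lemma trace_sum_smul_dual : ∑ i, Algebra.trace F L ((basis (F := F) (L := L)) i) • (dual (F := F) (L := L)) i = 1 := by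
  conv_rhs => rw [← ((dual (F := F) (L := L))).sum_repr 1]
  simp only [dual_repr, one_mul]

lemma sum_basis_mul_dual : ∑ i, (basis (F := F) (L := L)) i * (dual (F := F) (L := L)) i = (1 : L) := by
  have h : ∀ y : L, Algebra.trace F L (y * ∑ i, (basis (F := F) (L := L)) i * (dual (F := F) (L := L)) i) = Algebra.trace F L (y * 1) := by
    intro y
    rw [mul_one, Algebra.trace_apply (R := F) y,
      LinearMap.trace_eq_matrix_trace F (basis (F := F) (L := L)), Matrix.trace, Finset.mul_sum, map_sum]
    refine Finset.sum_congr rfl fun i _ => ?_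
    rw [Matrix.diag_apply, LinearMap.toMatrix_apply, Algebra.coe_lmul_eq_mul,
      LinearMap.mul_apply', basis_repr, mul_assoc]
  have hnd := (traceForm_nondegenerate F L).1
  refine sub_eq_zero.1 (hnd _ fun y => ?_)
  rw [Algebra.traceForm_apply, sub_mul, map_sub, sub_eq_zero, mul_comm _ y, mul_comm _ y]
  exact h y

/-- The projection on the centraliser of `ι L`. -/
noncomputable def proj : C →ₗ[F] C :=
  ∑ i, mulLeftRight F (ι ((basis (F := F) (L := L)) i), ι ((dual (F := F) (L := L)) i))

lemma proj_apply (x : C) : proj ι x = ∑ i, ι ((basis (F := F) (L := L)) i) * x * ι ((dual (F := F) (L := L)) i) := by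
  simp [proj, LinearMap.sum_apply]

lemma proj_commute (l : L) (x : C) : ι l * proj ι x = proj ι x * ι l := by
  have h1 : ∀ i, ι l * ι ((basis (F := F) (L := L)) i) = ∑ j, Algebra.trace F L (l * (basis (F := F) (L := L)) i * (dual (F := F) (L := L)) j) • ι ((basis (F := F) (L := L)) j) := by
    intro i
    rw [← map_mul]
    conv_lhs => rw [← ((basis (F := F) (L := L))).sum_repr (l * (basis (F := F) (L := L)) i)]
    simp only [map_sum, map_smul, basis_repr]
  have h2 : ∀ j, ι ((dual (F := F) (L := L)) j) * ι l = ∑ i, Algebra.trace F L (l * (basis (F := F) (L := L)) i * (dual (F := F) (L := L)) j) • ι ((dual (F := F) (L := L)) i) := by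
    intro j
    rw [← map_mul]
    conv_lhs => rw [← ((dual (F := F) (L := L))).sum_repr ((dual (F := F) (L := L)) j * l)]
    simp only [map_sum, map_smul, dual_repr]
    refine Finset.sum_congr rfl fun i _ => ?_
    congr 2
    ring
  simp only [proj_apply, Finset.mul_sum, Finset.sum_mul, ← mul_assoc, h1]
  simp only [mul_assoc, h2, Finset.mul_sum, mul_smul_comm, smul_mul_assoc]
  exact Finset.sum_comm

lemma proj_eq_self {x : C} (hx : ∀ l : L, ι l * x = x * ι l) : proj ι x = x := by
  simp only [proj_apply, hx, mul_assoc, ← map_mul, ← Finset.mul_sum, ← map_sum,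
    sum_basis_mul_dual, map_one, mul_one]

lemma proj_proj (x : C) : proj ι (proj ι x) = proj ι x :=
  proj_eq_self ι fun l => proj_commute ι l x

lemma proj_mul_left {x : C} (a : C) (hx : ∀ l : L, ι l * x = x * ι l) :
    proj ι (x * a) = x * proj ι a := by
  simp only [proj_apply, Finset.mul_sum, ← mul_assoc, hx]

lemma proj_mul_right {x : C} (a : C) (hx : ∀ l : L, ι l * x = x * ι l) :
    proj ι (a * x) = proj ι a * x := by
  simp only [proj_apply, Finset.sum_mul]
  refine Finset.sum_congr rfl fun i _ => ?_
  simp only [mul_assoc, hx]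

lemma proj_commutator (l : L) (a : C) : proj ι (ι l * a - a * ι l) = 0 := by
  have hl : ∀ k : L, ι k * ι l = ι l * ι k := fun k => by rw [← map_mul, ← map_mul, mul_comm]
  rw [map_sub, proj_mul_left ι a hl, proj_mul_right ι a hl, proj_commute, sub_self]

/-- The commutators with a generator `θ` are the kernel of `proj`. -/
lemma exists_commutator {θ : L} (hθ : Algebra.adjoin F {θ} = (⊤ : Subalgebra F L)) (x : C) :
    ∃ y, x - proj ι x = ι θ * y - y * ι θ := by
  let K : Submodule F C :=
    LinearMap.range (LinearMap.mulLeft F (ι θ) - LinearMap.mulRight F (ι θ))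
  have key : ∀ l : L, ∀ y, ι l * y - y * ι l ∈ K := by
    intro l
    have hl : l ∈ Algebra.adjoin F {θ} := by rw [hθ]; trivial
    induction hl using Algebra.adjoin_induction with
    | mem z hz => intro y; rw [Set.mem_singleton_iff.1 hz]; exact ⟨y, by simp⟩
    | algebraMap r => intro y; simp [Algebra.commutes r y]
    | add a c _ _ ha hc =>
      intro y
      have := K.add_mem (ha y) (hc y)
      rw [map_add, add_mul, mul_add]
      convert this using 1
      abel
    | mul a c _ _ ha hc =>
      intro y
      have := K.add_mem (ha (ι c * y)) (hc (y * ι a))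
      have hac : ι a * ι c = ι c * ι a := by rw [← map_mul, ← map_mul, mul_comm]
      convert this using 1
      rw [map_mul]
      simp only [mul_assoc, hac]
      rw [← mul_assoc (ι a), hac, mul_assoc]
      abel
  have hK : ∀ l y, y ∈ K → ι l * y ∈ K := by
    rintro l _ ⟨z, rfl⟩
    refine ⟨ι l * z, ?_⟩
    have hc : ι θ * ι l = ι l * ι θ := by rw [← map_mul, ← map_mul, mul_comm]
    simp only [LinearMap.sub_apply, LinearMap.mulLeft_apply, LinearMap.mulRight_apply]
    rw [mul_sub, ← mul_assoc, hc, mul_assoc, mul_assoc]
  have : x - proj ι x ∈ K := by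
    have hx : x = ∑ i, ι ((basis (F := F) (L := L)) i) * (ι ((dual (F := F) (L := L)) i) * x) := by
      simp only [← mul_assoc, ← map_mul, ← Finset.sum_mul, ← map_sum, sum_basis_mul_dual,
        map_one, one_mul]
    nth_rw 1 [hx]
    rw [proj_apply, ← Finset.sum_sub_distrib]
    refine K.sum_mem fun i _ => ?_
    rw [mul_assoc (ι ((basis (F := F) (L := L)) i)) x, ← mul_sub]
    exact hK _ _ (key _ _)
  obtain ⟨y, hy⟩ := this
  exact ⟨y, by simpa using hy.symm⟩

/-- The centraliser of `ι L` as a subspace. -/
def space : Submodule F C := Subalgebra.toSubmodule (Subalgebra.centralizer F (Set.range ι))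

omit [FiniteDimensional F L] [Algebra.IsSeparable F L] in
lemma mem_space {x : C} : x ∈ space ι ↔ ∀ l : L, ι l * x = x * ι l := by
  simp [space, Subalgebra.mem_centralizer_iff]

lemma isProj : LinearMap.IsProj (space ι) (proj ι) where
  map_mem x := (mem_space ι).2 fun l => proj_commute ι l x
  map_id _ hx := proj_eq_self ι ((mem_space ι).1 hx)

omit [FiniteDimensional F L] [Algebra.IsSeparable F L] in
lemma mem_space_of_commute {θ : L} (hθ : Algebra.adjoin F {θ} = (⊤ : Subalgebra F L)) {x : C}
    (hx : ι θ * x = x * ι θ) : x ∈ space ι := by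
  refine (mem_space ι).2 fun l => ?_
  have hl : l ∈ Algebra.adjoin F {θ} := by rw [hθ]; trivial
  induction hl using Algebra.adjoin_induction with
  | mem z hz => rw [Set.mem_singleton_iff.1 hz]; exact hx
  | algebraMap r => simp [Algebra.commutes r x]
  | add a c _ _ ha hc => rw [map_add, add_mul, mul_add, ha, hc]
  | mul a c _ _ ha hc => rw [map_mul, mul_assoc, hc, ← mul_assoc, ha, mul_assoc]

end Proj

section Trace

variable [FiniteDimensional F C] (D : TraceDatum F C) (ι : L →ₐ[F] C)

omit [FiniteDimensional F C] in
lemma trace_mulLeft (a : C) : LinearMap.trace F C (LinearMap.mulLeft F a) = D.τ a * D.τ 1 := by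
  rw [← D.trace_lr a 1]
  congr 1
  ext x
  simp

lemma finrank_eq_sq : (Module.finrank F C : F) = D.τ 1 * D.τ 1 := by
  rw [← trace_mulLeft D 1, ← LinearMap.trace_one]
  congr 1
  ext x
  simp

variable [FiniteDimensional F L]

/-- `C` is free over `L`, so the trace of `x ↦ ι l * x` is a multiple of `tr l`. -/
lemma exists_trace_mulLeft : ∃ r : ℕ, Module.finrank F C = Module.finrank F L * r ∧
    ∀ l : L, LinearMap.trace F C (LinearMap.mulLeft F (ι l)) = r * Algebra.trace F L l := by
  let _ : Module L C := Module.compHom C ι.toRingHom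
  have hsm : ∀ (l : L) (x : C), l • x = ι l * x := fun _ _ => rfl
  have : IsScalarTower F L C :=
    ⟨fun r l x => by rw [hsm, hsm, map_smul, smul_mul_assoc]⟩
  have : Module.Finite L C := Module.Finite.of_restrictScalars_finite F L C
  refine ⟨Module.finrank L C, (Module.finrank_mul_finrank F L C).symm, fun l => ?_⟩
  let c := Module.finBasis L C
  let a := Module.finBasis F L
  rw [Algebra.trace_apply, LinearMap.trace_eq_matrix_trace F (a.smulTower c),
    LinearMap.trace_eq_matrix_trace F a, Matrix.trace, Matrix.trace]
  simp only [Matrix.diag_apply, LinearMap.toMatrix_apply, LinearMap.mulLeft_apply,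
    Algebra.coe_lmul_eq_mul, LinearMap.mul_apply', Fintype.sum_prod_type]
  rw [Finset.mul_sum]
  refine Finset.sum_congr rfl fun i _ => ?_
  have : ∀ j, (a.smulTower c).repr (ι l * (a.smulTower c) (i, j)) (i, j) = a.repr (l * a i) i := by
    intro j
    rw [Module.Basis.smulTower_repr, Module.Basis.smulTower_apply, ← hsm, smul_smul, map_smul,
      Module.Basis.repr_self, Finsupp.smul_apply, Finsupp.single_eq_same, smul_eq_mul, mul_one]
  simp only [this, Finset.sum_const, Finset.card_univ, Fintype.card_fin, nsmul_eq_mul]

variable [CharZero F] [Nontrivial C]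


lemma τ_one_ne_zero : D.τ 1 ≠ 0 := by
  intro h
  have h1 := finrank_eq_sq D
  rw [h, mul_zero, Nat.cast_eq_zero] at h1
  exact Module.finrank_pos.ne' h1

/-- `d * τ (ι l) = τ 1 * tr l`. -/
lemma τ_map (l : L) :
    (Module.finrank F L : F) * D.τ (ι l) = D.τ 1 * Algebra.trace F L l := by
  obtain ⟨r, hr, h⟩ := exists_trace_mulLeft ι
  refine mul_right_cancel₀ (τ_one_ne_zero D) ?_
  have hl := h l
  rw [trace_mulLeft D] at hl
  have h2 : (Module.finrank F C : F) = Module.finrank F L * r := by exact_mod_cast hr
  rw [finrank_eq_sq D] at h2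
  linear_combination (Module.finrank F L : F) * hl - Algebra.trace F L l * h2

omit [FiniteDimensional F C] [Nontrivial C] in
lemma τ_proj (x y : C) : D.τ (proj ι x * y) = D.τ (x * proj ι y) := by
  have h1 : D.τ (proj ι x * y) = D.τ (x * ∑ i, ι ((dual (F := F) (L := L)) i) * y * ι ((basis (F := F) (L := L)) i)) := by
    simp only [proj_apply, Finset.sum_mul, Finset.mul_sum, map_sum]
    refine Finset.sum_congr rfl fun i _ => ?_
    rw [mul_assoc, mul_assoc, D.mul_comm]
    simp only [mul_assoc]
  rw [h1]
  congr 2
  -- the Casimir element is symmetric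
  simp only [proj_apply]
  calc ∑ i, ι ((dual (F := F) (L := L)) i) * y * ι ((basis (F := F) (L := L)) i)
      = ∑ i, ∑ j, Algebra.trace F L ((dual (F := F) (L := L)) i * (dual (F := F) (L := L)) j) • (ι ((basis (F := F) (L := L)) j) * y * ι ((basis (F := F) (L := L)) i)) := by
        refine Finset.sum_congr rfl fun i _ => ?_
        conv_lhs => rw [← (basis (F := F) (L := L)).sum_repr (dual i)]
        simp only [map_sum, map_smul, basis_repr, Finset.sum_mul, smul_mul_assoc]
    _ = ∑ j, ∑ i, Algebra.trace F L ((dual (F := F) (L := L)) j * (dual (F := F) (L := L)) i) • (ι ((basis (F := F) (L := L)) j) * y * ι ((basis (F := F) (L := L)) i)) := by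
        rw [Finset.sum_comm]
        refine Finset.sum_congr rfl fun j _ => Finset.sum_congr rfl fun i _ => ?_
        rw [mul_comm ((dual (F := F) (L := L)) i)]
    _ = ∑ j, ι ((basis (F := F) (L := L)) j) * y * ι ((dual (F := F) (L := L)) j) := by
        refine Finset.sum_congr rfl fun j _ => ?_
        conv_rhs => rw [← (basis (F := F) (L := L)).sum_repr (dual j)]
        simp only [map_sum, map_smul, basis_repr, Finset.mul_sum, mul_smul_comm]

include D in
/-- The double centraliser dimension formula. -/
theorem finrank_mul_finrank_space :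
    Module.finrank F L * Module.finrank F (space ι) = Module.finrank F C := by
  have h := (isProj ι).trace
  set d : F := (Module.finrank F L : F) with hd
  have hd0 : d ≠ 0 := Nat.cast_ne_zero.2 Module.finrank_pos.ne'
  have key : d * LinearMap.trace F C (proj ι) = D.τ 1 * D.τ 1 := by
    refine mul_left_cancel₀ hd0 ?_
    calc d * (d * LinearMap.trace F C (proj ι))
        = ∑ i, (d * D.τ (ι ((basis (F := F) (L := L)) i))) * (d * D.τ (ι ((dual (F := F) (L := L)) i))) := by
          simp only [proj, map_sum, D.trace_lr, Finset.mul_sum]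
          exact Finset.sum_congr rfl fun i _ => by ring
      _ = D.τ 1 * D.τ 1 *
            Algebra.trace F L (∑ i, Algebra.trace F L ((basis (F := F) (L := L)) i) • (dual (F := F) (L := L)) i) := by
          simp only [hd, τ_map, map_sum, map_smul, Finset.mul_sum, smul_eq_mul]
          exact Finset.sum_congr rfl fun i _ => by ring
      _ = _ := by
          rw [trace_sum_smul_dual, ← map_one (algebraMap F L), Algebra.trace_algebraMap,
            nsmul_eq_mul, mul_one]
          ring
  rw [h, ← finrank_eq_sq D, hd] at key
  exact_mod_cast key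

include D in
lemma exists_finrank_space : ∃ e : ℕ, Module.finrank F (space ι) = Module.finrank F L * e ∧
    Module.finrank F L * Module.finrank F L * e = Module.finrank F C := by
  let _ : Module L C := Module.compHom C ι.toRingHom
  have : IsScalarTower F L C :=
    ⟨fun r l x => by
      show ι (r • l) * x = r • (ι l * x)
      rw [map_smul, smul_mul_assoc]⟩
  let S : Submodule L C :=
    { carrier := space ι
      add_mem' := fun ha hc => (space ι).add_mem ha hc
      zero_mem' := (space ι).zero_mem
      smul_mem' := fun l x hx => by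
        refine (mem_space ι).2 fun k => ?_
        show ι k * (ι l * x) = ι l * x * ι k
        rw [← mul_assoc, ← map_mul, mul_comm, map_mul, mul_assoc, (mem_space ι).1 hx k,
          ← mul_assoc] }
  have hS : Module.finrank F (space ι) = Module.finrank F L * Module.finrank L S :=
    (LinearEquiv.finrank_eq (LinearEquiv.ofEq (space ι) (S.restrictScalars F) rfl)).trans
      (Module.finrank_mul_finrank F L S).symm
  exact ⟨Module.finrank L S, hS, by rw [mul_assoc, ← hS, finrank_mul_finrank_space D ι]⟩

omit [FiniteDimensional F C] [Nontrivial C] in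
include D in
/-- The symmetric form is nondegenerate on the centraliser if it is on `C`. -/
lemma eq_zero_of_τ_space (hnd : ∀ a, (∀ c, D.τ (a * c) = 0) → a = 0) {x : C} (hx : x ∈ space ι)
    (h : ∀ y ∈ space ι, D.τ (x * y) = 0) : x = 0 := by
  refine hnd x fun c => ?_
  rw [← proj_eq_self ι ((mem_space ι).1 hx), τ_proj]
  exact h _ ((isProj ι).map_mem c)

omit [FiniteDimensional F C] [FiniteDimensional F L] [CharZero F] [Nontrivial C] in
/-- The commutators with a generator are orthogonal to the centraliser. -/
lemma τ_commutator {θ : L} {x : C} (hx : x ∈ space ι) (y : C) :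
    D.τ (x * (ι θ * y - y * ι θ)) = 0 := by
  rw [mul_sub, map_sub, sub_eq_zero, ← mul_assoc, ← (mem_space ι).1 hx θ, mul_assoc,
    D.mul_comm (ι θ), mul_assoc]

end Trace

section Domain

variable [FiniteDimensional F C] [IsDomain C] [CharZero F] (D : TraceDatum F C)

include D in
/-- An element all of whose positive powers have trace zero is zero. -/
lemma eq_zero_of_τ_pow {a : C} (h : ∀ n, 1 ≤ n → D.τ (a ^ n) = 0) : a = 0 := by
  by_contra ha
  have hint : IsIntegral F a := Algebra.IsIntegral.isIntegral a
  have h0 : (minpoly F a).coeff 0 ≠ 0 := minpoly.coeff_zero_ne_zero hint ha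
  have hp := congrArg D.τ (minpoly.aeval F a)
  rw [map_zero, Polynomial.aeval_eq_sum_range, map_sum, Finset.sum_range_succ'] at hp
  rw [Finset.sum_eq_zero fun i _ => by rw [map_smul, h (i + 1) (by omega), smul_zero],
    zero_add, pow_zero, map_smul, smul_eq_mul] at hp
  rcases mul_eq_zero.1 hp with h' | h'
  · exact h0 h'
  · exact τ_one_ne_zero D h'

include D in
lemma eq_zero_of_τ_mul {a : C} (h : ∀ c, D.τ (a * c) = 0) : a = 0 := by
  refine eq_zero_of_τ_pow D fun n hn => ?_
  obtain ⟨m, rfl⟩ := Nat.exists_eq_add_of_le hn
  rw [Nat.add_comm, pow_succ']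
  exact h _

end Domain

end Centralizer

end Vale.P199K
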