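import Mathlib

/-! Noncommutative formal power series in `K` letters with coefficients in a ring. The letters commute
with the coefficients. A series is the function from words to coefficients. -/

open Finset

namespace P199K

/-- Noncommutative power series in `K` letters over `C`, as functions on words. -/
def NS (K : ℕ) (C : Type) : Type := List (Fin K) → C

namespace NS

variable {K : ℕ} {C : Type}

@[ext] theorem ext {f g : NS K C} (h : ∀ w, f w = g w) : f = g := funext h

instance [AddCommGroup C] : AddCommGroup (NS K C) :=
  inferInstanceAs (AddCommGroup (List (Fin K) → C))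

@[simp] theorem zero_apply [AddCommGroup C] (w : List (Fin K)) : (0 : NS K C) w = 0 := rfl
@[simp] theorem add_apply [AddCommGroup C] (f g : NS K C) (w : List (Fin K)) :
    (f + g) w = f w + g w := rfl
@[simp] theorem neg_apply [AddCommGroup C] (f : NS K C) (w : List (Fin K)) : (-f) w = -(f w) := rfl
@[simp] theorem sub_apply [AddCommGroup C] (f g : NS K C) (w : List (Fin K)) :
    (f - g) w = f w - g w := rfl

/-- Convolution product: sum over the splittings of a word as `u ++ v`. -/
def conv [NonUnitalNonAssocSemiring C] : List (Fin K) → NS K C → NS K C → C
  | [], f, g => f [] * g []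
  | i :: w, f, g => f [] * g (i :: w) + conv w (fun u => f (i :: u)) g

section Ring

variable [Ring C]

instance : Mul (NS K C) := ⟨fun f g w => conv w f g⟩

/-- Left derivative by one letter. -/
def shift (i : Fin K) (f : NS K C) : NS K C := fun u => f (i :: u)

@[simp] theorem shift_apply (i : Fin K) (f : NS K C) (u : List (Fin K)) :
    shift i f u = f (i :: u) := rfl

theorem mul_apply (f g : NS K C) (w : List (Fin K)) : (f * g) w = conv w f g := rfl

@[simp] theorem mul_nil (f g : NS K C) : (f * g) [] = f [] * g [] := rfl

theorem mul_cons (f g : NS K C) (i : Fin K) (w : List (Fin K)) :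
    (f * g) (i :: w) = f [] * g (i :: w) + (shift i f * g) w := rfl

/-- Coefficient embedding. -/
def const (c : C) : NS K C := fun w => match w with
  | [] => c
  | _ :: _ => 0

@[simp] theorem const_nil (c : C) : (const c : NS K C) [] = c := rfl
@[simp] theorem const_cons (c : C) (i : Fin K) (w : List (Fin K)) :
    (const c : NS K C) (i :: w) = 0 := rfl

/-- The letter `i`. -/
def var (i : Fin K) : NS K C := fun w => if w = [i] then 1 else 0

theorem left_distrib' (f g h : NS K C) : f * (g + h) = f * g + f * h := by
  refine NS.ext fun w => ?_
  induction w generalizing f with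
  | nil => simp [mul_add]
  | cons i w ih =>
      simp only [mul_cons, add_apply, ih, mul_add]
      abel

theorem right_distrib' (f g h : NS K C) : (f + g) * h = f * h + g * h := by
  refine NS.ext fun w => ?_
  induction w generalizing f g with
  | nil => simp [add_mul]
  | cons i w ih =>
      have hs : shift i (f + g) = shift i f + shift i g := rfl
      simp only [mul_cons, add_apply, hs, ih, add_mul]
      abel

theorem zero_mul' (f : NS K C) : (0 : NS K C) * f = 0 := by
  have h := right_distrib' (0 : NS K C) 0 f
  rw [add_zero] at h
  exact left_eq_add.mp h

theorem mul_zero' (f : NS K C) : f * 0 = 0 := by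
  have h := left_distrib' f 0 (0 : NS K C)
  rw [add_zero] at h
  exact left_eq_add.mp h

theorem const_mul (c : C) (f : NS K C) (w : List (Fin K)) : ((const c : NS K C) * f) w = c * f w := by
  cases w with
  | nil => rfl
  | cons i w =>
      have hs : shift i (const c : NS K C) = 0 := rfl
      simp [mul_cons, hs, zero_mul']

theorem mul_const (f : NS K C) (c : C) (w : List (Fin K)) : (f * (const c : NS K C)) w = f w * c := by
  induction w generalizing f with
  | nil => rfl
  | cons i w ih => simp [mul_cons, ih]

theorem shift_mul (i : Fin K) (f g : NS K C) :
    shift i (f * g) = (const (f []) : NS K C) * shift i g + shift i f * g := by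
  refine NS.ext fun w => ?_
  simp [mul_cons, const_mul]

theorem mul_assoc' (f g h : NS K C) : f * g * h = f * (g * h) := by
  refine NS.ext fun w => ?_
  induction w generalizing f g with
  | nil => simp [mul_assoc]
  | cons i w ih =>
      have e : ((const (f []) : NS K C) * shift i g * h) w = f [] * (shift i g * h) w := by
        rw [ih, const_mul]
      simp only [mul_cons, mul_nil, shift_mul, right_distrib', add_apply, e, ih, mul_add, mul_assoc]
      abel

instance instRing : Ring (NS K C) :=
  { (inferInstance : AddCommGroup (NS K C)) with
    mul := (· * ·)
    one := const 1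
    left_distrib := left_distrib'
    right_distrib := right_distrib'
    zero_mul := zero_mul'
    mul_zero := mul_zero'
    mul_assoc := mul_assoc'
    one_mul := fun f => NS.ext fun w => by
      show ((const 1 : NS K C) * f) w = f w
      simp [const_mul]
    mul_one := fun f => NS.ext fun w => by
      show (f * (const 1 : NS K C)) w = f w
      simp [mul_const] }

theorem one_def : (1 : NS K C) = const 1 := rfl

@[simp] theorem one_nil : (1 : NS K C) [] = 1 := rfl

/-- The coefficient embedding as a ring homomorphism. -/
def constHom : C →+* NS K C where
  toFun := const
  map_one' := rfl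
  map_mul' a b := NS.ext fun w => by cases w <;> simp [const_mul]
  map_zero' := NS.ext fun w => by cases w <;> rfl
  map_add' a b := NS.ext fun w => by cases w <;> simp

@[simp] theorem constHom_apply (c : C) : (constHom c : NS K C) = const c := rfl

/-- Constant term as a ring homomorphism. -/
def ev0 : NS K C →+* C where
  toFun f := f []
  map_one' := rfl
  map_mul' _ _ := rfl
  map_zero' := rfl
  map_add' _ _ := rfl

@[simp] theorem ev0_apply (f : NS K C) : ev0 f = f [] := rfl

/-- Product of the images of the letters of a word. -/
def wordProd {B : Type} [Monoid B] (y : Fin K → B) (w : List (Fin K)) : B := (w.map y).prod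

end Ring

section Algebra

variable {F : Type} [CommRing F] [Ring C] [Algebra F C]

noncomputable instance instAlgebra : Algebra F (NS K C) :=
  ((constHom : C →+* NS K C).comp (algebraMap F C)).toAlgebra' fun a f => NS.ext fun w => by
    simp [RingHom.comp_apply, const_mul, mul_const, Algebra.commutes]

theorem algebraMap_eq (a : F) : algebraMap F (NS K C) a = const (algebraMap F C a) := rfl

theorem smul_apply (a : F) (f : NS K C) (w : List (Fin K)) : (a • f) w = a • f w := by
  rw [Algebra.smul_def, algebraMap_eq, const_mul, Algebra.smul_def]

end Algebra

end NS

end P199K
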