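import Mathlib
import Vale.Agent.P199.Kurosh.NS

/-! Bundled coefficient algebras, series data (objects), their morphisms and the linear algebra at the base
point of an object. -/

open Module

namespace P199K

/-- A finite-dimensional central division algebra in characteristic zero, over a field containing
primitive roots of unity of every order. -/
structure Stg where
  F : Type
  C : Type
  [fldF : Field F]
  [charF : CharZero F]
  [ringC : DivisionRing C]
  [algC : Algebra F C]
  [finC : FiniteDimensional F C]
  central : ∀ x : C, (∀ y : C, x * y = y * x) → x ∈ Set.range (algebraMap F C)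
  roots : ∀ M : ℕ, 0 < M → ∃ ζ : F, IsPrimitiveRoot ζ M

attribute [instance] Stg.fldF Stg.charF Stg.ringC Stg.algC Stg.finC

/-- Dimension of the coefficient algebra. -/
noncomputable def Stg.dim (S : Stg) : ℕ := finrank S.F S.C

/-- Compatible maps of ground fields and coefficient algebras. -/
structure StgHom (S T : Stg) where
  iF : S.F →+* T.F
  iC : S.C →+* T.C
  compat : ∀ a : S.F, iC (algebraMap S.F S.C a) = algebraMap T.F T.C (iF a)

/-- A series `f` together with two tracked series `y`. -/
structure Obj where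
  S : Stg
  K : ℕ
  y : Fin 2 → NS K S.C
  f : NS K S.C

/-- A morphism of objects: a semilinear ring homomorphism of the series rings carrying the data along and
keeping independence of constant terms. -/
structure Obj.Mor (o o' : Obj) where
  iF : o.S.F →+* o'.S.F
  σ : NS o.K o.S.C →+* NS o'.K o'.S.C
  σ_scalar : ∀ a : o.S.F, σ (algebraMap _ _ a) = algebraMap _ _ (iF a)
  σ_f : σ o.f = o'.f
  σ_y : ∀ j, σ (o.y j) = o'.y j
  indep : ∀ (n : ℕ) (w : Fin n → NS o.K o.S.C),
    LinearIndependent o.S.F (fun i => w i []) → LinearIndependent o'.S.F (fun i => σ (w i) [])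

/-- The identity morphism. -/
def Obj.Mor.refl (o : Obj) : Obj.Mor o o where
  iF := RingHom.id _
  σ := RingHom.id _
  σ_scalar _ := rfl
  σ_f := rfl
  σ_y _ := rfl
  indep _ _ h := h

/-- Composition of morphisms. -/
def Obj.Mor.comp {o o' o'' : Obj} (g : Obj.Mor o' o'') (h : Obj.Mor o o') : Obj.Mor o o'' where
  iF := g.iF.comp h.iF
  σ := g.σ.comp h.σ
  σ_scalar a := by simp [RingHom.comp_apply, h.σ_scalar, g.σ_scalar]
  σ_f := by simp [RingHom.comp_apply, h.σ_f, g.σ_f]
  σ_y j := by simp [RingHom.comp_apply, h.σ_y, g.σ_y]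
  indep n w hw := g.indep n (fun i => h.σ (w i)) (h.indep n w hw)

/-- The image of the tracked pair is everything modulo words of length at least two: every prescribed
constant and linear coefficient is attained in the `F`-algebra generated by the pair. -/
def Obj.Full (o : Obj) : Prop :=
  ∀ (c : o.S.C) (l : Fin o.K → o.S.C),
    ∃ g ∈ Algebra.adjoin o.S.F (Set.range o.y), g [] = c ∧ ∀ i, g [i] = l i

/-- A descendant is a full object receiving a morphism. -/
def Obj.Desc (o o' : Obj) : Prop := o'.Full ∧ 2 ≤ o'.K ∧ Nonempty (Obj.Mor o o')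

theorem Obj.Desc.refl {o : Obj} (h : o.Full) (hK : 2 ≤ o.K) : o.Desc o :=
  ⟨h, hK, ⟨Obj.Mor.refl o⟩⟩

theorem Obj.Desc.trans {a b c : Obj} (h₁ : a.Desc b) (h₂ : b.Desc c) : a.Desc c :=
  ⟨h₂.1, h₂.2.1, ⟨h₂.2.2.some.comp h₁.2.2.some⟩⟩

/-- Some descendant makes the series algebraic over its ground field. -/
def Obj.Good (o : Obj) : Prop := ∃ o', o.Desc o' ∧ IsAlgebraic o'.S.F o'.f

theorem Obj.Good.of_desc {a b : Obj} (h : a.Desc b) (g : b.Good) : a.Good :=
  let ⟨c, hc, hf⟩ := g
  ⟨c, h.trans hc, hf⟩

section Linear

variable {S : Stg}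

/-- The trace form: trace of left multiplication. -/
noncomputable def Stg.τ (S : Stg) : S.C →ₗ[S.F] S.F :=
  (LinearMap.trace S.F S.C).comp (LinearMap.mul S.F S.C)

/-- Trace orthogonal of a subspace. -/
noncomputable def Stg.orth (S : Stg) (V : Submodule S.F S.C) : Submodule S.F S.C where
  carrier := {z | ∀ v ∈ V, S.τ (z * v) = 0}
  zero_mem' := by intro v _; simp
  add_mem' := by intro a b ha hb v hv; simp [add_mul, ha v hv, hb v hv]
  smul_mem' := by intro r a ha v hv; simp [ha v hv]

/-- The commutator map `x ↦ θ x - x θ`. -/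
def Stg.ad (S : Stg) (θ : S.C) : S.C →ₗ[S.F] S.C :=
  LinearMap.mulLeft S.F θ - LinearMap.mulRight S.F θ

/-- The centraliser as a subspace. -/
def Stg.cent (S : Stg) (θ : S.C) : Submodule S.F S.C := LinearMap.ker (S.ad θ)

/-- The subalgebra generated by one element, as a subspace. -/
def Stg.gen (S : Stg) (θ : S.C) : Submodule S.F S.C :=
  Subalgebra.toSubmodule (Algebra.adjoin S.F ({θ} : Set S.C))

end Linear

variable (o : Obj)

/-- The base value. -/
def Obj.θ : o.S.C := o.f []

/-- Degree of the base value. -/
noncomputable def Obj.d : ℕ := finrank o.S.F (o.S.gen o.θ)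

/-- The linear part of `f` at the base point. -/
def Obj.Df : (Fin o.K → o.S.F) →ₗ[o.S.F] o.S.C where
  toFun x := ∑ i, x i • o.f [i]
  map_add' x y := by simp [add_smul, Finset.sum_add_distrib]
  map_smul' r x := by simp [Finset.smul_sum, smul_smul]

/-- The tangent space: the image of the linear part plus the commutators with the base value. -/
def Obj.T : Submodule o.S.F o.S.C := LinearMap.range o.Df ⊔ LinearMap.range (o.S.ad o.θ)

/-- Tangent space inside the centraliser. -/
def Obj.W : Submodule o.S.F o.S.C := o.T ⊓ o.S.cent o.θ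

/-- Cokernel: the orthogonal of the tangent space. -/
noncomputable def Obj.Kc : Submodule o.S.F o.S.C := o.S.orth o.T

/-- Algebra generated by the ratios of elements of `W`. -/
noncomputable def Obj.L0 : Submodule o.S.F o.S.C :=
  Subalgebra.toSubmodule
    (Algebra.adjoin o.S.F {x : o.S.C | ∃ a ∈ o.W, ∃ b ∈ o.W, b ≠ 0 ∧ x = a * b⁻¹})

/-- Degree of the ratio algebra. -/
noncomputable def Obj.d0 : ℕ := finrank o.S.F o.L0

/-- Dimension of `W`. -/
noncomputable def Obj.r : ℕ := finrank o.S.F o.W

/-- A state: full, with at least two variables and with a nonzero tangent space in the centraliser. -/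
def Obj.State (root : Obj) : Prop := root.Desc o ∧ o.W ≠ ⊥

/-- Minimal states: the base value has the largest degree relative to the dimension, then the ratio
algebra has the largest degree relative to the base value, then the corank is smallest among states
with `4 c + 8 ≤ d0`. All comparisons are cross-multiplied. -/
structure Obj.Minimal (root o : Obj) : Prop where
  state : o.State root
  deg : ∀ s : Obj, s.State root → s.d ^ 2 * o.S.dim ≤ o.d ^ 2 * s.S.dim
  ratio : ∀ s : Obj, s.State root → s.d ^ 2 * o.S.dim = o.d ^ 2 * s.S.dim → s.d0 * o.d ≤ o.d0 * s.d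
  small : 4 * (o.d0 - o.r) + 8 ≤ o.d0
  corank : ∀ s : Obj, s.State root → s.d ^ 2 * o.S.dim = o.d ^ 2 * s.S.dim →
    s.d0 * o.d = o.d0 * s.d → 4 * (s.d0 - s.r) + 8 ≤ s.d0 → o.d0 - o.r ≤ s.d0 - s.r

end P199K
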