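import Mathlib
import Vale.Agent.P199.Kurosh.Stage
import Vale.Agent.P199.Kurosh.Centralizer

/-! Toolkit on a stage: the trace form, orthogonals, centralisers, generated subfields, derivations. -/

open Module

namespace P199K

namespace Stg

variable (S : Stg)

theorem dim_pos : 0 < S.dim := finrank_pos

theorem dim_ne_zero : (S.dim : S.F) ≠ 0 := Nat.cast_ne_zero.2 S.dim_pos.ne'

theorem τ_apply (a : S.C) : S.τ a = LinearMap.trace S.F S.C (LinearMap.mulLeft S.F a) := rfl

@[simp] theorem τ_one : S.τ 1 = (S.dim : S.F) := by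
  rw [τ_apply, LinearMap.mulLeft_one, ← Module.End.one_eq_id, LinearMap.trace_one, Stg.dim]

@[simp] theorem τ_algebraMap (r : S.F) : S.τ (algebraMap S.F S.C r) = r * S.dim := by
  rw [Algebra.algebraMap_eq_smul_one, map_smul, τ_one, smul_eq_mul]

theorem τ_mul_comm (a b : S.C) : S.τ (a * b) = S.τ (b * a) := by
  simp only [τ_apply, LinearMap.mulLeft_mul]
  exact LinearMap.trace_mul_comm S.F (LinearMap.mulLeft S.F a) (LinearMap.mulLeft S.F b)

theorem eq_zero_of_τ_mul {a : S.C} (h : ∀ c, S.τ (a * c) = 0) : a = 0 := by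
  by_contra ha
  have := h a⁻¹
  rw [mul_inv_cancel₀ ha, τ_one] at this
  exact S.dim_ne_zero this

theorem eq_of_τ_mul {a b : S.C} (h : ∀ c, S.τ (a * c) = S.τ (b * c)) : a = b :=
  sub_eq_zero.1 (S.eq_zero_of_τ_mul fun c => by rw [sub_mul, map_sub, h, sub_self])

/-- An element all of whose positive powers have trace zero is zero. -/
theorem eq_zero_of_τ_pow {a : S.C} (h : ∀ n, 1 ≤ n → S.τ (a ^ n) = 0) : a = 0 := by
  by_contra ha
  have hint : IsIntegral S.F a := Algebra.IsIntegral.isIntegral a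
  have h0 : (minpoly S.F a).coeff 0 ≠ 0 := minpoly.coeff_zero_ne_zero hint ha
  have hp := congrArg S.τ (minpoly.aeval S.F a)
  rw [map_zero, Polynomial.aeval_eq_sum_range, map_sum, Finset.sum_range_succ'] at hp
  rw [Finset.sum_eq_zero fun i _ => by rw [map_smul, h (i + 1) (by omega), smul_zero],
    zero_add, pow_zero, map_smul, smul_eq_mul, τ_one] at hp
  rcases mul_eq_zero.1 hp with h' | h'
  · exact h0 h'
  · exact S.dim_ne_zero h'

/-! ### Orthogonals -/

/-- The trace form as a bilinear form. -/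
noncomputable def B : LinearMap.BilinForm S.F S.C := (LinearMap.mul S.F S.C).compr₂ S.τ

@[simp] theorem B_apply (a b : S.C) : S.B a b = S.τ (a * b) := rfl

theorem B_isSymm : S.B.IsSymm := ⟨fun a b => S.τ_mul_comm a b⟩

theorem B_isRefl : S.B.IsRefl := fun a b h => by
  rw [B_apply] at h ⊢
  rwa [S.τ_mul_comm]

theorem B_nondegenerate : S.B.Nondegenerate := by
  refine ⟨fun a h => S.eq_zero_of_τ_mul h, fun a h => S.eq_zero_of_τ_mul fun c => ?_⟩
  rw [S.τ_mul_comm]
  exact h c

variable {S}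

theorem mem_orth {V : Submodule S.F S.C} {z : S.C} :
    z ∈ S.orth V ↔ ∀ v ∈ V, S.τ (z * v) = 0 := Iff.rfl

theorem mem_orth' {V : Submodule S.F S.C} {z : S.C} :
    z ∈ S.orth V ↔ ∀ v ∈ V, S.τ (v * z) = 0 := by
  simp only [mem_orth, S.τ_mul_comm z]

theorem orth_eq (V : Submodule S.F S.C) : S.orth V = S.B.orthogonal V := by
  ext z
  rw [mem_orth']
  exact Iff.rfl

theorem mem_orth_span {s : Set S.C} {z : S.C} :
    z ∈ S.orth (Submodule.span S.F s) ↔ ∀ v ∈ s, S.τ (z * v) = 0 := by
  refine ⟨fun h v hv => h v (Submodule.subset_span hv), fun h v hv => ?_⟩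
  induction hv using Submodule.span_induction with
  | mem x hx => exact h x hx
  | zero => simp
  | add x y _ _ hx hy => rw [mul_add, map_add, hx, hy, add_zero]
  | smul r x _ hx => rw [mul_smul_comm, map_smul, hx, smul_zero]

theorem orth_anti {V V' : Submodule S.F S.C} (h : V ≤ V') : S.orth V' ≤ S.orth V :=
  fun _ hz v hv => hz v (h hv)

theorem orth_sup (V V' : Submodule S.F S.C) : S.orth (V ⊔ V') = S.orth V ⊓ S.orth V' := by
  refine le_antisymm (le_inf (orth_anti le_sup_left) (orth_anti le_sup_right)) ?_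
  rintro z ⟨h1, h2⟩ v hv
  obtain ⟨a, ha, b, hb, rfl⟩ := Submodule.mem_sup.1 hv
  rw [mul_add, map_add, h1 a ha, h2 b hb, add_zero]

theorem orth_top : S.orth (⊤ : Submodule S.F S.C) = ⊥ :=
  (Submodule.eq_bot_iff _).2 fun _ hz => S.eq_zero_of_τ_mul fun c => hz c trivial

theorem orth_bot : S.orth (⊥ : Submodule S.F S.C) = ⊤ :=
  eq_top_iff.2 fun _ _ v hv => by simp [(Submodule.mem_bot S.F).1 hv]

theorem finrank_orth (V : Submodule S.F S.C) :
    finrank S.F (S.orth V) = S.dim - finrank S.F V := by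
  rw [orth_eq]
  exact LinearMap.BilinForm.finrank_orthogonal S.B_nondegenerate V

theorem finrank_orth_add (V : Submodule S.F S.C) :
    finrank S.F (S.orth V) + finrank S.F V = S.dim := by
  have := Submodule.finrank_le V
  rw [finrank_orth]
  unfold Stg.dim at *
  omega

@[simp] theorem orth_orth (V : Submodule S.F S.C) : S.orth (S.orth V) = V := by
  rw [orth_eq, orth_eq]
  exact LinearMap.BilinForm.orthogonal_orthogonal S.B_nondegenerate S.B_isRefl V

theorem le_orth_comm {V V' : Submodule S.F S.C} : V ≤ S.orth V' ↔ V' ≤ S.orth V :=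
  ⟨fun h v hv => mem_orth'.2 fun _ hw => h hw v hv, fun h v hv => mem_orth'.2 fun _ hw => h hw v hv⟩

theorem orth_inf (V V' : Submodule S.F S.C) : S.orth (V ⊓ V') = S.orth V ⊔ S.orth V' := by
  conv_lhs => rw [← orth_orth V, ← orth_orth V', ← orth_sup, orth_orth]

/-! ### Centralisers and commutators -/

theorem ad_apply (θ x : S.C) : S.ad θ x = θ * x - x * θ := rfl

theorem mem_cent {θ x : S.C} : x ∈ S.cent θ ↔ θ * x = x * θ := by
  rw [Stg.cent, LinearMap.mem_ker, ad_apply, sub_eq_zero]

theorem self_mem_cent (θ : S.C) : θ ∈ S.cent θ := mem_cent.2 rfl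

theorem one_mem_cent (θ : S.C) : (1 : S.C) ∈ S.cent θ := mem_cent.2 (by simp)

theorem algebraMap_mem_cent (θ : S.C) (r : S.F) : algebraMap S.F S.C r ∈ S.cent θ :=
  mem_cent.2 (Algebra.commutes r θ).symm

theorem mul_mem_cent {θ x y : S.C} (hx : x ∈ S.cent θ) (hy : y ∈ S.cent θ) : x * y ∈ S.cent θ := by
  rw [mem_cent] at *
  rw [← mul_assoc, hx, mul_assoc, hy, mul_assoc]

theorem inv_mem_cent {θ x : S.C} (hx : x ∈ S.cent θ) : x⁻¹ ∈ S.cent θ :=
  mem_cent.2 (Commute.inv_right₀ (mem_cent.1 hx : Commute θ x))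

theorem τ_cent_mul_ad {θ z : S.C} (hz : z ∈ S.cent θ) (x : S.C) : S.τ (z * S.ad θ x) = 0 := by
  rw [ad_apply, mul_sub, map_sub, sub_eq_zero, ← mul_assoc, ← mem_cent.1 hz, mul_assoc,
    S.τ_mul_comm θ, mul_assoc]

/-- The orthogonal of the commutators with `θ` is the centraliser. -/
theorem orth_range_ad (θ : S.C) : S.orth (LinearMap.range (S.ad θ)) = S.cent θ := by
  refine le_antisymm (fun z hz => mem_cent.2 (S.eq_of_τ_mul fun c => ?_)) fun z hz v hv => ?_
  · have := hz _ ⟨c, rfl⟩
    rw [ad_apply, mul_sub, map_sub, sub_eq_zero] at this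
    rw [mul_assoc, S.τ_mul_comm θ, mul_assoc, mul_assoc]
    exact this.symm
  · obtain ⟨x, rfl⟩ := hv
    exact τ_cent_mul_ad hz x

theorem orth_cent (θ : S.C) : S.orth (S.cent θ) = LinearMap.range (S.ad θ) := by
  rw [← orth_range_ad, orth_orth]

theorem finrank_range_ad_add (θ : S.C) :
    finrank S.F (LinearMap.range (S.ad θ)) + finrank S.F (S.cent θ) = S.dim :=
  LinearMap.finrank_range_add_finrank_ker (S.ad θ)

theorem aeval_commute {θ y : S.C} (h : θ * y = y * θ) (p : Polynomial S.F) :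
    Polynomial.aeval θ p * y = y * Polynomial.aeval θ p := by
  induction p using Polynomial.induction_on' with
  | add p q hp hq => simp [add_mul, mul_add, hp, hq]
  | monomial n r =>
    rw [Polynomial.aeval_monomial, mul_assoc, (Commute.pow_left (h : Commute θ y) n).eq,
      ← mul_assoc, Algebra.commutes, mul_assoc]

/-- If `c = θ x - x θ` commutes with `θ`, then `[p θ, x] = p' θ * c`. -/
theorem aeval_commutator {θ x : S.C} (hc : θ * S.ad θ x = S.ad θ x * θ) (p : Polynomial S.F) :
    Polynomial.aeval θ p * x - x * Polynomial.aeval θ p =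
      Polynomial.aeval θ p.derivative * S.ad θ x := by
  induction p using Polynomial.induction_on with
  | C r => simp [Algebra.commutes]
  | add p q hp hq =>
    simp only [map_add, add_mul, mul_add, ← hp, ← hq]
    abel
  | monomial n r ih =>
    rw [pow_succ, ← mul_assoc]
    generalize Polynomial.C r * Polynomial.X ^ n = q at ih ⊢
    simp only [map_mul, Polynomial.aeval_X, Polynomial.derivative_mul, Polynomial.derivative_X,
      mul_one, map_add, add_mul]
    rw [mul_assoc (Polynomial.aeval θ q.derivative), hc, ← mul_assoc (Polynomial.aeval θ q.derivative),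
      ← ih, ad_apply]
    simp only [mul_assoc, sub_mul, mul_sub]
    abel

theorem cent_disjoint_range_ad (θ : S.C) : Disjoint (S.cent θ) (LinearMap.range (S.ad θ)) := by
  rw [Submodule.disjoint_def]
  rintro _ hc ⟨x, rfl⟩
  have hint : IsIntegral S.F θ := Algebra.IsIntegral.isIntegral θ
  have h := aeval_commutator (x := x) (mem_cent.1 hc) (minpoly S.F θ)
  rw [minpoly.aeval, zero_mul, mul_zero, sub_zero] at h
  refine (mul_eq_zero.1 h.symm).resolve_left fun h0 => ?_
  have hpos := minpoly.natDegree_pos hint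
  have hne : (minpoly S.F θ).derivative ≠ 0 := fun h1 => by
    rw [Polynomial.derivative_eq_zero] at h1
    omega
  have h2 := Polynomial.natDegree_le_of_dvd (minpoly.dvd S.F θ h0) hne
  have h3 := Polynomial.natDegree_derivative_lt hpos.ne'
  omega

theorem cent_sup_range_ad (θ : S.C) : S.cent θ ⊔ LinearMap.range (S.ad θ) = ⊤ :=
  Submodule.eq_top_of_disjoint _ _
    ((finrank_range_ad_add θ).ge.trans_eq (add_comm _ _)) (cent_disjoint_range_ad θ)

theorem isCompl_cent_range_ad (θ : S.C) : IsCompl (S.cent θ) (LinearMap.range (S.ad θ)) :=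
  ⟨cent_disjoint_range_ad θ, codisjoint_iff.2 (cent_sup_range_ad θ)⟩

theorem exists_cent_add_ad (θ x : S.C) : ∃ z ∈ S.cent θ, ∃ y, x = z + S.ad θ y := by
  have h : x ∈ S.cent θ ⊔ LinearMap.range (S.ad θ) := by rw [cent_sup_range_ad]; trivial
  obtain ⟨z, hz, _, ⟨y, rfl⟩, rfl⟩ := Submodule.mem_sup.1 h
  exact ⟨z, hz, y, rfl⟩

/-- The trace form is nondegenerate on a centraliser. -/
theorem eq_zero_of_mem_cent {θ z : S.C} (hz : z ∈ S.cent θ) (h : ∀ y ∈ S.cent θ, S.τ (z * y) = 0) :
    z = 0 := by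
  refine S.eq_zero_of_τ_mul fun c => ?_
  obtain ⟨y, hy, x, rfl⟩ := exists_cent_add_ad θ c
  rw [mul_add, map_add, h y hy, τ_cent_mul_ad hz, add_zero]

/-! ### Generated subfields -/

theorem mem_gen {θ x : S.C} : x ∈ S.gen θ ↔ ∃ p : Polynomial S.F, Polynomial.aeval θ p = x := by
  rw [Stg.gen, Subalgebra.mem_toSubmodule, Algebra.adjoin_singleton_eq_range_aeval, AlgHom.mem_range]

theorem self_mem_gen (θ : S.C) : θ ∈ S.gen θ := Algebra.self_mem_adjoin_singleton S.F θ

theorem one_mem_gen (θ : S.C) : (1 : S.C) ∈ S.gen θ := one_mem (Algebra.adjoin S.F ({θ} : Set S.C))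

theorem algebraMap_mem_gen (θ : S.C) (r : S.F) : algebraMap S.F S.C r ∈ S.gen θ :=
  Subalgebra.algebraMap_mem _ r

theorem mul_mem_gen {θ x y : S.C} (hx : x ∈ S.gen θ) (hy : y ∈ S.gen θ) : x * y ∈ S.gen θ :=
  mul_mem (S := Subalgebra S.F S.C) hx hy

theorem gen_le_cent (θ : S.C) : S.gen θ ≤ S.cent θ := fun x hx => by
  obtain ⟨p, rfl⟩ := mem_gen.1 hx
  exact mem_cent.2 (aeval_commute rfl p).symm

theorem commute_cent {θ x y : S.C} (hx : x ∈ S.gen θ) (hy : y ∈ S.cent θ) : x * y = y * x := by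
  obtain ⟨p, rfl⟩ := mem_gen.1 hx
  exact aeval_commute (mem_cent.1 hy) p

theorem commute_gen {θ x y : S.C} (hx : x ∈ S.gen θ) (hy : y ∈ S.gen θ) : x * y = y * x :=
  commute_cent hx (gen_le_cent θ hy)

theorem inv_mem_subalgebra (A : Subalgebra S.F S.C) {x : S.C} (hx : x ∈ A) : x⁻¹ ∈ A := by
  rcases eq_or_ne x 0 with rfl | hx0
  · rw [inv_zero]
    exact A.zero_mem
  have hinj : Function.Injective (LinearMap.mulLeft S.F (⟨x, hx⟩ : A)) := fun a b h =>
    Subtype.ext (mul_left_cancel₀ hx0 (congrArg Subtype.val h :))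
  obtain ⟨y, hy⟩ := LinearMap.surjective_of_injective hinj 1
  have hy' : x * (y : S.C) = 1 := congrArg Subtype.val hy
  rw [inv_eq_of_mul_eq_one_right hy']
  exact y.2

theorem inv_mem_gen {θ x : S.C} (hx : x ∈ S.gen θ) : x⁻¹ ∈ S.gen θ :=
  inv_mem_subalgebra (Algebra.adjoin S.F ({θ} : Set S.C)) hx

/-- A commutative subalgebra has a field structure. -/
@[reducible] noncomputable def fieldOfComm (A : Subalgebra S.F S.C)
    (hA : ∀ x ∈ A, ∀ y ∈ A, x * y = y * x) : Field A :=
  letI : CommRing A :=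
    { (inferInstance : Ring A) with mul_comm := fun x y => Subtype.ext (hA _ x.2 _ y.2) }
  fieldOfFiniteDimensional S.F A

/-- A commutative subalgebra is generated by one element. -/
theorem exists_generator (A : Subalgebra S.F S.C) (hA : ∀ x ∈ A, ∀ y ∈ A, x * y = y * x) :
    ∃ θ, Algebra.adjoin S.F ({θ} : Set S.C) = A := by
  let _ := fieldOfComm A hA
  obtain ⟨α, hα⟩ := Field.exists_primitive_element S.F A
  have h : Algebra.adjoin S.F ({α} : Set A) = ⊤ := by
    rw [← IntermediateField.adjoin_simple_toSubalgebra_of_isAlgebraic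
      (Algebra.IsAlgebraic.isAlgebraic α), hα, IntermediateField.top_toSubalgebra]
  refine ⟨(α : S.C), ?_⟩
  have := congrArg (Subalgebra.map A.val) h
  rwa [AlgHom.map_adjoin, Set.image_singleton, Algebra.map_top, Subalgebra.range_val] at this

/-- Two commuting elements lie in one generated subfield. -/
theorem exists_gen_of_commute {x y : S.C} (h : x * y = y * x) :
    ∃ θ, x ∈ S.gen θ ∧ y ∈ S.gen θ := by
  have hA : ∀ a ∈ Algebra.adjoin S.F ({x, y} : Set S.C),
      ∀ b ∈ Algebra.adjoin S.F ({x, y} : Set S.C), a * b = b * a := by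
    intro a ha b hb
    refine Algebra.commute_of_mem_adjoin_of_forall_mem_commute (R := S.F) hb fun c hc => ?_
    refine (Algebra.commute_of_mem_adjoin_of_forall_mem_commute (R := S.F) ha fun e he => ?_).symm
    rcases hc with rfl | rfl <;> rcases he with rfl | rfl <;>
      first | exact Commute.refl _ | exact h | exact h.symm
  obtain ⟨θ, hθ⟩ := exists_generator _ hA
  exact ⟨θ, by rw [Stg.gen, hθ]; exact Algebra.subset_adjoin (by simp),
    by rw [Stg.gen, hθ]; exact Algebra.subset_adjoin (by simp)⟩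

/-! ### Casimir element, trace formula, derivations -/

variable (S)

/-- A basis of the coefficient algebra. -/
noncomputable def bas : Basis (Fin S.dim) S.F S.C := Module.finBasis S.F S.C

/-- Its dual basis for the trace form. -/
noncomputable def dbas : Basis (Fin S.dim) S.F S.C := S.B.dualBasis S.B_nondegenerate S.bas

theorem τ_dbas_mul_bas (i j : Fin S.dim) :
    S.τ (S.dbas i * S.bas j) = if j = i then 1 else 0 :=
  LinearMap.BilinForm.apply_dualBasis_left S.B_nondegenerate S.bas i j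

theorem sum_τ_smul_dbas (x : S.C) : ∑ i, S.τ (x * S.bas i) • S.dbas i = x := by
  conv_rhs => rw [← S.dbas.sum_repr x]
  exact Finset.sum_congr rfl fun i _ => by
    rw [dbas, LinearMap.BilinForm.dualBasis_repr_apply]
    rfl

theorem sum_τ_smul_bas (x : S.C) : ∑ i, S.τ (S.dbas i * x) • S.bas i = x := by
  conv_rhs => rw [← S.bas.sum_repr x]
  refine Finset.sum_congr rfl fun i _ => ?_
  congr 1
  conv_lhs => rw [← S.bas.sum_repr x]
  rw [Finset.mul_sum, map_sum, Finset.sum_eq_single i]
  · rw [mul_smul_comm, map_smul, τ_dbas_mul_bas, if_pos rfl, smul_eq_mul, mul_one]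
  · intro j _ hj
    rw [mul_smul_comm, map_smul, τ_dbas_mul_bas, if_neg hj, smul_zero]
  · simp

/-- The Casimir element commutes with `C`. -/
theorem sum_map_casimir {V : Type} [AddCommGroup V] [Module S.F V] (Φ : S.C →ₗ[S.F] S.C →ₗ[S.F] V)
    (c : S.C) : ∑ i, Φ (c * S.bas i) (S.dbas i) = ∑ i, Φ (S.bas i) (S.dbas i * c) := by
  calc ∑ i, Φ (c * S.bas i) (S.dbas i)
      = ∑ i, ∑ j, S.τ (S.dbas j * (c * S.bas i)) • Φ (S.bas j) (S.dbas i) := by
        refine Finset.sum_congr rfl fun i _ => ?_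
        conv_lhs => rw [← S.sum_τ_smul_bas (c * S.bas i)]
        simp only [map_sum, map_smul, LinearMap.sum_apply, LinearMap.smul_apply]
    _ = ∑ j, ∑ i, S.τ (S.dbas j * c * S.bas i) • Φ (S.bas j) (S.dbas i) := by
        rw [Finset.sum_comm]
        simp only [mul_assoc]
    _ = ∑ j, Φ (S.bas j) (S.dbas j * c) := by
        refine Finset.sum_congr rfl fun j _ => ?_
        conv_rhs => rw [← S.sum_τ_smul_dbas (S.dbas j * c)]
        simp only [map_sum, map_smul]

/-- Derivations are inner. -/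
theorem exists_inner (D : S.C →ₗ[S.F] S.C) (hD : ∀ a b, D (a * b) = a * D b + D a * b) :
    ∃ h, ∀ a, D a = S.ad h a := by
  have hs : ∀ c, c * (∑ i, S.bas i * S.dbas i) = (∑ i, S.bas i * S.dbas i) * c := fun c => by
    rw [Finset.mul_sum, Finset.sum_mul]
    simpa [mul_assoc] using S.sum_map_casimir (LinearMap.mul S.F S.C) c
  obtain ⟨r, hr⟩ := S.central _ fun c => (hs c).symm
  have hr0 : r ≠ 0 := by
    rintro rfl
    have h := congrArg S.τ hr.symm
    rw [map_zero, map_zero, map_sum] at h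
    simp only [S.τ_mul_comm (S.bas _), τ_dbas_mul_bas, if_pos, Finset.sum_const, Finset.card_univ,
      Fintype.card_fin, nsmul_eq_mul, mul_one] at h
    exact S.dim_ne_zero h
  refine ⟨r⁻¹ • ∑ i, D (S.bas i) * S.dbas i, fun c => ?_⟩
  have h := S.sum_map_casimir ((LinearMap.mul S.F S.C).comp D) c
  simp only [LinearMap.comp_apply, LinearMap.mul_apply', hD, add_mul, Finset.sum_add_distrib,
    ← mul_assoc, ← Finset.sum_mul] at h
  simp only [mul_assoc, ← Finset.mul_sum] at h
  rw [← hr, ← Algebra.commutes r, ← Algebra.smul_def] at h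
  rw [ad_apply, smul_mul_assoc, mul_smul_comm, ← smul_sub, eq_inv_smul_iff₀ hr0, eq_sub_iff_add_eq,
    add_comm]
  simpa [mul_assoc] using h

/-- The commutators have codimension one. -/
theorem eq_mul_τ_of_comm (φ : S.C →ₗ[S.F] S.F) (h : ∀ a b, φ (a * b) = φ (b * a)) (a : S.C) :
    φ a * S.dim = φ 1 * S.τ a := by
  obtain ⟨z, hz⟩ := (S.B.toDual S.B_nondegenerate).surjective φ
  have hz' : ∀ x, S.τ (z * x) = φ x := fun x => by
    rw [← hz, LinearMap.BilinForm.toDual_def]
    rfl
  obtain ⟨r, hr⟩ := S.central z fun y => S.eq_of_τ_mul fun c => by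
    rw [mul_assoc, hz', h y c, ← hz', ← mul_assoc, S.τ_mul_comm (z * c) y, mul_assoc]
  have hv : ∀ x, φ x = r * S.τ x := fun x => by
    rw [← hz', ← hr, ← Algebra.smul_def, map_smul, smul_eq_mul]
  rw [hv a, hv 1, τ_one]
  ring

/-- The trace of `x ↦ a x b`. -/
theorem trace_lr (a b : S.C) :
    LinearMap.trace S.F S.C (LinearMap.mulLeftRight S.F (a, b)) * S.dim = S.τ a * S.τ b := by
  let φ : S.C →ₗ[S.F] S.F :=
    ((LinearMap.trace S.F S.C).comp (LinearMap.llcomp S.F S.C S.C S.C
      |>.flip (LinearMap.mulRight S.F b))).comp (LinearMap.mul S.F S.C)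
  have hφ : ∀ x, φ x = LinearMap.trace S.F S.C
      (LinearMap.mulLeft S.F x * LinearMap.mulRight S.F b) := fun x => rfl
  have hlr : LinearMap.mulLeftRight S.F (a, b) =
      LinearMap.mulLeft S.F a * LinearMap.mulRight S.F b := by
    ext x
    simp [mul_assoc]
  have hc : ∀ x y, φ (x * y) = φ (y * x) := fun x y => by
    have e : ∀ u v : S.C, LinearMap.mulLeft S.F (u * v) * LinearMap.mulRight S.F b =
        LinearMap.mulLeft S.F u * (LinearMap.mulLeft S.F v * LinearMap.mulRight S.F b) :=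
      fun u v => by ext; simp
    have e' : LinearMap.mulLeft S.F (y * x) * LinearMap.mulRight S.F b =
        LinearMap.mulLeft S.F y * LinearMap.mulRight S.F b * LinearMap.mulLeft S.F x := by
      ext; simp [mul_assoc]
    rw [hφ, hφ, e, e']
    exact LinearMap.trace_mul_comm S.F _ _
  let ψ : S.C →ₗ[S.F] S.F := (LinearMap.trace S.F S.C).comp (LinearMap.mul S.F S.C).flip
  have hψ : ∀ x, ψ x = LinearMap.trace S.F S.C (LinearMap.mulRight S.F x) := fun x => rfl
  have hc' : ∀ x y, ψ (x * y) = ψ (y * x) := fun x y => by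
    rw [hψ, hψ, LinearMap.mulRight_mul, LinearMap.mulRight_mul]
    exact LinearMap.trace_mul_comm S.F (LinearMap.mulRight S.F y) (LinearMap.mulRight S.F x)
  have h1 := S.eq_mul_τ_of_comm φ hc a
  have h2 := S.eq_mul_τ_of_comm ψ hc' b
  rw [hlr, ← hφ, h1]
  have h3 : φ 1 = ψ b := by rw [hφ, hψ, LinearMap.mulLeft_one, ← Module.End.one_eq_id, one_mul]
  have h4 : ψ 1 = S.dim := by
    rw [hψ, LinearMap.mulRight_one, ← Module.End.one_eq_id, LinearMap.trace_one, Stg.dim]
  rw [h4, mul_comm (ψ b)] at h2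
  rw [h3, mul_left_cancel₀ S.dim_ne_zero h2, mul_comm]

/-! ### Degrees -/

variable {S}

open Vale.P199K.Centralizer in
/-- Double centraliser dimension formula. -/
theorem finrank_gen_mul_finrank_cent (θ : S.C) :
    finrank S.F (S.gen θ) * finrank S.F (S.cent θ) = S.dim := by
  let A := Algebra.adjoin S.F ({θ} : Set S.C)
  let _ := fieldOfComm A fun x hx y hy => commute_gen hx hy
  let ι : A →ₐ[S.F] S.C := A.val
  have hA : finrank S.F (S.gen θ) = finrank S.F A := rfl
  obtain ⟨r, hn, hr⟩ := exists_trace_mulLeft (F := S.F) (C := S.C) ι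
  have hτ : ∀ l : A, S.τ (ι l) = r * Algebra.trace S.F A l := hr
  have hsp : space ι = S.cent θ := by
    ext x
    rw [mem_space, mem_cent]
    exact ⟨fun h => h ⟨θ, Algebra.self_mem_adjoin_singleton S.F θ⟩,
      fun h l => commute_cent l.2 (mem_cent.2 h)⟩
  have h := (isProj ι).trace
  rw [hsp] at h
  have key : (finrank S.F (S.cent θ) : S.F) * S.dim = r * S.dim := by
    rw [← h]
    calc LinearMap.trace S.F S.C (proj ι) * S.dim
        = ∑ i, S.τ (ι (basis (F := S.F) (L := A) i)) * S.τ (ι (dual (F := S.F) (L := A) i)) := by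
          simp only [proj, map_sum, Finset.sum_mul, trace_lr]
      _ = (r : S.F) * r * Algebra.trace S.F A
            (∑ i, Algebra.trace S.F A (basis (F := S.F) (L := A) i) •
              dual (F := S.F) (L := A) i) := by
          simp only [hτ, map_sum, map_smul, Finset.mul_sum, smul_eq_mul]
          exact Finset.sum_congr rfl fun i _ => by ring
      _ = r * S.dim := by
          rw [trace_sum_smul_dual, ← map_one (algebraMap S.F A), Algebra.trace_algebraMap,
            nsmul_eq_mul, mul_one, Stg.dim, hn, Nat.cast_mul]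
          ring
  have h' : finrank S.F (S.cent θ) = r := by exact_mod_cast mul_right_cancel₀ S.dim_ne_zero key
  rw [h', hA]
  exact hn.symm

theorem finrank_gen_pos (θ : S.C) : 0 < finrank S.F (S.gen θ) :=
  Submodule.one_le_finrank_iff.2 fun h =>
    one_ne_zero ((Submodule.mem_bot S.F).1 (h ▸ one_mem_gen θ))

theorem finrank_gen_le_cent (θ : S.C) : finrank S.F (S.gen θ) ≤ finrank S.F (S.cent θ) :=
  Submodule.finrank_mono (gen_le_cent θ)

theorem finrank_gen_sq_le (θ : S.C) : finrank S.F (S.gen θ) ^ 2 ≤ S.dim := by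
  rw [sq, ← finrank_gen_mul_finrank_cent θ]
  exact Nat.mul_le_mul_left _ (finrank_gen_le_cent θ)

variable (S)

/-- The dimension is a square: `dim = N ^ 2` for the largest degree of a subfield. -/
theorem exists_dim_eq_sq : ∃ (N : ℕ) (θ : S.C), finrank S.F (S.gen θ) = N ∧ S.dim = N ^ 2 ∧
    S.cent θ = S.gen θ := by
  classical
  have hex : ∃ m, ∀ θ : S.C, finrank S.F (S.gen θ) ≤ m :=
    ⟨S.dim, fun θ => Submodule.finrank_le _⟩
  let N := Nat.find hex
  have hN : ∀ θ : S.C, finrank S.F (S.gen θ) ≤ N := Nat.find_spec hex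
  obtain ⟨θ, hθ⟩ : ∃ θ : S.C, finrank S.F (S.gen θ) = N := by
    by_contra hne
    push Not at hne
    have hpos : 0 < N := lt_of_lt_of_le (finrank_gen_pos (1 : S.C)) (hN 1)
    exact Nat.find_min hex (Nat.sub_lt hpos one_pos) fun θ => by
      have := lt_of_le_of_ne (hN θ) (hne θ)
      omega
  have hcg : S.cent θ = S.gen θ := by
    refine le_antisymm (fun x hx => ?_) (gen_le_cent θ)
    obtain ⟨η, hη1, hη2⟩ := exists_gen_of_commute (mem_cent.1 hx)
    have hle : S.gen θ ≤ S.gen η := fun z hz => by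
      obtain ⟨p, rfl⟩ := mem_gen.1 hz
      exact Algebra.adjoin_le (S := Algebra.adjoin S.F ({η} : Set S.C))
        (Set.singleton_subset_iff.2 hη1)
        (by rw [Algebra.adjoin_singleton_eq_range_aeval]; exact ⟨p, rfl⟩)
    rw [Submodule.eq_of_le_of_finrank_le hle (by rw [hθ]; exact hN η)]
    exact hη2
  refine ⟨N, θ, hθ, ?_, hcg⟩
  rw [← finrank_gen_mul_finrank_cent θ, hcg, hθ, sq]

/-- The square root of the dimension. -/
noncomputable def deg : ℕ := S.exists_dim_eq_sq.choose

theorem deg_sq : S.deg ^ 2 = S.dim := by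
  obtain ⟨_, _, h, _⟩ := S.exists_dim_eq_sq.choose_spec
  exact h.symm

theorem deg_pos : 0 < S.deg := by
  refine Nat.pos_of_ne_zero fun h => ?_
  have h1 := S.dim_pos
  rw [← S.deg_sq, h] at h1
  simp at h1

/-- The reduced trace as a trace datum. -/
noncomputable def datum : Vale.P199K.TraceDatum S.F S.C where
  τ := (S.deg : S.F)⁻¹ • S.τ
  mul_comm a b := by simp [S.τ_mul_comm a b]
  trace_lr a b := by
    have hd : (S.deg : S.F) ≠ 0 := Nat.cast_ne_zero.2 S.deg_pos.ne'
    have h := S.trace_lr a b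
    rw [← S.deg_sq, Nat.cast_pow] at h
    simp only [LinearMap.smul_apply, smul_eq_mul]
    field_simp
    linear_combination h

variable {S}

theorem finrank_gen_le_deg (θ : S.C) : finrank S.F (S.gen θ) ≤ S.deg :=
  (Nat.pow_le_pow_iff_left two_ne_zero).1 (S.deg_sq ▸ finrank_gen_sq_le θ)

theorem finrank_gen_eq_natDegree (θ : S.C) :
    finrank S.F (S.gen θ) = (minpoly S.F θ).natDegree := by
  let A := Algebra.adjoin S.F ({θ} : Set S.C)
  let _ := fieldOfComm A fun x hx y hy => commute_gen hx hy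
  let g : A := ⟨θ, Algebra.self_mem_adjoin_singleton S.F θ⟩
  have hg : Algebra.adjoin S.F ({g} : Set A) = ⊤ := by
    apply Subalgebra.map_injective (f := A.val) Subtype.val_injective
    rw [AlgHom.map_adjoin, Set.image_singleton, Algebra.map_top, Subalgebra.range_val]
    rfl
  have hg' : IntermediateField.adjoin S.F ({g} : Set A) = ⊤ := by
    apply IntermediateField.toSubalgebra_injective
    rw [IntermediateField.adjoin_simple_toSubalgebra_of_isAlgebraic
      (Algebra.IsAlgebraic.isAlgebraic g), hg, IntermediateField.top_toSubalgebra]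
  exact ((Field.primitive_element_iff_minpoly_natDegree_eq S.F g).1 hg').symm.trans
    (congrArg Polynomial.natDegree (minpoly.algHom_eq A.val Subtype.val_injective g).symm)

theorem finrank_gen_dvd_cent (θ : S.C) : finrank S.F (S.gen θ) ∣ finrank S.F (S.cent θ) := by
  let A := Algebra.adjoin S.F ({θ} : Set S.C)
  let _ := fieldOfComm A fun x hx y hy => commute_gen hx hy
  let ι : A →ₐ[S.F] S.C := A.val
  obtain ⟨e, he, -⟩ := Vale.P199K.Centralizer.exists_finrank_space S.datum ι
  have hsp : Vale.P199K.Centralizer.space ι = S.cent θ := by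
    ext x
    rw [Vale.P199K.Centralizer.mem_space, mem_cent]
    exact ⟨fun h => h ⟨θ, Algebra.self_mem_adjoin_singleton S.F θ⟩,
      fun h l => commute_cent l.2 (mem_cent.2 h)⟩
  rw [hsp] at he
  exact ⟨e, he⟩

/-- A commutative subalgebra has dimension at most `deg`. -/
theorem finrank_le_deg_of_comm (A : Subalgebra S.F S.C) (hA : ∀ x ∈ A, ∀ y ∈ A, x * y = y * x) :
    finrank S.F A ≤ S.deg := by
  obtain ⟨θ, rfl⟩ := exists_generator A hA
  exact finrank_gen_le_deg θ

end Stg

end P199K
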