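import Mathlib
import Vale.Agent.P199.Kurosh.Stage

/-! The stage `C((t))` over `F((t))`. -/

open Module

namespace P199K

/-- Coefficientwise image of a ring homomorphism on Laurent series. -/
noncomputable def laurentMap {R R' : Type} [Ring R] [Ring R'] (g : R →+* R') :
    LaurentSeries R →+* LaurentSeries R' where
  toFun x := x.map g
  map_one' := HahnSeries.map_one g.toMonoidWithZeroHom
  map_mul' x y := HahnSeries.map_mul (f := (g : R →ₙ+* R'))
  map_zero' := by ext; simp
  map_add' x y := by ext; simp

@[simp] theorem laurentMap_coeff {R R' : Type} [Ring R] [Ring R'] (g : R →+* R')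
    (x : LaurentSeries R) (n : ℤ) : (laurentMap g x).coeff n = g (x.coeff n) := rfl

variable (S : Stg)

noncomputable instance laurentAlgebra : Algebra (LaurentSeries S.F) (LaurentSeries S.C) :=
  (laurentMap (algebraMap S.F S.C)).toAlgebra' fun a x => by
    ext n
    rw [HahnSeries.coeff_mul, HahnSeries.coeff_mul]
    refine Finset.sum_nbij' (fun p => (p.2, p.1)) (fun p => (p.2, p.1)) ?_ ?_ ?_ ?_ ?_ <;>
      simp_all [Algebra.commutes, add_comm]

theorem laurent_algebraMap (a : LaurentSeries S.F) :
    algebraMap (LaurentSeries S.F) (LaurentSeries S.C) a = laurentMap (algebraMap S.F S.C) a := rfl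

theorem laurent_span (x : LaurentSeries S.C) :
    x = ∑ i, algebraMap (LaurentSeries S.F) (LaurentSeries S.C)
        (x.map ((Module.finBasis S.F S.C).coord i)) * HahnSeries.C (Module.finBasis S.F S.C i) := by
  ext n
  rw [HahnSeries.coeff_sum]
  conv_lhs => rw [← (Module.finBasis S.F S.C).sum_repr (x.coeff n)]
  refine Finset.sum_congr rfl fun i _ => ?_
  rw [laurent_algebraMap, HahnSeries.C_apply, HahnSeries.coeff_mul_single_zero, laurentMap_coeff,
    Algebra.smul_def]
  rfl

instance laurent_finite : FiniteDimensional (LaurentSeries S.F) (LaurentSeries S.C) := by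
  refine Module.Finite.of_surjective
    (Fintype.linearCombination (LaurentSeries S.F)
      (fun i => (HahnSeries.C (Module.finBasis S.F S.C i) : LaurentSeries S.C))) fun x => ?_
  refine ⟨fun i => x.map ((Module.finBasis S.F S.C).coord i), ?_⟩
  rw [Fintype.linearCombination_apply]
  simp only [Algebra.smul_def]
  exact (laurent_span S x).symm

theorem laurent_central (x : LaurentSeries S.C) (h : ∀ y : LaurentSeries S.C, x * y = y * x) :
    x ∈ Set.range (algebraMap (LaurentSeries S.F) (LaurentSeries S.C)) := by
  have hc : ∀ n, x.coeff n ∈ Set.range (algebraMap S.F S.C) := fun n => S.central _ fun c => by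
    have := congrArg (fun z : LaurentSeries S.C => z.coeff n) (h (HahnSeries.single 0 c))
    simpa [HahnSeries.coeff_mul_single_zero, HahnSeries.coeff_single_zero_mul] using this
  choose a ha using hc
  refine ⟨⟨a, x.isPWO_support.mono fun n hn => ?_⟩, ?_⟩
  · intro h0
    exact hn (by
      have := ha n
      rw [h0] at this
      exact (FaithfulSMul.algebraMap_injective S.F S.C) (by simpa using this))
  · ext n
    simpa [laurent_algebraMap] using ha n

/-- The stage of Laurent series in one central variable. -/
noncomputable def Stg.laurent : Stg where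
  F := LaurentSeries S.F
  C := LaurentSeries S.C
  ringC := divisionRingOfFiniteDimensional (LaurentSeries S.F) (LaurentSeries S.C)
  charF := charZero_of_injective_ringHom
    (HahnSeries.C (Γ := ℤ) (R := S.F)).injective
  algC := laurentAlgebra S
  finC := laurent_finite S
  central := laurent_central S
  roots M hM := ⟨HahnSeries.C (S.roots M hM).choose,
    (S.roots M hM).choose_spec.map_of_injective (HahnSeries.C (Γ := ℤ) (R := S.F)).injective⟩

/-- Constants of the Laurent stage. -/
noncomputable def Stg.toLaurent : StgHom S S.laurent where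
  iF := (HahnSeries.C : S.F →+* LaurentSeries S.F)
  iC := (HahnSeries.C : S.C →+* LaurentSeries S.C)
  compat a := (HahnSeries.map_C a (algebraMap S.F S.C)).symm

/-- All coefficients below `n` vanish. -/
def OrdGE {R : Type} [Zero R] (n : ℤ) (x : LaurentSeries R) : Prop := ∀ m < n, x.coeff m = 0

end P199K
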