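import Mathlib
import Vale.Agent.P199.Kurosh.Stage
import Vale.Agent.P199.Kurosh.Laurent

/-! Symbol extensions, points and growths: the objects through which a series datum is moved. -/

open Module

namespace P199K

/-- A symbol extension of degree `M`: `C` tensored with the algebra on `X, Y` with `X^M, Y^M` scalars
and `Y X = ζ X Y`, again a division algebra. -/
structure Sym (S : Stg) (M : ℕ) where
  T : Stg
  emb : StgHom S T
  ζ : S.F
  prim : IsPrimitiveRoot ζ M
  X : T.C
  Y : T.C
  X_ne : X ≠ 0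
  Y_ne : Y ≠ 0
  X_comm : ∀ c : S.C, X * emb.iC c = emb.iC c * X
  Y_comm : ∀ c : S.C, Y * emb.iC c = emb.iC c * Y
  YX : Y * X = algebraMap T.F T.C (emb.iF ζ) * (X * Y)
  X_pow : X ^ M ∈ Set.range (algebraMap T.F T.C)
  Y_pow : Y ^ M ∈ Set.range (algebraMap T.F T.C)
  span : Submodule.span T.F
      (Set.range fun p : S.C × Fin M × Fin M => emb.iC p.1 * X ^ (p.2.1 : ℕ) * Y ^ (p.2.2 : ℕ)) = ⊤
  dim_eq : T.dim = S.dim * M ^ 2

/-- The sum of the terms `f v * y v` over words `v` of length at most `n`. -/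
noncomputable def evalTrunc {K : ℕ} {C B : Type} [Ring B] (ι : C → B) (y : Fin K → B)
    (f : List (Fin K) → C) (n : ℕ) : B :=
  ∑ l ∈ Finset.range (n + 1), ∑ v : Fin l → Fin K, ι (f (List.ofFn v)) * NS.wordProd y (List.ofFn v)

variable {S : Stg} {M : ℕ}

/-- The `F`-span of the monomials `X^i Y^j`: the coordinates allowed for points. -/
def Sym.E (E : Sym S M) : Submodule E.T.F E.T.C :=
  Submodule.span E.T.F (Set.range fun p : Fin M × Fin M => E.X ^ (p.1 : ℕ) * E.Y ^ (p.2 : ℕ))

/-- Points: tuples of Laurent series of positive order with coefficients in the monomial span. -/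
structure Point (E : Sym S M) (K : ℕ) where
  p : Fin K → LaurentSeries E.T.C
  small : ∀ i, OrdGE 1 (p i)
  mem : ∀ i n, (p i).coeff n ∈ E.E

/-- Constants of the base inside the Laurent stage of a symbol extension. -/
noncomputable def Sym.ι (E : Sym S M) : S.C →+* LaurentSeries E.T.C :=
  (HahnSeries.C : E.T.C →+* LaurentSeries E.T.C).comp E.emb.iC

/-- Value of a series at a point: coefficientwise in `s`, a finite sum. -/
noncomputable def Point.eval {E : Sym S M} {K : ℕ} (P : Point E K) (f : NS K S.C) :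
    LaurentSeries E.T.C :=
  HahnSeries.ofSuppBddBelow
    (fun n : ℤ => if n < 0 then 0 else (evalTrunc E.ι P.p f n.toNat).coeff n)
    ⟨0, fun n hn => by
      by_contra h
      exact hn (by simp [not_le.1 h])⟩

/-- Derivative of a series at a point in a direction, coefficientwise in `s`. -/
noncomputable def Point.deriv {E : Sym S M} {K : ℕ} (P : Point E K) (f : NS K S.C)
    (x : Fin K → LaurentSeries E.T.C) (n : ℤ) : E.T.C :=
  ∑ l ∈ Finset.range (n.toNat + 2), ∑ v : Fin l → Fin K, ∑ i : Fin l,
    (E.ι (f (List.ofFn v)) *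
      NS.wordProd P.p ((List.ofFn v).take i) * x (v i) *
        NS.wordProd P.p ((List.ofFn v).drop (i + 1))).coeff n

/-- The algebra generated by a point together with the constants is everything. -/
def Point.Generates {E : Sym S M} {K : ℕ} (P : Point E K) : Prop :=
  Algebra.adjoin (LaurentSeries E.T.F)
    (Set.range (fun c : S.C => E.ι c) ∪ Set.range P.p) = (⊤ : Subalgebra _ (LaurentSeries E.T.C))

/-- A growth of an object along a point: a child on the Laurent stage of the symbol extension, with base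
value the value of `f` at the point and tangent space the image of the derivative along all directions
with coefficients in the monomial span, plus commutators. -/
structure Growth (o : Obj) {M : ℕ} (E : Sym o.S M) (P : Point E o.K) where
  K : ℕ
  f : NS K E.T.laurent.C
  y : Fin 2 → NS K E.T.laurent.C
  two_le : 2 ≤ K
  mor : Obj.Mor o ⟨E.T.laurent, K, y, f⟩
  full : Obj.Full ⟨E.T.laurent, K, y, f⟩
  base : (⟨E.T.laurent, K, y, f⟩ : Obj).θ = P.eval o.f
  q : Fin K → Fin o.K → LaurentSeries E.T.C
  q_mem : ∀ a i n, (q a i).coeff n ∈ E.E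
  q_int : ∀ a i, OrdGE 0 (q a i)
  lin : ∀ a n, (f [a] : LaurentSeries E.T.C).coeff n = P.deriv o.f (q a) n
  quad : ∀ a b, OrdGE 0 (f [a, b] : LaurentSeries E.T.C)
  split : ∀ v : Fin o.K → LaurentSeries E.T.C, (∀ i n, (v i).coeff n ∈ E.E) → (∀ i, OrdGE 0 (v i)) →
    ∃ (c : Fin K → LaurentSeries E.T.F) (e : LaurentSeries E.T.C), (∀ a, OrdGE 0 (c a)) ∧
      (∀ n, e.coeff n ∈ E.E) ∧
      ∀ i, v i = ∑ a, laurentMap (algebraMap E.T.F E.T.C) (c a) * q a i + (e * P.p i - P.p i * e)
  tangent : ∀ (x : Fin o.K → LaurentSeries E.T.C) (v : LaurentSeries E.T.C),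
    (∀ i n, (x i).coeff n ∈ E.E) → (∀ i, OrdGE 0 (x i)) →
    (∀ n, v.coeff n = P.deriv o.f x n) → (v : E.T.laurent.C) ∈ (⟨E.T.laurent, K, y, f⟩ : Obj).T

/-- The child of a growth. -/
noncomputable def Growth.child {o : Obj} {M : ℕ} {E : Sym o.S M} {P : Point E o.K}
    (G : Growth o E P) : Obj := ⟨E.T.laurent, G.K, G.y, G.f⟩

end P199K
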