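import Mathlib
import Vale.Agent.P199.Kurosh.Sym

/-! The statements of the modules. They are definitions of propositions only; each module proves one of
them. -/

open Module

namespace P199K

/-- The line `ω L0` spanned by products of `W` and its ratio algebra. -/
noncomputable def Obj.WL (o : Obj) : Submodule o.S.F o.S.C :=
  Submodule.span o.S.F {z | ∃ a ∈ o.W, ∃ x ∈ o.L0, z = a * x}

/-- The test data `ω, w0, w1` of a state: `ω ∈ W` and `w0, w1 ∈ ω⁻¹ W`, none of them zero. -/
structure Model (o : Obj) where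
  ω : o.S.C
  w0 : o.S.C
  w1 : o.S.C
  ω_mem : ω ∈ o.W
  ω_ne : ω ≠ 0
  w0_ne : w0 ≠ 0
  w1_ne : w1 ≠ 0
  w0_mem : ω * w0 ∈ o.W
  w1_mem : ω * w1 ∈ o.W

/-- `L0 = w0 W' + w1 W'` for `W' = ω⁻¹ W`. -/
def Model.Spans {o : Obj} (m : Model o) : Prop :=
  ∀ x ∈ o.L0, ∃ a b : o.S.C, m.ω * a ∈ o.W ∧ m.ω * b ∈ o.W ∧ x = m.w0 * a + m.w1 * b

/-- The ratio `w1 / w0` generates the ratio algebra. -/
def Model.Primitive {o : Obj} (m : Model o) : Prop :=
  Subalgebra.toSubmodule (Algebra.adjoin o.S.F ({m.w0⁻¹ * m.w1} : Set o.S.C)) = o.L0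

/-- The test element `ω (w0 X + w1 Y)`. -/
noncomputable def Model.Z {o : Obj} (m : Model o) {M : ℕ} (E : Sym o.S M) : E.T.C :=
  E.emb.iC m.ω * (E.emb.iC m.w0 * E.X + E.emb.iC m.w1 * E.Y)

/-- Elements commuting with the base value and with the test element, orthogonal to `W ⊗ E`. -/
noncomputable def Model.KZ {o : Obj} (m : Model o) {M : ℕ} (E : Sym o.S M) : Submodule E.T.F E.T.C :=
  E.T.cent (E.emb.iC o.θ) ⊓ E.T.cent (m.Z E) ⊓
    E.T.orth (Submodule.span E.T.F {z | ∃ w ∈ o.W, ∃ e ∈ E.E, z = E.emb.iC w * e})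

/-- The bound on the cokernel of a growth of degree `M`. -/
noncomputable def Obj.k0 (o : Obj) (M : ℕ) : ℕ :=
  finrank o.S.F (o.S.cent o.θ) * M - o.d0 * M + (o.d0 - o.r)

/-- Statement: symbol extensions exist. -/
def SymExistsStmt : Prop := ∀ (S : Stg) (M : ℕ), 0 < M → Nonempty (Sym S M)

/-- Statement: growths exist along generating points. -/
def GrowExistsStmt : Prop :=
  ∀ (o : Obj) (M : ℕ), o.Full → 2 ≤ o.K → 0 < M →
    ∀ (E : Sym o.S M) (P : Point E o.K), P.Generates → Nonempty (Growth o E P)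

/-- Statement: generic high-order perturbations of a point generate. -/
def PerturbStmt : Prop :=
  ∀ (o : Obj) (M N : ℕ), o.Full → 2 ≤ o.K → 0 < M → ∀ (E : Sym o.S M) (P : Point E o.K),
    ∃ P' : Point E o.K, P'.Generates ∧ ∀ i, OrdGE (N : ℤ) (P'.p i - P.p i)

/-- Statement: unless some descendant is algebraic, a minimal state exists. -/
def SelectStmt : Prop := ∀ root : Obj, root.Full → 2 ≤ root.K → ¬ root.Good → ∃ o, Obj.Minimal root o

/-- Statement: a minimal state has tangent space inside the field of the base value, and a model. -/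
def MinimalStmt : Prop :=
  ∀ root o : Obj, Obj.Minimal root o → o.W ≤ o.S.gen o.θ ∧ ∃ m : Model o, m.Spans

/-- Statement: at a state whose base value has the largest degree relative to the dimension, the
tangent space lies in the field of the base value. -/
def WLeStmt : Prop :=
  ∀ root o : Obj, o.State root → (∀ s : Obj, s.State root → s.d ^ 2 * o.S.dim ≤ o.d ^ 2 * s.S.dim) →
    o.W ≤ o.S.gen o.θ

/-- Statement: the rank lemma. -/
def RankStmt : Prop :=
  ∀ (o : Obj) (m : Model o) (M : ℕ), o.W ≤ o.S.gen o.θ → m.Spans → 0 < M →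
    ∀ E : Sym o.S M, finrank E.T.F (m.KZ E) ≤ o.k0 M

/-- A point whose value is conjugate to `θ + s^n a` to order `n`, with `a ≡ Z` modulo commutators. -/
structure Approach {o : Obj} (m : Model o) {M : ℕ} (E : Sym o.S M) (P : Point E o.K) where
  n : ℕ
  pos : 0 < n
  h : LaurentSeries E.T.C
  h_int : OrdGE 0 h
  h_lead : h.coeff 0 = 1
  a : E.T.C
  b : E.T.C
  a_eq : a = m.Z E + (E.emb.iC o.θ * b - b * E.emb.iC o.θ)
  value : OrdGE ((n : ℤ) + 1)
    (P.eval o.f * h - h * (E.ι o.θ + HahnSeries.single (n : ℤ) a))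

/-- Statement: the rank bound for a primitive ratio, and existence of such a model. -/
def RankAStmt : Prop :=
  ∀ (o : Obj), o.W ≠ ⊥ → o.W ≤ o.S.gen o.θ →
    (∃ m : Model o, m.Primitive) ∧
    ∀ (m : Model o) (M : ℕ), m.Primitive → 0 < M → ∀ E : Sym o.S M,
      finrank E.T.F (m.KZ E) + o.d0 * M ≤ finrank o.S.F (o.S.cent o.θ) * M + o.d0 ^ 2

/-- Statement: approaching points exist (linear points with a generating perturbation). -/
def ApproachExistsStmt : Prop :=
  ∀ (o : Obj), o.Full → 2 ≤ o.K → o.W ≤ o.S.gen o.θ → ∀ (m : Model o) (M : ℕ), 2 ≤ M →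
    ∀ E : Sym o.S M, ∃ P : Point E o.K, P.Generates ∧ ∃ A : Approach m E P, A.n = 1

/-- Statement: the general limit facts at a state of maximal degree along an approaching point. -/
def LimitUpStmt : Prop :=
  ∀ (root o : Obj), o.State root →
    (∀ s : Obj, s.State root → s.d ^ 2 * o.S.dim ≤ o.d ^ 2 * s.S.dim) →
    ∀ (m : Model o) (M : ℕ), o.d < M → 2 ≤ M →
    ∀ (E : Sym o.S M) (P : Point E o.K) (_ : Approach m E P) (G : Growth o E P),
      G.child.State root ∧ G.child.d = o.d * M ∧
      finrank G.child.S.F G.child.Kc ≤ finrank E.T.F (m.KZ E)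

/-- Statement: the limit of the cokernels along an approaching point is all of `KZ`, and the child is
again minimal. -/
def LimitStmt : Prop :=
  ∀ (root o : Obj), Obj.Minimal root o → ∀ (m : Model o) (M : ℕ), m.Spans → o.d < M → 5 ≤ M →
    ∀ (E : Sym o.S M) (P : Point E o.K) (_ : Approach m E P) (G : Growth o E P),
      Obj.Minimal root G.child ∧ finrank G.child.S.F G.child.Kc = o.k0 M ∧
      ∀ z ∈ m.KZ E, ∃ z' : LaurentSeries E.T.C,
        (z' : G.child.S.C) ∈ G.child.Kc ∧ OrdGE 0 z' ∧ z'.coeff 0 = z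

/-- Composition of a series with a tuple of scalar series without constant term, in two letters. -/
noncomputable def compY {S : Stg} {K : ℕ} (f : NS K S.C) (Y : Fin K → NS 2 S.F) : NS 2 S.C :=
  fun w => evalTrunc (fun c : S.C => (NS.const c : NS 2 S.C))
    (fun i => (fun u => algebraMap S.F S.C (Y i u) : NS 2 S.C)) f w.length w

/-- Statement: substituting two-letter scalar series without constant term and with independent linear
parts gives a descendant. -/
def SubstStmt : Prop :=
  ∀ (o : Obj), o.Full → ∀ Y : Fin o.K → NS 2 o.S.F, (∀ i, Y i [] = 0) →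
    LinearIndependent o.S.F (fun (s : Fin 2) (i : Fin o.K) => Y i [s]) →
      ∃ y : Fin 2 → NS 2 o.S.C, o.Desc ⟨o.S, 2, y, compY o.f Y⟩

/-- The residual `f(Y) h - h θ`. -/
noncomputable def Obj.residual (o : Obj) (Y : Fin o.K → NS 2 o.S.F) (h : NS 2 o.S.C) : NS 2 o.S.C :=
  compY o.f Y * h - h * NS.const o.θ

/-- The equation `f(Y) h = h θ` is solved in all degrees below `n`. -/
def Obj.SolvedBelow (o : Obj) (n : ℕ) (Y : Fin o.K → NS 2 o.S.F) (h : NS 2 o.S.C) : Prop :=
  (∀ i, Y i [] = 0) ∧ h [] = 1 ∧ ∀ w : List (Fin 2), w.length < n → o.residual Y h w = 0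

/-- Statement: vanishing of the leading residual at a minimal state. -/
def VanishStmt : Prop :=
  ∀ (root o : Obj), Obj.Minimal root o → ∀ (n : ℕ), 2 ≤ n →
    ∀ (Y : Fin o.K → NS 2 o.S.F) (h : NS 2 o.S.C), o.SolvedBelow n Y h →
      (∀ z ∈ o.Kc, ∀ w : List (Fin 2), w.length = n →
        ∑ k ∈ Finset.range n, o.S.τ (z * o.residual Y h (w.rotate k)) = 0) ∧
      (∀ z ∈ o.S.cent o.θ ⊓ o.S.orth o.WL, ∀ w : List (Fin 2), w.length = n →
        o.S.τ (z * o.residual Y h w) = 0)

/-- Statement: a minimal state leads to an algebraic descendant. -/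
def FinalStmt : Prop := ∀ root o : Obj, Obj.Minimal root o → root.Good

/-- Statement: every full object is good. -/
def StepStmt : Prop := ∀ root : Obj, root.Full → 2 ≤ root.K → root.Good

theorem step_of (hs : SelectStmt) (hf : FinalStmt) : StepStmt := fun root h hK => by
  by_contra hg
  obtain ⟨o, ho⟩ := hs root h hK hg
  exact hg (hf root o ho)

/-- Statement: the disproof, in both the central-subfield form and the centre form. -/
def KuroshStmt : Prop :=
  ∃ (D : Type) (_ : DivisionRing D) (k : Type) (_ : Field k) (_ : Algebra k D) (a b : D),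
    Algebra.IsAlgebraic k D ∧ Algebra.adjoin k ({a, b} : Set D) = ⊤ ∧ ¬ Module.Finite k D ∧
      Algebra.IsAlgebraic (Subring.center D) D ∧ ¬ Module.Finite (Subring.center D) D

end P199K
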