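import Mathlib
import Vale.Agent.P199.Kurosh.Sym

/-! Toolkit on symbol extensions: monomial basis, the monomial span as a centraliser, phases, traces,
separation of word polynomials, conjugates of the generator. -/

open Module Finset

namespace P199K

namespace Sym

variable {S : Stg} {M : ℕ} (E : Sym S M)

include E in
/-- The degree of a symbol extension is positive. -/
theorem pos : 0 < M := by
  rcases Nat.eq_zero_or_pos M with rfl | h
  · have hs := E.span
    rw [Set.range_eq_empty, Submodule.span_empty] at hs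
    exact absurd hs bot_ne_top
  · exact h

/-- Scalars of the base act through the ground field map. -/
theorem iC_smul (a : S.F) (c : S.C) : E.emb.iC (a • c) = E.emb.iF a • E.emb.iC c := by
  rw [Algebra.smul_def, map_mul, E.emb.compat, ← Algebra.smul_def]

/-- The primitive root in the extension. -/
noncomputable def q : E.T.F := E.emb.iF E.ζ

theorem q_prim : IsPrimitiveRoot E.q M := E.prim.map_of_injective E.emb.iF.injective

theorem q_ne : E.q ≠ 0 := E.q_prim.ne_zero E.pos.ne'

theorem q_pow_eq_one_iff (a : ℕ) : E.q ^ a = 1 ↔ M ∣ a := E.q_prim.pow_eq_one_iff_dvd a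

theorem YX_smul : E.Y * E.X = E.q • (E.X * E.Y) := by
  rw [Algebra.smul_def]; exact E.YX

theorem Y_pow_X (b : ℕ) : E.Y ^ b * E.X = E.q ^ b • (E.X * E.Y ^ b) := by
  induction b with
  | zero => simp
  | succ b ih =>
    rw [pow_succ, mul_assoc, E.YX_smul, mul_smul_comm, ← mul_assoc, ih, smul_mul_assoc, smul_smul,
      mul_assoc, ← pow_succ']

/-- Phases of monomials. -/
theorem Y_pow_X_pow (a b : ℕ) :
    E.Y ^ b * E.X ^ a = E.q ^ (a * b) • (E.X ^ a * E.Y ^ b) := by
  induction a with
  | zero => simp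
  | succ a ih =>
    rw [pow_succ, ← mul_assoc, ih, smul_mul_assoc, mul_assoc, E.Y_pow_X, mul_smul_comm, smul_smul,
      ← pow_add, ← mul_assoc, add_one_mul]

theorem mul_monomial (a b a' b' : ℕ) :
    E.X ^ a * E.Y ^ b * (E.X ^ a' * E.Y ^ b') = E.q ^ (a' * b) • (E.X ^ (a + a') * E.Y ^ (b + b')) := by
  rw [mul_assoc, ← mul_assoc (E.Y ^ b), E.Y_pow_X_pow, smul_mul_assoc, mul_smul_comm, mul_assoc,
    ← pow_add, ← mul_assoc, ← pow_add]

theorem monomial_ne (a b : ℕ) : E.X ^ a * E.Y ^ b ≠ 0 :=
  mul_ne_zero (pow_ne_zero _ E.X_ne) (pow_ne_zero _ E.Y_ne)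

theorem comm_monomial (c : S.C) (a b : ℕ) :
    Commute (E.X ^ a * E.Y ^ b) (E.emb.iC c) :=
  ((show Commute E.X (E.emb.iC c) from E.X_comm c).pow_left a).mul_left
    ((show Commute E.Y (E.emb.iC c) from E.Y_comm c).pow_left b)

/-- A basis of the base algebra. -/
noncomputable def baseBasis (S : Stg) : Basis (Fin (finrank S.F S.C)) S.F S.C := Module.finBasis S.F S.C

/-- The monomials with coefficients in the base basis. -/
noncomputable def mono (p : Fin (finrank S.F S.C) × Fin M × Fin M) : E.T.C :=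
  E.emb.iC (baseBasis S p.1) * E.X ^ (p.2.1 : ℕ) * E.Y ^ (p.2.2 : ℕ)

theorem iC_eq_sum (c : S.C) :
    E.emb.iC c = ∑ k, E.emb.iF ((baseBasis S).repr c k) • E.emb.iC (baseBasis S k) := by
  conv_lhs => rw [← (baseBasis S).sum_repr c]
  rw [map_sum]
  simp only [E.iC_smul]

theorem span_mono : ⊤ ≤ Submodule.span E.T.F (Set.range E.mono) := by
  rw [← E.span, Submodule.span_le]
  rintro _ ⟨⟨c, i, j⟩, rfl⟩
  simp only [SetLike.mem_coe]
  rw [E.iC_eq_sum c, Finset.sum_mul, Finset.sum_mul]
  refine Submodule.sum_mem _ fun k _ => ?_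
  rw [smul_mul_assoc, smul_mul_assoc]
  exact Submodule.smul_mem _ _ (Submodule.subset_span ⟨(k, i, j), rfl⟩)

/-- The monomial basis of a symbol extension. -/
noncomputable def basis : Basis (Fin (finrank S.F S.C) × Fin M × Fin M) E.T.F E.T.C :=
  basisOfTopLeSpanOfCardEqFinrank E.mono E.span_mono (by
    have h := E.dim_eq
    simp only [Stg.dim] at h
    simp [h, sq])

theorem basis_apply (p) : E.basis p = E.mono p := by
  simp [basis]

/-- Coefficientwise extension of a map of the base algebra. -/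
noncomputable def extend (φ : S.C →ₗ[S.F] S.C) : E.T.C →ₗ[E.T.F] E.T.C :=
  E.basis.constr E.T.F fun p => E.emb.iC (φ (baseBasis S p.1)) * E.X ^ (p.2.1 : ℕ) * E.Y ^ (p.2.2 : ℕ)

theorem extend_apply (φ : S.C →ₗ[S.F] S.C) (c : S.C) (i j : Fin M) :
    E.extend φ (E.emb.iC c * E.X ^ (i : ℕ) * E.Y ^ (j : ℕ)) =
      E.emb.iC (φ c) * E.X ^ (i : ℕ) * E.Y ^ (j : ℕ) := by
  have h : ∀ k, E.extend φ (E.emb.iC (baseBasis S k) * E.X ^ (i : ℕ) * E.Y ^ (j : ℕ)) =
      E.emb.iC (φ (baseBasis S k)) * E.X ^ (i : ℕ) * E.Y ^ (j : ℕ) := fun k => by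
    have := E.basis.constr_basis E.T.F
      (fun p => E.emb.iC (φ (baseBasis S p.1)) * E.X ^ (p.2.1 : ℕ) * E.Y ^ (p.2.2 : ℕ)) (k, i, j)
    rw [E.basis_apply] at this
    exact this
  conv_rhs => rw [← (baseBasis S).sum_repr c]
  rw [E.iC_eq_sum c]
  simp only [Finset.sum_mul, smul_mul_assoc, map_sum, map_smul, h, E.iC_smul]

/-- The monomial span is the centraliser of the base algebra. -/
theorem mem_E_iff (x : E.T.C) : x ∈ E.E ↔ ∀ c : S.C, x * E.emb.iC c = E.emb.iC c * x := by
  constructor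
  · intro hx c
    induction hx using Submodule.span_induction with
    | mem y hy => obtain ⟨p, rfl⟩ := hy; exact E.comm_monomial c p.1 p.2
    | zero => simp
    | add y z _ _ hy hz => rw [add_mul, mul_add, hy, hz]
    | smul r y _ hy => rw [smul_mul_assoc, mul_smul_comm, hy]
  · intro hx
    classical
    set n := finrank S.F S.C
    set b := baseBasis S
    let Φ : S.C →ₗ[S.F] (Fin n → S.C) :=
      LinearMap.pi fun l => LinearMap.mulRight S.F (b l) - LinearMap.mulLeft S.F (b l)
    have hker : ∀ u, Φ u = 0 → u ∈ Submodule.span S.F {(1 : S.C)} := by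
      intro u hu
      obtain ⟨a, ha⟩ := S.central u fun y => by
        rw [← b.sum_repr y, Finset.mul_sum, Finset.sum_mul]
        refine Finset.sum_congr rfl fun l _ => ?_
        rw [mul_smul_comm, smul_mul_assoc]
        congr 1
        exact sub_eq_zero.1 (congrFun hu l)
      exact Submodule.mem_span_singleton.2 ⟨a, by rw [← ha, Algebra.algebraMap_eq_smul_one]⟩
    obtain ⟨W, hW⟩ := Submodule.exists_isCompl (Submodule.span S.F {(1 : S.C)})
    have hinj : LinearMap.ker (Φ.comp W.subtype) = ⊥ := by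
      rw [LinearMap.ker_eq_bot']
      intro w hw
      exact Subtype.ext ((Submodule.disjoint_def.1 hW.disjoint) _ (hker _ hw) w.2)
    obtain ⟨g, hg⟩ := (Φ.comp W.subtype).exists_leftInverse_of_injective hinj
    have hgw : ∀ w : W, g (Φ w) = w := fun w => LinearMap.congr_fun hg w
    let ψ : Fin n → S.C →ₗ[S.F] S.C := fun l =>
      (W.subtype.comp g).comp (LinearMap.single S.F (fun _ => S.C) l)
    have hψ : ∀ u, ∃ a : S.F, (∑ l, ψ l (u * b l - b l * u)) = u - a • 1 := by
      intro u
      obtain ⟨y, hy, z, hz, rfl⟩ := Submodule.mem_sup.1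
        (hW.sup_eq_top.symm ▸ Submodule.mem_top : u ∈ Submodule.span S.F {(1 : S.C)} ⊔ W)
      obtain ⟨a, rfl⟩ := Submodule.mem_span_singleton.1 hy
      refine ⟨a, ?_⟩
      have h1 : ∀ l, (a • (1 : S.C) + z) * b l - b l * (a • (1 : S.C) + z) = Φ z l := fun l => by
        show _ = z * b l - b l * z
        simp [add_mul, mul_add]
      simp only [h1]
      show (∑ l, W.subtype (g (Pi.single l (Φ z l)))) = _
      rw [← map_sum, ← map_sum, Finset.univ_sum_single (Φ z), hgw ⟨z, hz⟩]
      simp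
    let Λ : E.T.C →ₗ[E.T.F] E.T.C := ∑ l, (E.extend (ψ l)).comp
      (LinearMap.mulRight E.T.F (E.emb.iC (b l)) - LinearMap.mulLeft E.T.F (E.emb.iC (b l)))
    have hΛ : ∀ y, y - Λ y ∈ E.E := by
      intro y
      have : y ∈ Submodule.comap (LinearMap.id - Λ) E.E := by
        refine Submodule.span_le.2 ?_ (E.span_mono (Submodule.mem_top : y ∈ ⊤))
        rintro _ ⟨⟨k, i, j⟩, rfl⟩
        show E.mono (k, i, j) - Λ (E.mono (k, i, j)) ∈ E.E
        obtain ⟨a, ha⟩ := hψ (b k)
        have h2 : Λ (E.mono (k, i, j)) =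
            E.emb.iC (b k - a • 1) * E.X ^ (i : ℕ) * E.Y ^ (j : ℕ) := by
          rw [← ha, map_sum, Finset.sum_mul, Finset.sum_mul]
          simp only [Λ, LinearMap.sum_apply, LinearMap.comp_apply, LinearMap.sub_apply,
            LinearMap.mulRight_apply, LinearMap.mulLeft_apply]
          refine Finset.sum_congr rfl fun l _ => ?_
          rw [← E.extend_apply]
          congr 1
          simp only [mono, map_sub, map_mul, sub_mul, mul_assoc]
          rw [← mul_assoc (E.X ^ _), (E.comm_monomial (b l) i j).eq]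
        rw [h2, mono, ← sub_mul, ← sub_mul, ← map_sub, sub_sub_cancel, E.iC_smul, map_one,
          smul_mul_assoc, smul_mul_assoc, one_mul]
        exact Submodule.smul_mem _ _ (Submodule.subset_span ⟨(i, j), rfl⟩)
      exact this
    have h0 : Λ x = 0 := by
      simp [Λ, LinearMap.sum_apply, hx]
    simpa [h0] using hΛ x

theorem one_mem_E : (1 : E.T.C) ∈ E.E := (E.mem_E_iff 1).2 fun c => by simp

theorem mul_mem_E {x y : E.T.C} (hx : x ∈ E.E) (hy : y ∈ E.E) : x * y ∈ E.E :=
  (E.mem_E_iff _).2 fun c => by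
    rw [mul_assoc, (E.mem_E_iff y).1 hy, ← mul_assoc, (E.mem_E_iff x).1 hx, mul_assoc]

theorem pow_mem_E {x : E.T.C} (hx : x ∈ E.E) : ∀ n : ℕ, x ^ n ∈ E.E
  | 0 => by simpa using E.one_mem_E
  | n + 1 => by rw [pow_succ]; exact E.mul_mem_E (pow_mem_E hx n) hx

theorem inv_mem_E {x : E.T.C} (hx : x ∈ E.E) : x⁻¹ ∈ E.E :=
  (E.mem_E_iff _).2 fun c => Commute.inv_left₀ ((E.mem_E_iff x).1 hx c)

theorem monomial_mem_E (a b : ℕ) : E.X ^ a * E.Y ^ b ∈ E.E :=
  (E.mem_E_iff _).2 fun c => E.comm_monomial c a b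

theorem X_mem_E : E.X ∈ E.E := by simpa using E.monomial_mem_E 1 0

theorem Y_mem_E : E.Y ∈ E.E := by simpa using E.monomial_mem_E 0 1

theorem prod_mem_E : ∀ l : List E.T.C, (∀ x ∈ l, x ∈ E.E) → l.prod ∈ E.E
  | [], _ => by simpa using E.one_mem_E
  | x :: l, h => by
    rw [List.prod_cons]
    exact E.mul_mem_E (h x (by simp)) (prod_mem_E l fun y hy => h y (by simp [hy]))

theorem wordProd_mem_E {K : ℕ} (U : Fin K → E.T.C) (hU : ∀ i, U i ∈ E.E) (w : List (Fin K)) :
    NS.wordProd U w ∈ E.E :=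
  E.prod_mem_E _ fun x hx => by
    obtain ⟨i, -, rfl⟩ := List.mem_map.1 hx
    exact hU i

/-- Series with coefficients in the monomial span commute with the base algebra. -/
theorem ι_comm {p : LaurentSeries E.T.C} (hp : ∀ n, p.coeff n ∈ E.E) (c : S.C) :
    p * E.ι c = E.ι c * p := by
  ext n
  show (p * HahnSeries.C (E.emb.iC c)).coeff n = (HahnSeries.C (E.emb.iC c) * p).coeff n
  rw [HahnSeries.C_apply, HahnSeries.coeff_mul_single_zero, HahnSeries.coeff_single_zero_mul,
    (E.mem_E_iff _).1 (hp n)]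

/-- The trace form is symmetric. -/
theorem τ_symm (x y : E.T.C) : E.T.τ (x * y) = E.T.τ (y * x) := by
  have h : ∀ u v : E.T.C, LinearMap.mul E.T.F E.T.C (u * v) =
      LinearMap.mul E.T.F E.T.C u * LinearMap.mul E.T.F E.T.C v := fun u v =>
    LinearMap.ext fun z => mul_assoc u v z
  show LinearMap.trace _ _ (LinearMap.mul E.T.F E.T.C (x * y)) =
    LinearMap.trace _ _ (LinearMap.mul E.T.F E.T.C (y * x))
  rw [h, h, LinearMap.trace_mul_comm]

theorem τ_one : E.T.τ 1 = (E.T.dim : E.T.F) := by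
  show LinearMap.trace _ _ (LinearMap.mul E.T.F E.T.C 1) = _
  have h : LinearMap.mul E.T.F E.T.C 1 = LinearMap.id := LinearMap.ext fun z => one_mul z
  rw [h, LinearMap.trace_id]
  rfl

theorem T_dim_ne : (E.T.dim : E.T.F) ≠ 0 := Nat.cast_ne_zero.2 (Module.finrank_pos).ne'

/-- The trace form is nondegenerate on the monomial span. -/
theorem eq_zero_of_τ {x : E.T.C} (hx : x ∈ E.E) (h : ∀ e ∈ E.E, E.T.τ (e * x) = 0) : x = 0 := by
  by_contra hne
  have := h x⁻¹ (E.inv_mem_E hx)
  rw [inv_mul_cancel₀ hne, E.τ_one] at this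
  exact E.T_dim_ne this

/-- Monomials other than one are traceless, also with coefficients in the base algebra. -/
theorem τ_monomial_zero (c : S.C) (i j : Fin M) (hij : (i : ℕ) ≠ 0 ∨ (j : ℕ) ≠ 0) :
    E.T.τ (E.emb.iC c * (E.X ^ (i : ℕ) * E.Y ^ (j : ℕ))) = 0 := by
  set z := E.emb.iC c * (E.X ^ (i : ℕ) * E.Y ^ (j : ℕ))
  have key : ∀ (g : E.T.C) (r : E.T.F), g ≠ 0 → g * z = r • (z * g) → r ≠ 1 → E.T.τ z = 0 := by
    intro g r hg hgz hr
    have h1 : E.T.τ (g⁻¹ * (g * z)) = r • E.T.τ z := by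
      rw [hgz, mul_smul_comm, map_smul, E.τ_symm, mul_assoc z g g⁻¹, mul_inv_cancel₀ hg, mul_one]
    rw [← mul_assoc, inv_mul_cancel₀ hg, one_mul, smul_eq_mul] at h1
    have h2 : (r - 1) * E.T.τ z = 0 := by rw [sub_mul, ← h1, one_mul, sub_self]
    exact (mul_eq_zero.1 h2).resolve_left (sub_ne_zero.2 hr)
  rcases hij with hi | hj
  · refine key E.Y (E.q ^ (i : ℕ)) E.Y_ne ?_ fun h => ?_
    · have h1 := E.Y_pow_X_pow (i : ℕ) 1
      rw [pow_one, mul_one] at h1
      simp only [z, ← mul_assoc, (E.Y_comm c)]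
      rw [mul_assoc (E.emb.iC c) E.Y, h1, mul_smul_comm, smul_mul_assoc]
      simp only [mul_assoc, pow_mul_comm']
    · exact absurd (Nat.le_of_dvd (by omega) ((E.q_pow_eq_one_iff i).1 h)) (by omega)
  · refine key E.X (E.q ^ (j : ℕ))⁻¹ E.X_ne ?_ fun h => ?_
    · rw [eq_inv_smul_iff₀ (pow_ne_zero _ E.q_ne)]
      simp only [z, ← mul_assoc, (E.X_comm c)]
      rw [mul_assoc (E.emb.iC c) E.X, ← pow_succ', mul_assoc (E.emb.iC c * E.X ^ (i : ℕ)) _ E.X,
        E.Y_pow_X, mul_smul_comm, ← mul_assoc, mul_assoc (E.emb.iC c) (E.X ^ (i : ℕ)) E.X, ← pow_succ]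
    · rw [inv_eq_one] at h
      exact absurd (Nat.le_of_dvd (by omega) ((E.q_pow_eq_one_iff j).1 h)) (by omega)

theorem τ_iC (c : S.C) : E.T.τ (E.emb.iC c) = ((M : E.T.F) ^ 2) * E.emb.iF (S.τ c) := by
  classical
  show LinearMap.trace _ _ (LinearMap.mul E.T.F E.T.C (E.emb.iC c)) = _
  rw [LinearMap.trace_eq_matrix_trace _ E.basis, Matrix.trace]
  have hd : ∀ p, (LinearMap.toMatrix E.basis E.basis
      (LinearMap.mul E.T.F E.T.C (E.emb.iC c))).diag p =
      E.emb.iF ((baseBasis S).repr (c * baseBasis S p.1) p.1) := by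
    rintro ⟨k, i, j⟩
    rw [Matrix.diag_apply, LinearMap.toMatrix_apply, E.basis_apply, LinearMap.mul_apply']
    have : E.emb.iC c * E.mono (k, i, j) =
        ∑ l, E.emb.iF ((baseBasis S).repr (c * baseBasis S k) l) • E.basis (l, i, j) := by
      simp only [E.basis_apply, mono, ← mul_assoc, ← map_mul]
      rw [E.iC_eq_sum (c * baseBasis S k)]
      simp only [Finset.sum_mul, smul_mul_assoc]
    rw [this, map_sum, Finsupp.finsetSum_apply, Finset.sum_eq_single k]
    · simp
    · intro l _ hl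
      simp [hl]
    · simp
  simp only [hd]
  rw [Fintype.sum_prod_type, show S.τ c = ∑ k, (baseBasis S).repr (c * baseBasis S k) k from ?_,
    map_sum, Finset.mul_sum]
  · refine Finset.sum_congr rfl fun k _ => ?_
    simp [sq, mul_assoc]
  · show LinearMap.trace _ _ (LinearMap.mul S.F S.C c) = _
    rw [LinearMap.trace_eq_matrix_trace _ (baseBasis S), Matrix.trace]
    simp [LinearMap.toMatrix_apply]

/-- The trace of a product of a base element with an element of the monomial span. -/
theorem τ_iC_mul (c : S.C) {e : E.T.C} (he : e ∈ E.E) :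
    (S.dim : E.T.F) * E.T.τ (E.emb.iC c * e) = E.emb.iF (S.τ c) * E.T.τ e := by
  induction he using Submodule.span_induction with
  | mem y hy =>
    obtain ⟨⟨i, j⟩, rfl⟩ := hy
    dsimp only
    by_cases h : (i : ℕ) ≠ 0 ∨ (j : ℕ) ≠ 0
    · have h1 := E.τ_monomial_zero 1 i j h
      rw [map_one, one_mul] at h1
      rw [E.τ_monomial_zero c i j h, h1, mul_zero, mul_zero]
    · obtain ⟨hi, hj⟩ := not_or.1 h
      rw [not_not.1 hi, not_not.1 hj, pow_zero, pow_zero, one_mul, mul_one, E.τ_iC, E.τ_one, E.dim_eq]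
      push_cast
      ring
  | zero => simp
  | add y z _ _ hy hz => rw [mul_add, map_add, map_add, mul_add, mul_add, hy, hz]
  | smul r y _ hy =>
    rw [mul_smul_comm, map_smul, map_smul, smul_eq_mul, smul_eq_mul, mul_left_comm, hy, mul_left_comm]

/-- Product of monomials. -/
theorem prod_monomial (n : ℕ) (a b : Fin n → ℕ) :
    (List.ofFn fun r => E.X ^ a r * E.Y ^ b r).prod =
      E.q ^ (∑ p ∈ (Finset.univ ×ˢ Finset.univ).filter (fun p : Fin n × Fin n => p.1 < p.2),
        a p.2 * b p.1) • (E.X ^ (∑ r, a r) * E.Y ^ (∑ r, b r)) := by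
  induction n with
  | zero => simp
  | succ n ih =>
    rw [List.ofFn_succ, List.prod_cons, ih, mul_smul_comm, E.mul_monomial, smul_smul, ← pow_add,
      Fin.sum_univ_succ, Fin.sum_univ_succ]
    congr 2
    simp only [Finset.sum_filter, Finset.sum_product, Fin.sum_univ_succ, Fin.succ_lt_succ_iff,
      lt_irrefl, Fin.succ_pos, Fin.not_lt_zero, if_true, if_false, zero_add, Finset.sum_mul]
    exact add_comm _ _

/-- Vanishing of all power sums with distinct bases kills the coefficients. -/
theorem eq_zero_of_pow_sums {F V ι : Type*} [Field F] [AddCommGroup V] [Module F V] [Fintype ι]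
    (x : ι → F) (hx : Function.Injective x) (c : ι → V)
    (h : ∀ t : ℕ, ∑ i, x i ^ t • c i = 0) : c = 0 := by
  classical
  have hp : ∀ p : Polynomial F, ∑ i, p.eval (x i) • c i = 0 := by
    intro p
    induction p using Polynomial.induction_on' with
    | add p r hp hr => simp [add_smul, Finset.sum_add_distrib, hp, hr]
    | monomial t a => simp [Polynomial.eval_monomial, mul_smul, ← Finset.smul_sum, h]
  funext i
  have := hp (∏ j ∈ Finset.univ.erase i, (Polynomial.X - Polynomial.C (x j)))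
  rw [Finset.sum_eq_single i, smul_eq_zero] at this
  · refine this.resolve_left ?_
    rw [Polynomial.eval_prod]
    refine Finset.prod_ne_zero_iff.2 fun j hj => ?_
    simp only [Polynomial.eval_sub, Polynomial.eval_X, Polynomial.eval_C]
    exact sub_ne_zero.2 fun e => (Finset.ne_of_mem_erase hj) (hx e).symm
  · intro j _ hj
    rw [Polynomial.eval_prod, Finset.prod_eq_zero (Finset.mem_erase.2 ⟨hj, Finset.mem_univ _⟩)
      (by simp), zero_smul]
  · simp

/-- Homogeneous word polynomials are separated by tuples from the monomial span. -/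
theorem sep_zero {K n : ℕ} (hM : 2 ^ (n * n) ≤ M) (c : (Fin n → Fin K) → E.T.C)
    (h : ∀ U : Fin K → E.T.C, (∀ i, U i ∈ E.E) →
      ∑ v, c v * NS.wordProd U (List.ofFn v) = 0) : c = 0 := by
  classical
  funext w
  -- multilinearisation
  have hmul : ∀ m : Fin n → E.T.C, (∀ r, m r ∈ E.E) →
      ∑ σ : Equiv.Perm (Fin n), c (w ∘ σ) * (List.ofFn fun p => m (σ p)).prod = 0 := by
    intro m hm
    let g : (Fin n → Fin n) → E.T.C := fun f => c (w ∘ f) * (List.ofFn fun p => m (f p)).prod
    have hA : ∀ A : Finset (Fin n), ∑ f ∈ Fintype.piFinset (fun _ => A), g f = 0 := by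
      intro A
      have := h (fun i => ∑ r ∈ A.filter (fun r => w r = i), m r) fun i =>
        Submodule.sum_mem _ fun r _ => hm r
      rw [← this, ← Finset.sum_fiberwise_of_maps_to (g := fun f => w ∘ f)
        (fun f _ => Finset.mem_univ (w ∘ f))]
      refine Finset.sum_congr rfl fun v _ => ?_
      have e : NS.wordProd (fun i => ∑ r ∈ A.filter (fun r => w r = i), m r) (List.ofFn v) =
          MultilinearMap.mkPiAlgebraFin E.T.F n E.T.C
            (fun p => ∑ r ∈ A.filter (fun r => w r = v p), m r) := by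
        simp [NS.wordProd, List.map_ofFn, Function.comp_def]
      rw [e, MultilinearMap.map_sum_finset, Finset.mul_sum]
      refine Finset.sum_congr ?_ fun f hf => ?_
      · ext f
        simp [Fintype.mem_piFinset, funext_iff, forall_and]
      · simp only [Fintype.mem_piFinset, Finset.mem_filter] at hf
        simp [g, show w ∘ f = v from funext fun p => (hf p).2]
    have key : ∑ A : Finset (Fin n), (-1 : ℤ) ^ #Aᶜ • ∑ f ∈ Fintype.piFinset (fun _ => A), g f = 0 :=
      Finset.sum_eq_zero fun A _ => by rw [hA, smul_zero]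
    have hf : ∀ f : Fin n → Fin n, ∑ A : Finset (Fin n),
        (if f ∈ Fintype.piFinset (fun _ => A) then (-1 : ℤ) ^ #Aᶜ else 0) =
          if Function.Bijective f then 1 else 0 := by
      intro f
      rw [← Finset.sum_filter]
      have e : ∑ A ∈ Finset.univ.filter (fun A => f ∈ Fintype.piFinset (fun _ => A)), (-1 : ℤ) ^ #Aᶜ =
          ∑ B ∈ (Finset.univ.image f)ᶜ.powerset, (-1 : ℤ) ^ #B := by
        refine Finset.sum_bij' (fun A _ => Aᶜ) (fun B _ => Bᶜ) ?_ ?_ (by simp) (by simp) (by simp)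
        · intro A hA
          simp only [Finset.mem_filter, Fintype.mem_piFinset] at hA
          simp only [Finset.mem_powerset, Finset.compl_subset_compl, Finset.image_subset_iff]
          exact fun p _ => hA.2 p
        · intro B hB
          simp only [Finset.mem_powerset] at hB
          simp only [Finset.mem_filter, Finset.mem_univ, true_and, Fintype.mem_piFinset,
            Finset.mem_compl]
          exact fun p hp => Finset.mem_compl.1 (hB hp) (Finset.mem_image_of_mem f (Finset.mem_univ p))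
      rw [e, Finset.sum_powerset_neg_one_pow_card]
      refine if_congr ?_ rfl rfl
      rw [Finset.compl_eq_empty_iff, Finset.eq_univ_iff_forall]
      simp only [Finset.mem_image, Finset.mem_univ, true_and]
      exact ⟨fun hs => Finite.surjective_iff_bijective.1 hs, fun hb => hb.2⟩
    have key2 : ∑ f : Fin n → Fin n, (if Function.Bijective f then g f else 0) = 0 := by
      refine Eq.trans ?_ key
      calc ∑ f : Fin n → Fin n, (if Function.Bijective f then g f else 0)
          = ∑ f : Fin n → Fin n, (∑ A : Finset (Fin n),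
              (if f ∈ Fintype.piFinset (fun _ => A) then (-1 : ℤ) ^ #Aᶜ else 0)) • g f := by
            refine Finset.sum_congr rfl fun f _ => ?_
            rw [hf]; split <;> simp
        _ = _ := by
            simp only [Finset.sum_smul, ite_smul, zero_smul]
            rw [Finset.sum_comm]
            refine Finset.sum_congr rfl fun A _ => ?_
            rw [← Finset.sum_filter, Finset.smul_sum]
            exact Finset.sum_congr (by ext; simp) fun _ _ => rfl
    rw [← key2, ← Finset.sum_filter]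
    refine Finset.sum_bij (fun σ _ => ⇑σ) (fun σ _ => Finset.mem_filter.2 ⟨Finset.mem_univ _, σ.bijective⟩)
      (fun σ _ ρ _ e => Equiv.ext (congrFun e)) (fun f hf => ?_) (fun σ _ => rfl)
    exact ⟨Equiv.ofBijective f (Finset.mem_filter.1 hf).2, Finset.mem_univ _, rfl⟩
  -- distinct phases
  let code : Fin n × Fin n ↪ ℕ :=
    ⟨fun x => (finProdFinEquiv x : ℕ), fun x y e => finProdFinEquiv.injective (Fin.ext e)⟩
  let J : Equiv.Perm (Fin n) → Finset (Fin n × Fin n) := fun σ =>
    ((Finset.univ ×ˢ Finset.univ).filter (fun p : Fin n × Fin n => p.1 < p.2)).map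
      (σ.prodCongr σ).toEmbedding
  let ex : Equiv.Perm (Fin n) → ℕ := fun σ => ∑ x ∈ (J σ).map code, 2 ^ x
  have hex : Function.Injective ex := by
    intro σ ρ e
    have hJ : J σ = J ρ := Finset.map_injective code (Finset.geomSum_injective le_rfl e)
    ext1 p
    have hlt : ∀ x y : Fin n, x < y → ρ.symm (σ x) < ρ.symm (σ y) := by
      intro x y hxy
      have : (σ x, σ y) ∈ J ρ := by
        rw [← hJ]
        exact Finset.mem_map.2 ⟨(x, y), by simp [hxy], rfl⟩
      obtain ⟨⟨u, v⟩, huv, e'⟩ := Finset.mem_map.1 this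
      simp only [Equiv.coe_toEmbedding, Equiv.prodCongr_apply, Prod.map, Prod.mk.injEq] at e'
      rw [← e'.1, ← e'.2, Equiv.symm_apply_apply, Equiv.symm_apply_apply]
      exact (Finset.mem_filter.1 huv).2
    have hmono : StrictMono (fun x => ρ.symm (σ x)) := hlt
    have := congrFun ((StrictMono.range_inj hmono strictMono_id).1
      (by simp [Function.Surjective.range_eq (f := fun x => ρ.symm (σ x))
        (ρ.symm.surjective.comp σ.surjective)])) p
    simpa [Equiv.symm_apply_eq] using this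
  have hexM : ∀ σ, ex σ < M := by
    intro σ
    refine lt_of_lt_of_le (Nat.geomSum_lt le_rfl ?_) hM
    intro x hx
    obtain ⟨y, -, rfl⟩ := Finset.mem_map.1 hx
    exact (finProdFinEquiv y).isLt
  have hq : Function.Injective fun σ : Equiv.Perm (Fin n) => E.q ^ ex σ := fun σ ρ e =>
    hex (E.q_prim.pow_inj (hexM σ) (hexM ρ) e)
  have hzero := eq_zero_of_pow_sums (V := E.T.C) _ hq (fun σ => c (w ∘ σ)) fun t => by
    let a : Fin n → ℕ := fun r => 2 ^ (r : ℕ)
    let b : Fin n → ℕ := fun r => t * 2 ^ (n * (r : ℕ))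
    have h1 := hmul (fun r => E.X ^ a r * E.Y ^ b r) fun r => E.monomial_mem_E _ _
    have h2 : ∀ σ : Equiv.Perm (Fin n), c (w ∘ σ) *
        (List.ofFn fun p => E.X ^ a (σ p) * E.Y ^ b (σ p)).prod =
        ((E.q ^ ex σ) ^ t • c (w ∘ σ)) * (E.X ^ (∑ r, a r) * E.Y ^ (∑ r, b r)) := by
      intro σ
      rw [E.prod_monomial n (fun p => a (σ p)) (fun p => b (σ p)), Equiv.sum_comp σ a,
        Equiv.sum_comp σ b, mul_smul_comm, smul_mul_assoc, ← pow_mul]
      congr 2
      simp only [ex, J, Finset.sum_map, Finset.sum_mul]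
      refine Finset.sum_congr rfl fun p _ => ?_
      simp only [code, a, b, Function.Embedding.coeFn_mk, Equiv.coe_toEmbedding,
        Equiv.prodCongr_apply, Prod.map, finProdFinEquiv_apply_val]
      rw [pow_add]; ring
    simp only [h2, ← Finset.sum_mul] at h1
    exact (mul_eq_zero.1 h1).resolve_right (E.monomial_ne _ _)
  have := congrFun hzero (1 : Equiv.Perm (Fin n))
  simpa using this

/-- Separation with coefficients in the base algebra. -/
theorem sep_zero_base {K n : ℕ} (hM : 2 ^ (n * n) ≤ M) (c : (Fin n → Fin K) → S.C)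
    (h : ∀ U : Fin K → E.T.C, (∀ i, U i ∈ E.E) →
      ∑ v, E.emb.iC (c v) * NS.wordProd U (List.ofFn v) = 0) : c = 0 := by
  funext v
  have := congrFun (E.sep_zero hM (fun v => E.emb.iC (c v)) h) v
  exact E.emb.iC.injective (by simpa using this)

/-- Separation of rotation classes by traces. -/
theorem sep_cyclic {K n : ℕ} (hM : 2 ^ (n * n) ≤ M) (c : (Fin (n + 1) → Fin K) → E.T.F)
    (h : ∀ U : Fin K → E.T.C, (∀ i, U i ∈ E.E) →
      ∑ v, c v * E.T.τ (NS.wordProd U (List.ofFn v)) = 0) (w : Fin (n + 1) → Fin K) :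
    ∑ p : Fin (n + 1), c (fun j => w (p + j)) = 0 := by
  classical
  let d : Fin K → (Fin n → Fin K) → E.T.F := fun i u =>
    ∑ p : Fin (n + 1), c (fun j => (Fin.cons i u : Fin (n + 1) → Fin K) (p + j))
  suffices hd : d (w 0) = 0 by
    have := congrFun hd (Fin.tail w)
    simpa [d] using this
  set i := w 0
  have hsep := E.sep_zero (K := K) hM (fun u => algebraMap E.T.F E.T.C (d i u)) fun U hU => by
    refine E.eq_zero_of_τ (Submodule.sum_mem _ fun u _ => ?_) fun e he => ?_
    · rw [← Algebra.smul_def]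
      exact Submodule.smul_mem _ _ (E.wordProd_mem_E U hU _)
    -- linear term along `e` in the letter `i`
    let Y : Fin K → E.T.C := fun j => if j = i then e else 0
    let G : (Fin (n + 1) → Fin K) → Finset (Fin (n + 1)) → E.T.F := fun v A =>
      E.T.τ (MultilinearMap.mkPiAlgebraFin E.T.F (n + 1) E.T.C
        (A.piecewise (fun p => Y (v p)) (fun p => U (v p))))
    let Q : Polynomial E.T.F :=
      ∑ v, ∑ A : Finset (Fin (n + 1)), Polynomial.C (c v * G v A) * Polynomial.X ^ #A
    have hQ : Q = 0 := Polynomial.funext fun ε => by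
      rw [Polynomial.eval_zero, ← h (fun j => ε • Y j + U j) fun j => Submodule.add_mem _
        (Submodule.smul_mem _ _ (by simp only [Y]; split <;> simp [he])) (hU j)]
      simp only [Q, Polynomial.eval_finsetSum, Polynomial.eval_mul, Polynomial.eval_C,
        Polynomial.eval_pow, Polynomial.eval_X]
      refine Finset.sum_congr rfl fun v _ => ?_
      have e1 : NS.wordProd (fun j => ε • Y j + U j) (List.ofFn v) =
          MultilinearMap.mkPiAlgebraFin E.T.F (n + 1) E.T.C
            ((fun p => ε • Y (v p)) + fun p => U (v p)) := by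
        simp [NS.wordProd, List.map_ofFn, Function.comp_def]
      rw [e1, MultilinearMap.map_add_univ, map_sum, Finset.mul_sum]
      refine Finset.sum_congr rfl fun A _ => ?_
      have e2 : A.piecewise (fun p => ε • Y (v p)) (fun p => U (v p)) =
          fun p => A.piecewise (fun _ => ε) (fun _ => (1 : E.T.F)) p •
            A.piecewise (fun p => Y (v p)) (fun p => U (v p)) p := by
        funext p; by_cases hp : p ∈ A <;> simp [hp]
      rw [e2, MultilinearMap.map_smul_univ, map_smul, smul_eq_mul]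
      simp only [G]
      rw [Finset.prod_piecewise, Finset.univ_inter]
      simp
      ring
    have hlin : ∑ v, ∑ p : Fin (n + 1), c v * G v {p} = 0 := by
      have := congrArg (fun P => Polynomial.coeff P 1) hQ
      simp only [Q, Polynomial.finsetSum_coeff, Polynomial.coeff_C_mul, Polynomial.coeff_X_pow,
        mul_ite, mul_one, mul_zero, Polynomial.coeff_zero] at this
      rw [← this]
      refine Finset.sum_congr rfl fun v _ => ?_
      rw [← Finset.sum_filter]
      refine (Finset.sum_bij (fun p _ => ({p} : Finset (Fin (n + 1)))) (fun p _ => by simp)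
        (fun p _ r _ e => Finset.singleton_injective e) (fun A hA => ?_) (fun p _ => rfl))
      obtain ⟨p, rfl⟩ := Finset.card_eq_one.1 (Finset.mem_filter.1 hA).2.symm
      exact ⟨p, Finset.mem_univ _, rfl⟩
    have hrot : ∀ v p, G v {p} = if v p = i then
        E.T.τ (e * (List.ofFn fun j : Fin n => U (v (p + j.succ))).prod) else 0 := by
      intro v p
      simp only [G, MultilinearMap.mkPiAlgebraFin_apply]
      set f := ({p} : Finset (Fin (n + 1))).piecewise (fun r => Y (v r)) (fun r => U (v r))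
      have hl : (List.ofFn f).rotate p = List.ofFn fun j => f (p + j) := by
        refine List.ext_getElem (by simp) fun k h1 h2 => ?_
        rw [List.getElem_rotate, List.getElem_ofFn, List.getElem_ofFn]
        congr 1
        ext
        simp [Fin.val_add, add_comm]
      have ht : ∀ l : List E.T.C, ∀ k : ℕ, E.T.τ (l.rotate k).prod = E.T.τ l.prod := by
        intro l k
        induction k generalizing l with
        | zero => simp
        | succ k ih =>
          cases l with
          | nil => simp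
          | cons x l =>
            rw [List.rotate_cons_succ, ih, List.prod_append, List.prod_singleton, List.prod_cons,
              E.τ_symm]
      rw [← ht _ p, hl, List.ofFn_succ, List.prod_cons]
      have hne : ∀ j : Fin n, p + j.succ ≠ p := fun j e => Fin.succ_ne_zero j (by simpa using e)
      simp only [f, add_zero, Finset.piecewise_singleton, Function.update_self,
        Function.update_of_ne (hne _), Y]
      split <;> simp
    simp only [hrot, mul_ite, mul_zero] at hlin
    rw [← hlin, Finset.mul_sum, map_sum, Finset.sum_comm (s := (Finset.univ : Finset (Fin (n+1) → _)))]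
    simp only [← Algebra.smul_def, mul_smul_comm, map_smul, smul_eq_mul, d, Finset.sum_mul]
    rw [Finset.sum_comm]
    refine Finset.sum_nbij' (fun p => -p) (fun p => -p) (by simp) (by simp) (by simp) (by simp)
      fun p _ => ?_
    rw [← Finset.sum_filter]
    refine Finset.sum_nbij' (fun u j => (Fin.cons i u : Fin (n + 1) → Fin K) (p + j))
      (fun v j => v (-p + j.succ)) (fun u _ => by simp) (fun v _ => Finset.mem_univ _)
      (fun u _ => by funext j; simp [← add_assoc]) (fun v hv => ?_) fun u _ => ?_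
    · funext j
      have hv' : v (-p) = i := (Finset.mem_filter.1 hv).2
      by_cases hj : p + j = 0
      · rw [hj, Fin.cons_zero, ← hv', neg_eq_of_add_eq_zero_right hj]
      · obtain ⟨k, hk⟩ := Fin.exists_succ_eq.2 hj
        show (Fin.cons i _ : Fin (n + 1) → Fin K) (p + j) = v j
        rw [← hk, Fin.cons_succ, hk, neg_add_cancel_left]
    · simp [NS.wordProd, List.map_ofFn, Function.comp_def, ← add_assoc]
  funext u
  exact (algebraMap E.T.F E.T.C).injective (by simpa using congrFun hsep u)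

/-- Separation of rotation classes, scalar coefficients from the base field. -/
theorem sep_cyclic_base {K n : ℕ} (hM : 2 ^ (n * n) ≤ M) (c : (Fin (n + 1) → Fin K) → S.F)
    (h : ∀ U : Fin K → E.T.C, (∀ i, U i ∈ E.E) →
      ∑ v, E.emb.iF (c v) * E.T.τ (NS.wordProd U (List.ofFn v)) = 0) (w : Fin (n + 1) → Fin K) :
    ∑ p : Fin (n + 1), c (fun j => w (p + j)) = 0 :=
  E.emb.iF.injective (by simpa [map_sum] using E.sep_cyclic hM (fun v => E.emb.iF (c v)) h w)

/-- A conjugation-stable subspace is stable under brackets with monomials. -/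
theorem bracket_mem (V : Submodule E.T.F E.T.C)
    (hV : ∀ k ∈ E.E, k ≠ 0 → ∀ v ∈ V, k * v * k⁻¹ ∈ V) (a b : ℕ) {v : E.T.C} (hv : v ∈ V) :
    E.X ^ a * E.Y ^ b * v - v * (E.X ^ a * E.Y ^ b) ∈ V := by
  classical
  set e₀ := E.X ^ a * E.Y ^ b
  obtain ⟨μ, hμ⟩ : ∃ μ : E.T.F, e₀ ^ M = algebraMap E.T.F E.T.C μ := by
    have h : ∀ k : ℕ, ∃ r : E.T.F, e₀ ^ k = r • (E.X ^ (k * a) * E.Y ^ (k * b)) := by
      intro k
      induction k with
      | zero => exact ⟨1, by simp⟩
      | succ k ih =>
        obtain ⟨r, hr⟩ := ih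
        exact ⟨r * E.q ^ (a * (k * b)), by
          rw [pow_succ, hr, smul_mul_assoc, E.mul_monomial, smul_smul, add_one_mul, add_one_mul]⟩
    obtain ⟨r, hr⟩ := h M
    obtain ⟨x, hx⟩ := E.X_pow
    obtain ⟨y, hy⟩ := E.Y_pow
    refine ⟨r * (x ^ a * y ^ b), ?_⟩
    rw [hr, pow_mul, pow_mul, ← hx, ← hy, ← map_pow, ← map_pow, ← map_mul, Algebra.smul_def,
      ← map_mul]
  obtain ⟨s, hs, hs0⟩ : ∃ s : E.T.F, s ≠ 0 ∧ 1 - (-s) ^ M * μ ≠ 0 := by
    by_contra hcon
    push Not at hcon
    have h1 := hcon 1 one_ne_zero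
    have h2 := hcon 2 two_ne_zero
    have h3 : ((-1 : E.T.F)) ^ M * μ = (-2) ^ M * μ := by rw [← sub_eq_zero]; linear_combination h2 - h1
    have hμ0 : μ ≠ 0 := fun h0 => by rw [h0, mul_zero, sub_zero] at h1; exact one_ne_zero h1
    have h4 := mul_right_cancel₀ hμ0 h3
    rw [neg_pow (2 : E.T.F)] at h4
    have h5 : (1 : E.T.F) = 2 ^ M := mul_left_cancel₀ (pow_ne_zero M (neg_ne_zero.2 one_ne_zero))
      (by rw [mul_one]; exact h4)
    have h6 : (1 : ℕ) = 2 ^ M := by exact_mod_cast h5
    exact absurd h6 (Nat.one_lt_two_pow E.pos.ne').ne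
  set e := s • e₀ with he
  set D := 1 - (-s) ^ M * μ with hD
  have key : ∀ r : Fin M,
      (E.q ^ (r : ℕ))⁻¹ • ((1 + E.q ^ (r : ℕ) • e) * v * (1 + E.q ^ (r : ℕ) • e)⁻¹ - v) =
        (e * v - v * e) * (D⁻¹ • ∑ k ∈ Finset.range M, (-(E.q ^ (r : ℕ))) ^ k • e ^ k) ∧
      1 + E.q ^ (r : ℕ) • e ≠ 0 := by
    intro r
    set u := E.q ^ (r : ℕ) with hu
    have hu0 : u ≠ 0 := pow_ne_zero _ E.q_ne
    have hgeo : (1 + u • e) * ∑ k ∈ Finset.range M, (-u) ^ k • e ^ k = D • (1 : E.T.C) := by
      have := mul_neg_geom_sum (-(u • e)) M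
      rw [sub_neg_eq_add] at this
      have e2 : ∀ k, (-(u • e)) ^ k = (-u) ^ k • e ^ k := fun k => by rw [← neg_smul, smul_pow]
      simp only [e2] at this
      rw [this, he, smul_pow, hμ, smul_smul, Algebra.algebraMap_eq_smul_one, smul_smul, hD, sub_smul,
        one_smul]
      congr 2
      rw [← mul_pow, neg_mul, neg_pow (u * s), mul_pow, hu, ← pow_mul, mul_comm (r : ℕ), pow_mul,
        E.q_prim.pow_eq_one, one_pow, one_mul, neg_pow s]
    have hne : 1 + u • e ≠ 0 := fun h0 => by
      rw [h0, zero_mul] at hgeo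
      exact smul_ne_zero hs0 one_ne_zero hgeo.symm
    refine ⟨?_, hne⟩
    have hinv : (1 + u • e)⁻¹ = D⁻¹ • ∑ k ∈ Finset.range M, (-u) ^ k • e ^ k :=
      inv_eq_of_mul_eq_one_right (by
        rw [mul_smul_comm, hgeo, smul_smul, inv_mul_cancel₀ hs0, one_smul])
    rw [← hinv]
    have h1 : (1 + u • e) * v * (1 + u • e)⁻¹ - v =
        u • ((e * v - v * e) * (1 + u • e)⁻¹) := by
      have h2 : v = v * (1 + u • e) * (1 + u • e)⁻¹ := by
        rw [mul_assoc, mul_inv_cancel₀ hne, mul_one]
      conv_lhs => rw [show (1 + u • e) * v * (1 + u • e)⁻¹ - v =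
        (1 + u • e) * v * (1 + u • e)⁻¹ - v * (1 + u • e) * (1 + u • e)⁻¹ by rw [← h2]]
      rw [← sub_mul, ← smul_mul_assoc, smul_sub]
      simp [add_mul, mul_add]
    rw [h1, smul_smul, inv_mul_cancel₀ hu0, one_smul]
  have hmem : ∑ r : Fin M,
      (E.q ^ (r : ℕ))⁻¹ • ((1 + E.q ^ (r : ℕ) • e) * v * (1 + E.q ^ (r : ℕ) • e)⁻¹ - v) ∈ V :=
    Submodule.sum_mem _ fun r _ => Submodule.smul_mem _ _ (Submodule.sub_mem _
      (hV _ (Submodule.add_mem _ E.one_mem_E (Submodule.smul_mem _ _
        (Submodule.smul_mem _ _ (E.monomial_mem_E a b)))) (key r).2 v hv) hv)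
  rw [Finset.sum_congr rfl fun r _ => (key r).1, ← Finset.mul_sum, ← Finset.smul_sum,
    Finset.sum_comm] at hmem
  have hroots : ∑ k ∈ Finset.range M, ∑ r : Fin M, (-(E.q ^ (r : ℕ))) ^ k • e ^ k
      = (M : E.T.F) • (1 : E.T.C) := by
    rw [Finset.sum_eq_single 0]
    · simp [Nat.cast_smul_eq_nsmul]
    · intro k hk hk0
      rw [← Finset.sum_smul]
      have h1 : ∑ r : Fin M, (-(E.q ^ (r : ℕ))) ^ k = (-1) ^ k * ∑ r ∈ Finset.range M, (E.q ^ k) ^ r := by
        rw [← Fin.sum_univ_eq_sum_range, Finset.mul_sum]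
        refine Finset.sum_congr rfl fun r _ => ?_
        rw [neg_pow, ← pow_mul, ← pow_mul, mul_comm (r : ℕ)]
      have hne : E.q ^ k ≠ 1 := fun h => absurd
        (Nat.le_of_dvd (Nat.pos_of_ne_zero hk0) ((E.q_pow_eq_one_iff k).1 h))
        (not_le.2 (Finset.mem_range.1 hk))
      rw [h1, geom_sum_eq hne, ← pow_mul, mul_comm k, pow_mul, E.q_prim.pow_eq_one, one_pow, sub_self,
        zero_div, mul_zero, zero_smul]
    · simp [E.pos.ne']
  rw [hroots, smul_smul, mul_smul_comm, mul_one, he, smul_mul_assoc, mul_smul_comm, ← smul_sub,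
    smul_smul] at hmem
  have hne : D⁻¹ * (M : E.T.F) * s ≠ 0 :=
    mul_ne_zero (mul_ne_zero (inv_ne_zero hs0) (Nat.cast_ne_zero.2 E.pos.ne')) hs
  have := V.smul_mem (D⁻¹ * (M : E.T.F) * s)⁻¹ hmem
  rwa [smul_smul, inv_mul_cancel₀ hne, one_smul] at this

/-- Conjugates of `X` span all monomials other than one. -/
theorem monomial_mem_conj (i j : ℕ) (hi : i < M) (hj : j < M) (h0 : i ≠ 0 ∨ j ≠ 0) :
    E.X ^ i * E.Y ^ j ∈
      Submodule.span E.T.F {z | ∃ k ∈ E.E, k ≠ 0 ∧ z = k * E.X * k⁻¹} := by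
  set V := Submodule.span E.T.F {z | ∃ k ∈ E.E, k ≠ 0 ∧ z = k * E.X * k⁻¹}
  have hV : ∀ k ∈ E.E, k ≠ 0 → ∀ v ∈ V, k * v * k⁻¹ ∈ V := by
    intro k hk hk0 v hv
    induction hv using Submodule.span_induction with
    | mem y hy =>
      obtain ⟨l, hl, hl0, rfl⟩ := hy
      exact Submodule.subset_span ⟨k * l, E.mul_mem_E hk hl, mul_ne_zero hk0 hl0, by
        rw [mul_inv_rev]; simp only [mul_assoc]⟩
    | zero => simp
    | add y z _ _ hy hz => rw [mul_add, add_mul]; exact V.add_mem hy hz
    | smul r y _ hy => rw [mul_smul_comm, smul_mul_assoc]; exact V.smul_mem r hy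
  have hX : E.X ∈ V := Submodule.subset_span ⟨1, E.one_mem_E, one_ne_zero, by simp⟩
  have hXp : ∀ {a b : ℕ} {v : E.T.C}, v = E.X ^ a * E.Y ^ b → ∀ a' b' : ℕ,
      E.q ^ (a * b') ≠ E.q ^ (a' * b) → v ∈ V → E.X ^ (a + a') * E.Y ^ (b + b') ∈ V := by
    rintro a b v rfl a' b' hne hv
    have h := E.bracket_mem V hV a' b' hv
    rw [E.mul_monomial, E.mul_monomial, add_comm a' a, add_comm b' b, ← sub_smul] at h
    simpa [smul_smul, inv_mul_cancel₀ (sub_ne_zero.2 hne)] using
      V.smul_mem (E.q ^ (a * b') - E.q ^ (a' * b))⁻¹ h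
  obtain ⟨x, hx⟩ := E.X_pow
  obtain ⟨y, hy⟩ := E.Y_pow
  have hx0 : x ≠ 0 := fun h => pow_ne_zero M E.X_ne (by rw [← hx, h, map_zero])
  have hy0 : y ≠ 0 := fun h => pow_ne_zero M E.Y_ne (by rw [← hy, h, map_zero])
  -- all monomials with a nontrivial power of `Y`
  have step : ∀ a b : ℕ, a < M → b < M → b ≠ 0 → E.X ^ a * E.Y ^ b ∈ V := by
    intro a b ha hb hb0
    have h := hXp (a := 1) (b := 0) (by simp) (a + M - 1) b (fun e => by
      rw [one_mul, mul_zero, pow_zero] at e
      exact absurd (Nat.le_of_dvd (by omega) ((E.q_pow_eq_one_iff b).1 e)) (by omega)) hX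
    rw [zero_add, show 1 + (a + M - 1) = M + a by omega, pow_add, ← hx, ← Algebra.smul_def,
      smul_mul_assoc] at h
    simpa [smul_smul, inv_mul_cancel₀ hx0] using V.smul_mem x⁻¹ h
  rcases Nat.eq_zero_or_pos j with rfl | hj0
  · have hi0 : i ≠ 0 := by simpa using h0
    have h1 := step i 1 hi (by omega) one_ne_zero
    have h := hXp (a := i) (b := 1) rfl 0 (M - 1) (fun e => by
      rw [zero_mul, pow_zero, E.q_pow_eq_one_iff] at e
      have h2 : M ∣ i := by
        have e3 : i * (M - 1) + i = i * M := by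
          rw [← Nat.mul_succ, Nat.succ_eq_add_one, Nat.sub_add_cancel E.pos]
        exact (Nat.dvd_add_right e).1 (e3 ▸ dvd_mul_left M i)
      exact absurd (Nat.le_of_dvd (by omega) h2) (by omega)) h1
    rw [add_zero, show 1 + (M - 1) = M by omega, ← hy, ← Algebra.commutes, ← Algebra.smul_def] at h
    simpa [smul_smul, inv_mul_cancel₀ hy0] using V.smul_mem y⁻¹ h
  · exact step i j hi hj hj0.ne'

/-- Every element of the monomial span is a multiple of one plus a combination of conjugates of `X`. -/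
theorem mem_one_sup_conj {e : E.T.C} (he : e ∈ E.E) :
    e ∈ Submodule.span E.T.F {(1 : E.T.C)} ⊔
      Submodule.span E.T.F {z | ∃ k ∈ E.E, k ≠ 0 ∧ z = k * E.X * k⁻¹} := by
  refine Submodule.span_le.2 ?_ he
  rintro _ ⟨⟨i, j⟩, rfl⟩
  by_cases h : (i : ℕ) ≠ 0 ∨ (j : ℕ) ≠ 0
  · exact Submodule.mem_sup_right (E.monomial_mem_conj i j i.2 j.2 h)
  · obtain ⟨hi, hj⟩ := not_or.1 h
    exact Submodule.mem_sup_left (Submodule.subset_span (by simp [not_not.1 hi, not_not.1 hj]))

/-- Independent families of the base algebra stay independent over the larger ground field. -/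
theorem iC_linearIndependent {ι : Type} [Finite ι] (v : ι → S.C) (hv : LinearIndependent S.F v) :
    LinearIndependent E.T.F (fun i => E.emb.iC (v i)) := by
  classical
  have := Fintype.ofFinite ι
  obtain ⟨g, hg⟩ := (Fintype.linearCombination S.F v).exists_leftInverse_of_injective
    (LinearMap.ker_eq_bot'.2 fun a ha => funext fun j => Fintype.linearIndependent_iff.1 hv a
      (by simpa [Fintype.linearCombination_apply] using ha) j)
  have hgv : ∀ i, g (v i) = Pi.single i 1 := fun i => by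
    conv_lhs => rw [show v i = Fintype.linearCombination S.F v (Pi.single i 1) by simp]
    exact LinearMap.congr_fun hg _
  rw [Fintype.linearIndependent_iff]
  intro a ha i
  let φ : S.C →ₗ[S.F] S.C := (LinearMap.toSpanSingleton S.F S.C 1).comp
    ((LinearMap.proj i).comp g)
  have hφ : ∀ j, E.extend φ (E.emb.iC (v j)) = if j = i then 1 else 0 := by
    intro j
    have h := E.extend_apply φ (v j) ⟨0, E.pos⟩ ⟨0, E.pos⟩
    simp only [pow_zero, mul_one] at h
    rw [h, show φ (v j) = if j = i then 1 else 0 from ?_]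
    · split <;> simp
    · simp only [φ, LinearMap.comp_apply, LinearMap.proj_apply, hgv, Pi.single_apply,
        LinearMap.toSpanSingleton_apply, eq_comm (a := i)]
      split <;> simp
  have := congrArg (E.extend φ) ha
  simpa [hφ, smul_ite] using this

end Sym

end P199K
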