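import Mathlib
import Vale.Agent.P199.Kurosh.Stmts
import Vale.Agent.P199.Kurosh.SymKit

/-! Approaching points: linear points in the direction of the test element, perturbed in high order to
generate. -/

open Module Finset

namespace P199K

variable {S : Stg} {M : ℕ} {E : Sym S M} {K : ℕ}

theorem Point.eval_coeff_neg' (P : Point E K) (f : NS K S.C) {n : ℤ} (hn : n < 0) :
    (P.eval f).coeff n = 0 := by
  show (if n < 0 then 0 else _) = (0 : E.T.C)
  rw [if_pos hn]

theorem Point.eval_coeff_zero' (P : Point E K) (f : NS K S.C) :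
    (P.eval f).coeff 0 = E.emb.iC (f []) := by
  simp [Point.eval, evalTrunc, NS.wordProd, Sym.ι]

theorem Point.eval_coeff_one' (P : Point E K) (f : NS K S.C) :
    (P.eval f).coeff 1 = ∑ i, E.emb.iC (f [i]) * (P.p i).coeff 1 := by
  simp only [Point.eval, HahnSeries.coeff_ofSuppBddBelow, show ¬ (1 : ℤ) < 0 by norm_num, if_false,
    Int.toNat_one, evalTrunc]
  rw [Finset.sum_range_succ, Finset.sum_range_one, HahnSeries.coeff_add, HahnSeries.coeff_sum,
    HahnSeries.coeff_sum]
  simp only [NS.wordProd, Sym.ι, RingHom.comp_apply]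
  rw [← (Equiv.funUnique (Fin 1) (Fin K)).symm.sum_comp]
  simp [HahnSeries.C_apply, HahnSeries.coeff_single_zero_mul]

/-- Module `Approach`: linear points with a generating perturbation approach the test element. -/
theorem approachExists_holds (hp : PerturbStmt) : ApproachExistsStmt := by
  intro o hfull hK _ m M hM E
  have hdec : ∀ u ∈ o.W, ∃ (x : Fin o.K → o.S.F) (c : o.S.C),
      u = ∑ i, x i • o.f [i] + (o.θ * c - c * o.θ) := by
    intro u hu
    obtain ⟨a, ⟨x, rfl⟩, b, ⟨c, rfl⟩, hab⟩ := Submodule.mem_sup.1 (Submodule.mem_inf.1 hu).1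
    exact ⟨x, c, hab.symm⟩
  obtain ⟨x0, c0, h0⟩ := hdec _ m.w0_mem
  obtain ⟨x1, c1, h1⟩ := hdec _ m.w1_mem
  let η : Fin o.K → E.T.C := fun i => E.emb.iF (x0 i) • E.X + E.emb.iF (x1 i) • E.Y
  let P0 : Point E o.K :=
    { p := fun i => HahnSeries.single (1 : ℤ) (η i)
      small := fun i n hn => HahnSeries.coeff_single_of_ne (by omega)
      mem := fun i n => by
        by_cases hn : n = 1
        · subst hn
          simpa [η] using Submodule.add_mem _ (Submodule.smul_mem _ (E.emb.iF (x0 i)) E.X_mem_E)
            (Submodule.smul_mem _ (E.emb.iF (x1 i)) E.Y_mem_E)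
        · simp [HahnSeries.coeff_single_of_ne hn] }
  obtain ⟨P, hgen, hP⟩ := hp o M 2 hfull hK (by omega) E P0
  have hP1 : ∀ i, (P.p i).coeff 1 = η i := fun i => by
    have := hP i 1 (by norm_num)
    simpa [P0, sub_eq_zero] using this
  set θ' := E.emb.iC o.θ with hθ'
  set b : E.T.C := -(E.emb.iC c0 * E.X + E.emb.iC c1 * E.Y) with hb
  have hlin : ∑ i, E.emb.iC (o.f [i]) * η i = m.Z E + (θ' * b - b * θ') := by
    have e : ∀ (x : Fin o.K → o.S.F) (U : E.T.C),
        ∑ i, E.emb.iC (o.f [i]) * (E.emb.iF (x i) • U) = E.emb.iC (∑ i, x i • o.f [i]) * U := by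
      intro x U
      rw [map_sum, Finset.sum_mul]
      refine Finset.sum_congr rfl fun i _ => ?_
      rw [E.iC_smul, mul_smul_comm, smul_mul_assoc]
    simp only [η, mul_add, Finset.sum_add_distrib, e]
    rw [eq_sub_of_add_eq h0.symm, eq_sub_of_add_eq h1.symm, Model.Z, hb, hθ']
    simp only [map_sub, map_mul, mul_add, sub_mul, mul_neg, neg_mul, add_mul, mul_assoc, E.X_comm,
      E.Y_comm]
    abel
  refine ⟨P, hgen, ?_⟩
  refine ⟨{ n := 1
            pos := one_pos
            h := 1
            h_int := fun k hk => by simp [HahnSeries.coeff_one, hk.ne]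
            h_lead := by simp [HahnSeries.coeff_one]
            a := m.Z E + (θ' * b - b * θ')
            b := b
            a_eq := rfl
            value := ?_ }, rfl⟩
  intro k hk
  rw [mul_one, one_mul, HahnSeries.coeff_sub, HahnSeries.coeff_add]
  simp only [Sym.ι, RingHom.comp_apply, HahnSeries.C_apply, Nat.cast_one]
  rcases lt_trichotomy k 0 with hk0 | hk0 | hk0
  · rw [Point.eval_coeff_neg' P o.f hk0, HahnSeries.coeff_single_of_ne hk0.ne,
      HahnSeries.coeff_single_of_ne (by omega)]
    simp
  · subst hk0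
    rw [Point.eval_coeff_zero', HahnSeries.coeff_single_same, HahnSeries.coeff_single_of_ne (by omega)]
    simp [Obj.θ]
  · obtain rfl : k = 1 := by push_cast at hk; omega
    rw [Point.eval_coeff_one', HahnSeries.coeff_single_of_ne (by omega), HahnSeries.coeff_single_same]
    simp only [hP1, hlin, zero_add, sub_self]

end P199K
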