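import Mathlib
import Vale.Agent.P199.Kurosh.Stmts

/-! Selection of a minimal state, from three facts about states. -/

open Module

namespace P199K

/-- Statement: the square of the degree of the base value divides the dimension. -/
def DimStmt : Prop := ∀ o : Obj, 0 < o.d ∧ ∃ e, 0 < e ∧ o.d ^ 2 * e = o.S.dim

/-- Statement: the degree of the ratio algebra divides the degree of the base value when the tangent
space lies in the field of the base value. -/
def RatioStmt : Prop :=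
  ∀ o : Obj, o.W ≠ ⊥ → o.W ≤ o.S.gen o.θ →
    0 < o.d0 ∧ o.r ≤ o.d0 ∧ ∃ ρ, 0 < ρ ∧ o.d0 * ρ = o.d

/-- Statement: if every descendant has vanishing tangent space in the centraliser, the root is good. -/
def BotStmt : Prop :=
  ∀ root : Obj, root.Full → 2 ≤ root.K → (∀ o, root.Desc o → o.W = ⊥) → root.Good

/-- Statement: from a state with both degrees maximal one reaches a state with a small corank, unless
one of the degrees is exceeded. -/
def BootStmt : Prop :=
  ∀ root o : Obj, o.State root →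
    (∀ s : Obj, s.State root → s.d ^ 2 * o.S.dim ≤ o.d ^ 2 * s.S.dim) →
    (∀ s : Obj, s.State root → s.d ^ 2 * o.S.dim = o.d ^ 2 * s.S.dim → s.d0 * o.d ≤ o.d0 * s.d) →
    ∃ s : Obj, s.State root ∧ s.d ^ 2 * o.S.dim = o.d ^ 2 * s.S.dim ∧ s.d0 * o.d = o.d0 * s.d ∧
      4 * (s.d0 - s.r) + 8 ≤ s.d0

theorem exists_nat_min {α : Type*} (P : α → Prop) (φ : α → ℕ) (h : ∃ a, P a) :
    ∃ a, P a ∧ ∀ b, P b → φ a ≤ φ b := by
  classical
  have h' : ∃ n, ∃ a, P a ∧ φ a = n := ⟨_, h.choose, h.choose_spec, rfl⟩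
  obtain ⟨a, ha, hφ⟩ := Nat.find_spec h'
  exact ⟨a, ha, fun b hb => hφ ▸ Nat.find_min' h' ⟨b, hb, rfl⟩⟩

theorem select_of (hD : DimStmt) (hR : RatioStmt) (hB : BotStmt) (hW : WLeStmt) (hBoot : BootStmt) :
    SelectStmt := by
  intro root hfull hK hbad
  classical
  choose hd e hepos he using hD
  -- states exist
  have hex : ∃ o : Obj, o.State root := by
    by_contra hno
    exact hbad (hB root hfull hK fun o ho => by_contra fun hne => hno ⟨o, ho, hne⟩)
  -- largest relative degree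
  obtain ⟨a, ha, hamin⟩ := exists_nat_min (fun o : Obj => o.State root) e hex
  have degA : ∀ s : Obj, s.State root → s.d ^ 2 * a.S.dim ≤ a.d ^ 2 * s.S.dim := by
    intro s hs
    rw [← he a, ← he s]
    have := Nat.mul_le_mul_left (s.d ^ 2 * a.d ^ 2) (hamin s hs)
    calc s.d ^ 2 * (a.d ^ 2 * e a) = s.d ^ 2 * a.d ^ 2 * e a := by ring
      _ ≤ s.d ^ 2 * a.d ^ 2 * e s := this
      _ = a.d ^ 2 * (s.d ^ 2 * e s) := by ring
  have eqv : ∀ s t : Obj, s.d ^ 2 * t.S.dim = t.d ^ 2 * s.S.dim ↔ e t = e s := by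
    intro s t
    rw [← he s, ← he t]
    constructor
    · intro h
      have h' : s.d ^ 2 * t.d ^ 2 * e t = s.d ^ 2 * t.d ^ 2 * e s := by
        rw [mul_assoc, h]; ring
      exact Nat.eq_of_mul_eq_mul_left (Nat.mul_pos (pow_pos (hd s) 2) (pow_pos (hd t) 2)) h'
    · intro h
      rw [h]; ring
  have degMax : ∀ t : Obj, t.State root → e t = e a →
      ∀ s : Obj, s.State root → s.d ^ 2 * t.S.dim ≤ t.d ^ 2 * s.S.dim := by
    intro t _ ht s hs
    rw [← he t, ← he s]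
    have h1 := Nat.mul_le_mul_left (s.d ^ 2 * t.d ^ 2) (ht ▸ hamin s hs)
    calc s.d ^ 2 * (t.d ^ 2 * e t) = s.d ^ 2 * t.d ^ 2 * e t := by ring
      _ ≤ s.d ^ 2 * t.d ^ 2 * e s := h1
      _ = t.d ^ 2 * (s.d ^ 2 * e s) := by ring
  -- ratio data for all states of maximal degree
  have hrat : ∀ t : Obj, t.State root → e t = e a → 0 < t.d0 ∧ ∃ ρ, 0 < ρ ∧ t.d0 * ρ = t.d :=
    fun t ht hte => ⟨(hR t ht.2 (hW root t ht (degMax t ht hte))).1,
      (hR t ht.2 (hW root t ht (degMax t ht hte))).2.2⟩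
  let rho : Obj → ℕ := fun t => t.d / t.d0
  have hrho : ∀ t : Obj, t.State root → e t = e a → 0 < rho t ∧ t.d0 * rho t = t.d := by
    intro t ht hte
    obtain ⟨h0, ρ, hρ, heq⟩ := hrat t ht hte
    have : rho t = ρ := by
      show t.d / t.d0 = ρ
      rw [← heq, Nat.mul_div_cancel_left _ h0]
    rw [this]; exact ⟨hρ, heq⟩
  obtain ⟨b, ⟨hb, hbe⟩, hbmin⟩ :=
    exists_nat_min (fun o : Obj => o.State root ∧ e o = e a) rho ⟨a, ha, rfl⟩
  have ratB : ∀ t : Obj, t.State root → e t = e a → rho t = rho b →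
      ∀ s : Obj, s.State root → s.d ^ 2 * t.S.dim = t.d ^ 2 * s.S.dim → s.d0 * t.d ≤ t.d0 * s.d := by
    intro t ht hte htb s hs hse
    have hse' : e s = e a := by rw [← hte]; exact ((eqv s t).1 hse).symm
    rw [← (hrho t ht hte).2, ← (hrho s hs hse').2]
    calc s.d0 * (t.d0 * rho t) = s.d0 * t.d0 * rho t := by ring
      _ ≤ s.d0 * t.d0 * rho s := Nat.mul_le_mul_left _ (htb ▸ hbmin s ⟨hs, hse'⟩)
      _ = t.d0 * (s.d0 * rho s) := by ring
  have eq0 : ∀ s t : Obj, s.State root → t.State root → e s = e a → e t = e a →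
      (s.d0 * t.d = t.d0 * s.d ↔ rho t = rho s) := by
    intro s t hs ht hse hte
    rw [← (hrho t ht hte).2, ← (hrho s hs hse).2]
    constructor
    · intro h
      have h' : s.d0 * t.d0 * rho t = s.d0 * t.d0 * rho s := by
        rw [mul_assoc, h]; ring
      exact Nat.eq_of_mul_eq_mul_left
        (Nat.mul_pos (hrat s hs hse).1 (hrat t ht hte).1) h'
    · intro h
      rw [h]; ring
  obtain ⟨c, hc, hc1, hc2, hc3⟩ := hBoot root b hb (degMax b hb hbe) (ratB b hb hbe rfl)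
  have hce : e c = e a := by rw [← hbe]; exact ((eqv c b).1 hc1).symm
  have hcr : rho c = rho b := ((eq0 c b hc hb hce hbe).1 hc2).symm
  obtain ⟨o, ⟨ho, hoe, hor, hos⟩, homin⟩ := exists_nat_min
    (fun o : Obj => o.State root ∧ e o = e a ∧ rho o = rho b ∧ 4 * (o.d0 - o.r) + 8 ≤ o.d0)
    (fun o => o.d0 - o.r) ⟨c, hc, hce, hcr, hc3⟩
  refine ⟨o, ⟨ho, degMax o ho hoe, ratB o ho hoe hor, hos, ?_⟩⟩
  intro s hs hse hs0 hsm
  have hse' : e s = e a := by rw [← hoe]; exact ((eqv s o).1 hse).symm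
  have hsr : rho s = rho b := by rw [← hor]; exact ((eq0 s o hs ho hse' hoe).1 hs0).symm
  exact homin s ⟨hs, hse', hsr, hsm⟩

/-- Statement: dimensions of the centraliser and of the cokernel. -/
def CentStmt : Prop :=
  ∀ o : Obj, o.d * finrank o.S.F (o.S.cent o.θ) = o.S.dim ∧
    finrank o.S.F o.Kc + o.r = finrank o.S.F (o.S.cent o.θ)

/-- Statement: the Laurent stage has the same dimension. -/
def LaurentDimStmt : Prop := ∀ S : Stg, S.laurent.dim = S.dim

/-- The arithmetic of the bootstrap. -/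
theorem boot_arith {d d0 ρ M d0' ρ' r' : ℕ} (hd : d0 * ρ = d) (hd' : d0' * ρ' = d * M)
    (hd0 : 0 < d0) (hle : d0' * d ≤ d0 * (d * M)) (hr : r' ≤ d0') (hlow : d0 * M ≤ r' + d0 ^ 2)
    (hM : 5 * d0 * (ρ + 1) + 8 < M) (hρ' : 0 < ρ') :
    d0' = d0 * M ∧ 4 * (d0' - r') + 8 ≤ d0' := by
  have hdpos : 0 < d := by
    rcases Nat.eq_zero_or_pos d with h | h
    · exfalso
      subst h
      have hd0' : d0' = 0 := by
        rcases Nat.mul_eq_zero.1 (hd'.trans (zero_mul M)) with h' | h'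
        · exact h'
        · omega
      subst hd0'
      have : r' = 0 := by omega
      subst this
      nlinarith
    · exact h
  have hle0 : d0' * d ≤ d0 * M * d := by nlinarith
  have hle' : d0' ≤ d0 * M := Nat.le_of_mul_le_mul_right hle0 hdpos
  have hρle : ρ' ≤ ρ := by
    by_contra hcon
    have h1 : d0' * (ρ + 1) ≤ d0' * ρ' := Nat.mul_le_mul_left _ (by omega)
    have h2 : d0 * M * (ρ + 1) ≤ (d0' + d0 ^ 2) * (ρ + 1) := Nat.mul_le_mul_right _ (by omega)
    have h3 : d0' * (ρ + 1) ≤ d0 * ρ * M := by rw [hd, ← hd']; exact h1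
    nlinarith [mul_pos hd0 hd0]
  have hge : d0 * M ≤ d0' := by
    have h1 : d0' * ρ' ≤ d0' * ρ := Nat.mul_le_mul_left _ hρle
    have h2 : d0 * M * ρ ≤ d0' * ρ := by rw [hd', ← hd] at h1; nlinarith
    rcases Nat.eq_zero_or_pos ρ with h | h
    · subst h; omega
    · exact Nat.le_of_mul_le_mul_right h2 h
  have he : d0' = d0 * M := le_antisymm hle' hge
  refine ⟨he, ?_⟩
  have h5 : 4 * d0 ^ 2 + 8 ≤ d0 * M := by nlinarith
  omega

theorem boot_of (hR : RatioStmt) (hC : CentStmt) (hL : LaurentDimStmt) (hD : DimStmt) (hW : WLeStmt)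
    (hA : RankAStmt) (hS : SymExistsStmt) (hP : ApproachExistsStmt) (hG : GrowExistsStmt)
    (hLim : LimitUpStmt) : BootStmt := by
  intro root o ho hdeg hrat
  have hWle := hW root o ho hdeg
  obtain ⟨hd0, hr, ρ, hρ, hρeq⟩ := hR o ho.2 hWle
  obtain ⟨⟨m, hm⟩, hbound⟩ := hA o ho.2 hWle
  have hdpos : 0 < o.d := (hD o).1
  obtain ⟨M, hM⟩ : ∃ M, M = 5 * o.d0 * (ρ + 1) + 9 + o.d := ⟨_, rfl⟩
  obtain ⟨E⟩ := hS o.S M (by omega)
  obtain ⟨P, hgen, A, -⟩ := hP o ho.1.1 ho.1.2.1 hWle m M (by omega) E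
  obtain ⟨G⟩ := hG o M ho.1.1 ho.1.2.1 (by omega) E P hgen
  obtain ⟨hst, hd', hK⟩ := hLim root o ho hdeg m M (by omega) (by omega) E P A G
  have hdim : G.child.S.dim = o.S.dim * M ^ 2 := by
    show E.T.laurent.dim = _
    rw [hL, E.dim_eq]
  have hdeg' : G.child.d ^ 2 * o.S.dim = o.d ^ 2 * G.child.S.dim := by rw [hd', hdim]; ring
  have hdegmax' : ∀ s : Obj, s.State root →
      s.d ^ 2 * G.child.S.dim ≤ G.child.d ^ 2 * s.S.dim := by
    intro s hs
    rw [hd', hdim]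
    calc s.d ^ 2 * (o.S.dim * M ^ 2) = s.d ^ 2 * o.S.dim * M ^ 2 := by ring
      _ ≤ o.d ^ 2 * s.S.dim * M ^ 2 := Nat.mul_le_mul_right _ (hdeg s hs)
      _ = (o.d * M) ^ 2 * s.S.dim := by ring
  obtain ⟨_, hr', ρ', hρ', hρeq'⟩ := hR G.child hst.2 (hW root G.child hst hdegmax')
  have hcent : finrank G.child.S.F (G.child.S.cent G.child.θ)
      = finrank o.S.F (o.S.cent o.θ) * M := by
    have h1 := (hC G.child).1
    rw [hd', hdim, ← (hC o).1] at h1
    have hpos : 0 < o.d * M := Nat.mul_pos hdpos (by omega)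
    apply Nat.eq_of_mul_eq_mul_left hpos
    rw [h1]; ring
  have hlow : o.d0 * M ≤ G.child.r + o.d0 ^ 2 := by
    have h1 := (hC G.child).2
    have h2 := hbound m M hm (by omega) E
    omega
  have hle : G.child.d0 * o.d ≤ o.d0 * (o.d * M) := by
    have := hrat G.child hst hdeg'
    rwa [hd'] at this
  obtain ⟨he, hsmall⟩ := boot_arith hρeq (hρeq'.trans hd') hd0 hle hr' hlow (by omega) hρ'
  exact ⟨G.child, hst, hdeg', by rw [he, hd']; ring, hsmall⟩

end P199K
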