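import Mathlib
import Vale.Agent.P199.Kurosh.SelectCore
import Vale.Agent.P199.Kurosh.Alg

/-! The cokernel at a base point has dimension `dim cent - dim W`. -/

open Module

namespace P199K

theorem Obj.T_eq (o : Obj) : o.T = o.W ⊔ LinearMap.range (o.S.ad o.θ) := by
  refine le_antisymm (fun x hx => ?_) (sup_le inf_le_left le_sup_right)
  obtain ⟨z, hz, y, rfl⟩ := o.S.exists_cent_add_ad o.θ x
  have hy : o.S.ad o.θ y ∈ o.T := le_sup_right (a := LinearMap.range o.Df) ⟨y, rfl⟩
  refine Submodule.add_mem_sup ⟨?_, hz⟩ ⟨y, rfl⟩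
  simpa using o.T.sub_mem hx hy

theorem Obj.finrank_T (o : Obj) :
    finrank o.S.F o.T = o.r + finrank o.S.F (LinearMap.range (o.S.ad o.θ)) := by
  have h := Submodule.finrank_sup_add_finrank_inf_eq o.W (LinearMap.range (o.S.ad o.θ))
  have hd : o.W ⊓ LinearMap.range (o.S.ad o.θ) = ⊥ :=
    le_bot_iff.1 ((inf_le_inf_right _ inf_le_right).trans (o.S.cent_disjoint_range_ad o.θ).le_bot)
  rw [hd, finrank_bot, ← o.T_eq, add_zero] at h
  exact h

theorem Obj.finrank_Kc (o : Obj) :
    finrank o.S.F o.Kc + o.r = finrank o.S.F (o.S.cent o.θ) := by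
  have h1 := o.S.finrank_orth_add o.T
  have h2 := o.S.finrank_orth_add (LinearMap.range (o.S.ad o.θ))
  rw [o.S.orth_range_ad] at h2
  rw [o.finrank_T] at h1
  show finrank o.S.F (o.S.orth o.T) + o.r = _
  omega

end P199K
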