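import Mathlib
import Vale.Agent.P199.Kurosh.SelectCore
import Vale.Agent.P199.Kurosh.Laurent

/-! Degree facts about the ratio algebra, and the dimension of the Laurent stage. -/

open Module

namespace P199K

theorem Obj.d_eq (o : Obj) :
    o.d = finrank o.S.F (Algebra.adjoin o.S.F ({o.θ} : Set o.S.C)) := rfl

theorem Obj.W_gen_comm {o : Obj} {a b : o.S.C} (ha : a ∈ o.S.gen o.θ) (hb : b ∈ o.S.gen o.θ) :
    a * b = b * a := by
  have h := congrArg Subtype.val
    ((Algebra.adjoinCommRingOfComm o.S.F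
        (s := ({o.θ} : Set o.S.C)) (by rintro x rfl y rfl; rfl)).mul_comm ⟨a, ha⟩ ⟨b, hb⟩)
  exact h

theorem Stg.inv_mem_subalgebraₛ (S : Stg) (A : Subalgebra S.F S.C) {a : S.C} (ha : a ∈ A) :
    a⁻¹ ∈ A := by
  rcases eq_or_ne a 0 with rfl | h0
  · simp
  have hinj : Function.Injective (LinearMap.mulLeft S.F (⟨a, ha⟩ : A)) := by
    intro x y hxy
    exact Subtype.ext (mul_left_cancel₀ h0 (congrArg Subtype.val hxy))
  obtain ⟨x, hx⟩ := LinearMap.surjective_of_injective hinj 1
  have hx' : a * (x : S.C) = 1 := congrArg Subtype.val hx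
  rw [inv_eq_of_mul_eq_one_right hx']
  exact x.2

theorem Stg.finrank_dvdₛ (S : Stg) (A B : Subalgebra S.F S.C) (h : A ≤ B) :
    finrank S.F A ∣ finrank S.F B := by
  classical
  letI : DivisionRing A :=
    divisionRingOfFiniteDimensional S.F A
  letI : Module A B :=
    Module.compHom B (Subalgebra.inclusion h).toRingHom
  haveI : IsScalarTower S.F A B := ⟨fun r a b => by
    show (Subalgebra.inclusion h) (r • a) * b = r • ((Subalgebra.inclusion h) a * b)
    rw [map_smul, Algebra.smul_mul_assoc]⟩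
  exact ⟨finrank A B, (Module.finrank_mul_finrank S.F A B).symm⟩

theorem ratio_holds : RatioStmt := by
  intro o hne hle
  obtain ⟨b, hb, hb0⟩ := Submodule.exists_mem_ne_zero_of_ne_bot hne
  have hsub : Algebra.adjoin o.S.F {x : o.S.C | ∃ a ∈ o.W, ∃ c ∈ o.W, c ≠ 0 ∧ x = a * c⁻¹}
      ≤ Algebra.adjoin o.S.F ({o.θ} : Set o.S.C) := by
    refine Algebra.adjoin_le ?_
    rintro x ⟨a, ha, c, hc, -, rfl⟩
    exact Subalgebra.mul_mem _ (hle ha) (o.S.inv_mem_subalgebraₛ _ (hle hc))
  have hpos : 0 < o.d0 := by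
    show 0 < finrank o.S.F (Algebra.adjoin o.S.F _)
    exact Module.finrank_pos
  refine ⟨hpos, ?_, ?_⟩
  · let φ : o.W →ₗ[o.S.F] o.L0 :=
      { toFun := fun a => ⟨(a : o.S.C) * b⁻¹, Algebra.subset_adjoin ⟨a, a.2, b, hb, hb0, rfl⟩⟩
        map_add' := fun a c => Subtype.ext (by simp [add_mul])
        map_smul' := fun r a => Subtype.ext (by simp) }
    exact LinearMap.finrank_le_finrank_of_injective (f := φ) fun a c h =>
      Subtype.ext (mul_right_cancel₀ (inv_ne_zero hb0) (congrArg Subtype.val h))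
  · obtain ⟨ρ, hρ⟩ := o.S.finrank_dvdₛ _ _ hsub
    refine ⟨ρ, ?_, hρ.symm⟩
    rcases Nat.eq_zero_or_pos ρ with h | h
    · subst h
      have : 0 < finrank o.S.F (Algebra.adjoin o.S.F ({o.θ} : Set o.S.C)) := Module.finrank_pos
      omega
    · exact h

theorem laurentDim_holds : LaurentDimStmt := by
  intro S
  have hspan : ∀ x : LaurentSeries S.C, x ∈ Submodule.span (LaurentSeries S.F)
      (Set.range fun i => (HahnSeries.C (Module.finBasis S.F S.C i) : LaurentSeries S.C)) := by
    intro x
    rw [laurent_span S x]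
    refine Submodule.sum_mem _ fun i _ => ?_
    rw [← Algebra.smul_def]
    exact Submodule.smul_mem _ _ (Submodule.subset_span ⟨i, rfl⟩)
  have hind : LinearIndependent (LaurentSeries S.F)
      (fun i => (HahnSeries.C (Module.finBasis S.F S.C i) : LaurentSeries S.C)) := by
    rw [Fintype.linearIndependent_iff]
    intro g hg i
    ext n
    have h := congrArg (fun z : LaurentSeries S.C => z.coeff n) hg
    simp only [Algebra.smul_def, HahnSeries.coeff_sum, laurent_algebraMap, HahnSeries.C_apply,
      HahnSeries.coeff_mul_single_zero, laurentMap_coeff, HahnSeries.coeff_zero] at h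
    have h' : ∑ j, (g j).coeff n • Module.finBasis S.F S.C j = 0 := by
      simpa [Algebra.smul_def] using h
    simpa using Fintype.linearIndependent_iff.1 (Module.finBasis S.F S.C).linearIndependent _ h' i
  show finrank (LaurentSeries S.F) (LaurentSeries S.C) = finrank S.F S.C
  have := Module.finrank_eq_card_basis (Basis.mk hind (fun x _ => hspan x))
  simpa using this

end P199K
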