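import Mathlib

/-!
A finitely generated division algebra, algebraic over a central subfield and infinite-dimensional,
is a division ring algebraic over its center that is not locally finite over it.
-/

namespace Vale.Agent.P199.Kurosh

open scoped Pointwise

universe u v

variable {k : Type u} [Field k] {D : Type v} [DivisionRing D] [Algebra k D]

/-- The map of a central subfield into the center. -/
def toCenter : k →+* Subring.center D :=
  (algebraMap k D).codRestrict (Subring.center D) fun c =>
    Subring.mem_center_iff.2 fun y => (Algebra.commutes c y).symm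

/-- Elements algebraic over a central subfield are algebraic over the center. -/
theorem isAlgebraic_center [Algebra.IsAlgebraic k D] (x : D) :
    IsAlgebraic (Subring.center D) x := by
  let : Algebra k (Subring.center D) := (toCenter (k := k) (D := D)).toAlgebra
  have : IsScalarTower k (Subring.center D) D :=
    IsScalarTower.of_algebraMap_eq fun c => rfl
  exact (Algebra.IsAlgebraic.isAlgebraic (R := k) x).extendScalars
    (toCenter (k := k) (D := D)).injective

/-- If `D` is generated over `k` by a finite set and is finite over its center, it is finite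
over `k`. -/
theorem finite_of_finite_center [Algebra.IsAlgebraic k D] [Module.Finite (Subring.center D) D]
    (S : Finset D) (hS : Algebra.adjoin k (S : Set D) = ⊤) : Module.Finite k D := by
  classical
  obtain ⟨B, hB⟩ := (Module.Finite.fg_top : (⊤ : Submodule (Subring.center D) D).FG)
  have hrep : ∀ x : D, ∃ c : D → Subring.center D, ∑ b ∈ B, c b • b = x := fun x =>
    let ⟨c, _, hc⟩ := (Submodule.mem_span_finset).1
      (show x ∈ Submodule.span (Subring.center D) (B : Set D) by rw [hB]; trivial)
    ⟨c, hc⟩
  choose c hc using hrep
  let P : Finset D := S ∪ insert 1 (insert 1 B ×ˢ insert 1 B |>.image fun p => p.1 * p.2)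
  let K : Finset (Subalgebra.center k D) :=
    (P ×ˢ B).image fun p => ⟨(c p.1 p.2 : D),
      Subalgebra.mem_center_iff.2 (Subring.mem_center_iff.1 (c p.1 p.2).2)⟩
  let A : Subalgebra k (Subalgebra.center k D) := Algebra.adjoin k (K : Set _)
  have hA : (Subalgebra.toSubmodule A).FG := fg_adjoin_of_finite K.finite_toSet fun x _ =>
    ((isAlgebraic_algHom_iff (Subalgebra.center k D).val Subtype.val_injective).1
      (Algebra.IsAlgebraic.isAlgebraic (R := k) (x : D))).isIntegral
  let A' : Subalgebra k D := A.map (Subalgebra.center k D).val
  set W := Subalgebra.toSubmodule A' with hW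
  set U := Submodule.span k ((insert 1 B : Finset D) : Set D) with hU
  have hWfg : W.FG := by
    rw [hW, Subalgebra.map_toSubmodule]
    exact hA.map _
  have hP : ∀ x ∈ P, x ∈ W * U := by
    intro x hx
    rw [← hc x]
    refine Submodule.sum_mem _ fun b hb => ?_
    refine Submodule.mul_mem_mul ?_ (Submodule.subset_span (by simp [hb]))
    exact ⟨_, Algebra.subset_adjoin (Finset.mem_coe.2
      (Finset.mem_image_of_mem _ (Finset.mk_mem_product hx hb))), rfl⟩
  have h1 : (1 : D) ∈ W * U := hP 1 (by simp [P])
  have hUU : U * U ≤ W * U := by
    rw [hU, Submodule.span_mul_span, Submodule.span_le]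
    rintro _ ⟨a, ha, b, hb, rfl⟩
    exact hP _ (Finset.mem_union_right _ (Finset.mem_insert_of_mem
      (Finset.mem_image.2 ⟨(a, b), Finset.mk_mem_product ha hb, rfl⟩)))
  have hUW : U * W ≤ W * U := by
    rw [Submodule.mul_le]
    rintro u hu _ ⟨z, hz, rfl⟩
    change u * (z : D) ∈ _
    rw [Subalgebra.mem_center_iff.1 z.2 u]
    exact Submodule.mul_mem_mul ⟨z, hz, rfl⟩ hu
  have hWW : W * W ≤ W := by
    rw [Submodule.mul_le]
    exact fun a ha b hb => A'.mul_mem ha hb
  have hVV : (W * U) * (W * U) ≤ W * U :=
    calc (W * U) * (W * U) = W * (U * W) * U := by simp only [mul_assoc]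
      _ ≤ W * (W * U) * U := by gcongr
      _ = W * W * (U * U) := by simp only [mul_assoc]
      _ ≤ W * W * (W * U) := by gcongr
      _ = W * W * W * U := by simp only [mul_assoc]
      _ ≤ W * W * U := by gcongr
      _ ≤ W * U := by gcongr
  let V : Subalgebra k D :=
    (W * U).toSubalgebra h1 fun a b ha hb => hVV (Submodule.mul_mem_mul ha hb)
  have hV : (⊤ : Subalgebra k D) ≤ V := hS ▸ Algebra.adjoin_le fun x hx =>
    hP x (Finset.mem_union_left _ hx)
  have htop : W * U = ⊤ := top_le_iff.1 fun x _ => hV (Algebra.mem_top (x := x))
  exact ⟨htop ▸ hWfg.mul (Submodule.fg_span (Finset.finite_toSet _))⟩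

/-- The center form: a counterexample over a central subfield is one over the center. -/
theorem not_locallyFinite_center [Algebra.IsAlgebraic k D] (S : Finset D)
    (hS : Algebra.adjoin k (S : Set D) = ⊤) (hinf : ¬ Module.Finite k D) :
    ¬ FiniteDimensional (Subring.center D)
      (Algebra.adjoin (Subring.center D) (S : Set D)) := by
  intro h
  let E : Subalgebra k D :=
    { (Algebra.adjoin (Subring.center D) (S : Set D)).toSubsemiring with
      algebraMap_mem' := fun r =>
        (Algebra.adjoin (Subring.center D) (S : Set D)).algebraMap_mem (toCenter r) }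
  have hle : Algebra.adjoin k (S : Set D) ≤ E := Algebra.adjoin_le Algebra.subset_adjoin
  have htop : Algebra.adjoin (Subring.center D) (S : Set D) = ⊤ :=
    eq_top_iff.2 fun x _ => hle (hS ▸ Algebra.mem_top)
  have : Module.Finite (Subring.center D) D :=
    Module.Finite.of_surjective (Algebra.adjoin (Subring.center D) (S : Set D)).val.toLinearMap
      fun x => ⟨⟨x, htop ▸ Algebra.mem_top⟩, rfl⟩
  exact hinf (finite_of_finite_center S hS)

/-- An infinite-dimensional finitely generated algebraic division algebra refutes local
finiteness of division rings algebraic over their centers. -/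
theorem exists_not_locallyFinite [Algebra.IsAlgebraic k D] (S : Finset D)
    (hS : Algebra.adjoin k (S : Set D) = ⊤) (hinf : ¬ Module.Finite k D) :
    (∀ x : D, IsAlgebraic (Subring.center D) x) ∧
      ∃ T : Finset D, ¬ FiniteDimensional (Subring.center D)
        (Algebra.adjoin (Subring.center D) (T : Set D)) :=
  ⟨isAlgebraic_center (k := k), S, not_locallyFinite_center S hS hinf⟩

end Vale.Agent.P199.Kurosh
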