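import Mathlib
import Vale.Agent.P199.Kurosh.Center

/-!
The colimit of a system of domains in which any given element can be made algebraic:
from such a system we obtain a division ring algebraic over its center and not locally finite.
-/

namespace Vale.Agent.P199.Kurosh

open Filter

universe v

/-- Abstract stages of the construction. -/
structure LimitSystem where
  /-- stages -/
  Stage : Type v
  /-- scalars of a stage -/
  F : Stage → Type
  [field : ∀ s, Field (F s)]
  /-- the domain of a stage -/
  R : Stage → Type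
  [ring : ∀ s, Ring (R s)]
  [alg : ∀ s, Algebra (F s) (R s)]
  [dom : ∀ s, IsDomain (R s)]
  /-- the two generators -/
  gen : ∀ s, Fin 2 → R s
  /-- morphisms -/
  Hom : Stage → Stage → Type
  /-- action on scalars -/
  fmap : ∀ {s t}, Hom s t → F s →+* F t
  /-- action on domains -/
  rmap : ∀ {s t}, Hom s t → R s →+* R t
  map_algebraMap : ∀ {s t} (h : Hom s t) (c : F s),
    rmap h (algebraMap (F s) (R s) c) = algebraMap (F t) (R t) (fmap h c)
  map_gen : ∀ {s t} (h : Hom s t) (i : Fin 2), rmap h (gen s i) = gen t i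
  /-- independence of a family of words, stable under morphisms -/
  Indep : ∀ s {m : ℕ}, (Fin m → List (Fin 2)) → Prop
  indep_map : ∀ {s t} (_h : Hom s t) {m : ℕ} {w : Fin m → List (Fin 2)}, Indep s w → Indep t w
  indep_sound : ∀ {s} {m : ℕ} {w : Fin m → List (Fin 2)}, Indep s w →
    LinearIndependent (F s) fun i => ((w i).map (gen s)).prod
  /-- the first stage -/
  init : Stage
  step : ∀ s (f : R s), ∃ t, ∃ h : Hom s t, IsAlgebraic (F t) (rmap h f)
  grow : ∀ s (m : ℕ), ∃ t, ∃ _ : Hom s t, ∃ w : Fin m → List (Fin 2), Indep t w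

attribute [instance] LimitSystem.field LimitSystem.ring LimitSystem.alg LimitSystem.dom

theorem countable_subring_closure {A : Type} [CommRing A] {s : Set A} (hs : s.Countable) :
    (Subring.closure s : Set A).Countable := by
  have : Countable s := hs.to_subtype
  have : Countable (MvPolynomial s ℤ) :=
    AddMonoidAlgebra.coeff_injective.countable
  have h : (Subring.closure s : Set A) ⊆
      Set.range (MvPolynomial.eval₂Hom (Int.castRingHom A) (Subtype.val : s → A)) := by
    rw [← RingHom.coe_range]
    exact Subring.closure_le.2 fun a ha => ⟨MvPolynomial.X ⟨a, ha⟩, by simp⟩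
  exact (Set.countable_range _).mono h

theorem countable_subfield_closure {A : Type} [Field A] {s : Set A} (hs : s.Countable) :
    (Subfield.closure s : Set A).Countable := by
  refine ((countable_subring_closure hs).image2 (countable_subring_closure hs)
    (fun a b => a / b)).mono fun a ha => ?_
  obtain ⟨y, hy, z, hz, rfl⟩ := Subfield.mem_closure_iff.1 ha
  exact ⟨y, hy, z, hz, rfl⟩

theorem countable_adjoin {K A : Type} [Field K] [Countable K] [Ring A] [Algebra K A]
    (g : Fin 2 → A) : (Algebra.adjoin K (Set.range g) : Set A).Countable := by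
  have : Countable (FreeMonoid (Fin 2)) := inferInstanceAs (Countable (List (Fin 2)))
  have : Countable (MonoidAlgebra K (FreeMonoid (Fin 2))) :=
    MonoidAlgebra.coeff_injective.countable
  rw [Algebra.adjoin_range_eq_range_freeAlgebra_lift]
  exact (Set.countable_range
    ((FreeAlgebra.lift K g).comp FreeAlgebra.equivMonoidAlgebraFreeMonoid.symm.toAlgHom)).mono
    (by
      rintro a ⟨p, rfl⟩
      exact ⟨FreeAlgebra.equivMonoidAlgebraFreeMonoid p, by simp⟩)

namespace LimitSystem

variable (S : LimitSystem.{v})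

/-- A stage with the countable field of coefficients used so far and the pending tasks. -/
structure State where
  /-- the stage -/
  s : S.Stage
  /-- the coefficients -/
  K : Subfield (S.F s)
  countable : (K : Set (S.F s)).Countable
  /-- the pending tasks -/
  pend : ℕ → ℕ → S.R s

variable {S}

/-- The algebra of words with coefficients in the field of a state. -/
def span (x : S.State) : Subalgebra x.K (S.R x.s) :=
  Algebra.adjoin x.K (Set.range (S.gen x.s))

theorem exists_enum (x : S.State) :
    ∃ e : ℕ → S.R x.s, (span x : Set (S.R x.s)) ⊆ Set.range e := by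
  have : Countable x.K := x.countable.to_subtype
  obtain ⟨e, he⟩ := (countable_adjoin (K := x.K) (S.gen x.s)).exists_eq_range
    ⟨0, Subalgebra.zero_mem _⟩
  exact ⟨e, le_of_eq he⟩

/-- An enumeration of the algebra of a state. -/
noncomputable def enum (x : S.State) : ℕ → S.R x.s := (exists_enum x).choose

theorem span_subset_enum (x : S.State) : (span x : Set (S.R x.s)) ⊆ Set.range (enum x) :=
  (exists_enum x).choose_spec

theorem exists_advance (x : S.State) (n : ℕ) :
    ∃ t, ∃ r : S.R x.s →+* S.R t, ∃ f : S.F x.s →+* S.F t, ∃ c : Polynomial (S.F t),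
      (∀ a, r (algebraMap _ _ a) = algebraMap _ _ (f a)) ∧
      (∀ i, r (S.gen x.s i) = S.gen t i) ∧
      (∀ {m : ℕ} (w : Fin m → List (Fin 2)), S.Indep x.s w → S.Indep t w) ∧
      c ≠ 0 ∧ Polynomial.aeval (r (x.pend n.unpair.1 n.unpair.2)) c = 0 ∧
      ∃ w : Fin n → List (Fin 2), S.Indep t w := by
  obtain ⟨t₁, h₁, c, hc, hc0⟩ := S.step x.s (x.pend n.unpair.1 n.unpair.2)
  obtain ⟨t, h₂, w, hw⟩ := S.grow t₁ n
  refine ⟨t, (S.rmap h₂).comp (S.rmap h₁), (S.fmap h₂).comp (S.fmap h₁), c.map (S.fmap h₂),
    fun a => by simp [S.map_algebraMap], fun i => by simp [S.map_gen],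
    fun w h => S.indep_map h₂ (S.indep_map h₁ h),
    (Polynomial.map_ne_zero_iff (S.fmap h₂).injective).2 hc, ?_, w, hw⟩
  simp only [RingHom.comp_apply]
  set y := S.rmap h₁ (x.pend n.unpair.1 n.unpair.2)
  have := congrArg (S.rmap h₂) hc0
  rw [map_zero, Polynomial.aeval_def, Polynomial.hom_eval₂] at this
  rw [Polynomial.aeval_def, Polynomial.eval₂_map, ← this]
  congr 1
  ext a
  simp [S.map_algebraMap]

/-- The next stage. -/
noncomputable def nextStage (x : S.State) (n : ℕ) : S.Stage := (exists_advance x n).choose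

/-- The map to the next stage. -/
noncomputable def nextR (x : S.State) (n : ℕ) : S.R x.s →+* S.R (nextStage x n) :=
  (exists_advance x n).choose_spec.choose

/-- The map of scalars to the next stage. -/
noncomputable def nextF (x : S.State) (n : ℕ) : S.F x.s →+* S.F (nextStage x n) :=
  (exists_advance x n).choose_spec.choose_spec.choose

/-- The polynomial killing the task. -/
noncomputable def nextPoly (x : S.State) (n : ℕ) : Polynomial (S.F (nextStage x n)) :=
  (exists_advance x n).choose_spec.choose_spec.choose_spec.choose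

theorem next_spec (x : S.State) (n : ℕ) :
    (∀ a, nextR x n (algebraMap _ _ a) = algebraMap _ _ (nextF x n a)) ∧
      (∀ i, nextR x n (S.gen x.s i) = S.gen (nextStage x n) i) ∧
      (∀ {m : ℕ} (w : Fin m → List (Fin 2)), S.Indep x.s w → S.Indep (nextStage x n) w) ∧
      nextPoly x n ≠ 0 ∧
      Polynomial.aeval (nextR x n (x.pend n.unpair.1 n.unpair.2)) (nextPoly x n) = 0 ∧
      ∃ w : Fin n → List (Fin 2), S.Indep (nextStage x n) w :=
  (exists_advance x n).choose_spec.choose_spec.choose_spec.choose_spec

/-- The coefficients of the next stage. -/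
noncomputable def nextK (x : S.State) (n : ℕ) : Subfield (S.F (nextStage x n)) :=
  Subfield.closure (nextF x n '' x.K ∪ Set.range (nextPoly x n).coeff)

/-- The next state before enumerating. -/
noncomputable def preNext (x : S.State) (n : ℕ) : S.State where
  s := nextStage x n
  K := nextK x n
  countable := countable_subfield_closure ((x.countable.image _).union (Set.countable_range _))
  pend := fun _ _ => 0

variable (S)

/-- The sequence of states. -/
noncomputable def seq : ℕ → S.State
  | 0 =>
    let x : S.State :=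
      { s := S.init, K := Subfield.closure ∅,
        countable := countable_subfield_closure Set.countable_empty, pend := fun _ _ => 0 }
    { x with pend := fun _ j => enum x j }
  | n + 1 =>
    { preNext (seq n) n with
      pend := fun i j =>
        if i = n + 1 then enum (preNext (seq n) n) j else nextR (seq n) n ((seq n).pend i j) }

/-- Transition maps of the sequence. -/
noncomputable def tR (n : ℕ) : S.R (S.seq n).s →+* S.R (S.seq (n + 1)).s := nextR (S.seq n) n

/-- Transition maps of the scalars. -/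
noncomputable def tF (n : ℕ) : S.F (S.seq n).s →+* S.F (S.seq (n + 1)).s := nextF (S.seq n) n

theorem tR_algebraMap (n : ℕ) (a : S.F (S.seq n).s) :
    S.tR n (algebraMap _ _ a) = algebraMap _ _ (S.tF n a) :=
  (next_spec (S.seq n) n).1 a

theorem tR_gen (n : ℕ) (i : Fin 2) :
    S.tR n (S.gen (S.seq n).s i) = S.gen (S.seq (n + 1)).s i :=
  (next_spec (S.seq n) n).2.1 i

theorem tF_mem (n : ℕ) {a : S.F (S.seq n).s} (ha : a ∈ (S.seq n).K) :
    S.tF n a ∈ (S.seq (n + 1)).K :=
  Subfield.subset_closure (Or.inl ⟨a, ha, rfl⟩)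

theorem pend_self (n : ℕ) : (S.seq n).pend n = enum (S.seq n) := by
  cases n with
  | zero => rfl
  | succ n =>
    exact funext fun j => if_pos rfl

theorem pend_succ {i n : ℕ} (h : i ≤ n) (j : ℕ) :
    (S.seq (n + 1)).pend i j = S.tR n ((S.seq n).pend i j) :=
  if_neg (by omega)

theorem indep_mono {n n' : ℕ} (h : n ≤ n') {m : ℕ} {w : Fin m → List (Fin 2)}
    (hw : S.Indep (S.seq n).s w) : S.Indep (S.seq n').s w := by
  induction n', h using Nat.le_induction with
  | base => exact hw
  | succ k _ ih => exact (next_spec (S.seq k) k).2.2.1 w ih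

theorem exists_indep (n : ℕ) : ∃ w : Fin n → List (Fin 2), S.Indep (S.seq (n + 1)).s w :=
  (next_spec (S.seq n) n).2.2.2.2.2

/-- Sequences of scalars modulo eventual equality. -/
def conF : RingCon (∀ n, S.F (S.seq n).s) where
  r x y := ∀ᶠ n in atTop, x n = y n
  iseqv := ⟨fun _ => Eventually.of_forall fun _ => rfl, fun h => h.mono fun _ e => e.symm,
    fun h h' => (h.and h').mono fun _ e => e.1.trans e.2⟩
  add' h h' := (h.and h').mono fun n e => by simp [e.1, e.2]
  mul' h h' := (h.and h').mono fun n e => by simp [e.1, e.2]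

/-- Sequences in the domains modulo eventual equality. -/
def conR : RingCon (∀ n, S.R (S.seq n).s) where
  r x y := ∀ᶠ n in atTop, x n = y n
  iseqv := ⟨fun _ => Eventually.of_forall fun _ => rfl, fun h => h.mono fun _ e => e.symm,
    fun h h' => (h.and h').mono fun _ e => e.1.trans e.2⟩
  add' h h' := (h.and h').mono fun n e => by simp [e.1, e.2]
  mul' h h' := (h.and h').mono fun n e => by simp [e.1, e.2]

/-- A coherent sequence of coefficients. -/
def CohF (c : ∀ n, S.F (S.seq n).s) : Prop :=
  ∀ᶠ n in atTop, c n ∈ (S.seq n).K ∧ c (n + 1) = S.tF n (c n)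

/-- A coherent sequence of algebra elements. -/
def CohR (x : ∀ n, S.R (S.seq n).s) : Prop :=
  ∀ᶠ n in atTop, x n ∈ span (S.seq n) ∧ x (n + 1) = S.tR n (x n)

/-- The colimit of the coefficient fields, as a ring. -/
noncomputable def coeffRing : Subring S.conF.Quotient where
  carrier := {q | ∃ c, S.CohF c ∧ (c : S.conF.Quotient) = q}
  mul_mem' := by
    rintro _ _ ⟨a, ha, rfl⟩ ⟨b, hb, rfl⟩
    exact ⟨a * b, (ha.and hb).mono fun n h => ⟨mul_mem h.1.1 h.2.1, by simp [h.1.2, h.2.2]⟩, rfl⟩
  one_mem' := ⟨1, Eventually.of_forall fun n => ⟨one_mem _, by simp⟩, rfl⟩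
  add_mem' := by
    rintro _ _ ⟨a, ha, rfl⟩ ⟨b, hb, rfl⟩
    exact ⟨a + b, (ha.and hb).mono fun n h => ⟨add_mem h.1.1 h.2.1, by simp [h.1.2, h.2.2]⟩, rfl⟩
  zero_mem' := ⟨0, Eventually.of_forall fun n => ⟨zero_mem _, by simp⟩, rfl⟩
  neg_mem' := by
    rintro _ ⟨a, ha, rfl⟩
    exact ⟨-a, ha.mono fun n h => ⟨neg_mem h.1, by simp [h.2]⟩, rfl⟩

theorem isField_coeffRing : IsField S.coeffRing where
  exists_pair_ne := ⟨0, 1, fun h => by
    have h' := (RingCon.eq S.conF).1 (congrArg Subtype.val h :)
    obtain ⟨n, hn⟩ := h'.exists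
    exact zero_ne_one hn⟩
  mul_comm a b := mul_comm a b
  mul_inv_cancel := by
    rintro ⟨_, a, ha, rfl⟩ hne
    have hev : ∀ᶠ n in atTop, a n ≠ 0 := by
      obtain ⟨N, hN⟩ := eventually_atTop.1 ha
      rw [eventually_atTop]
      by_contra hcon
      push Not at hcon
      obtain ⟨M, hM, hM0⟩ := hcon N
      refine hne (Subtype.ext ((RingCon.eq S.conF).2 (eventually_atTop.2 ⟨M, fun n hn => ?_⟩)))
      induction n, hn using Nat.le_induction with
      | base => exact hM0
      | succ k hk ih =>
        have ih' : a k = 0 := ih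
        show a (k + 1) = 0
        rw [(hN k (hM.trans hk)).2, ih', map_zero]
    refine ⟨⟨(fun n => (a n)⁻¹ : ∀ n, S.F (S.seq n).s), _, ha.mono fun n h =>
      ⟨inv_mem h.1, by simp [h.2]⟩, rfl⟩, Subtype.ext ((RingCon.eq S.conF).2 ?_)⟩
    exact hev.mono fun n h => mul_inv_cancel₀ h

/-- The colimit of the coefficient fields. -/
def Coeff : Type := S.coeffRing

noncomputable instance : Field S.Coeff := S.isField_coeffRing.toField

/-- The inclusion of the scalars into the sequences of the domains. -/
noncomputable def scalarHom : S.conF.Quotient →+* S.conR.Quotient :=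
  RingCon.lift S.conF
    (S.conR.mk'.comp (RingHom.pi fun n =>
      (algebraMap (S.F (S.seq n).s) (S.R (S.seq n).s)).comp (Pi.evalRingHom _ n)))
    fun x y h => (RingCon.eq S.conR).2 (h.mono fun n e => by simp [e])

theorem scalarHom_mk (c : ∀ n, S.F (S.seq n).s) :
    S.scalarHom (c : S.conF.Quotient) =
      ((fun n => algebraMap _ (S.R (S.seq n).s) (c n) : ∀ n, S.R (S.seq n).s) :
        S.conR.Quotient) :=
  rfl

theorem scalarHom_commutes (q : S.conF.Quotient) (p : S.conR.Quotient) :
    S.scalarHom q * p = p * S.scalarHom q := by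
  induction q using Quotient.inductionOn' with | h c => ?_
  induction p using Quotient.inductionOn' with | h x => ?_
  exact (RingCon.eq S.conR).2 (Eventually.of_forall fun n => Algebra.commutes (c n) (x n))

noncomputable instance : Algebra S.Coeff S.conR.Quotient :=
  RingHom.toAlgebra' (S.scalarHom.comp (S.coeffRing.subtype :))
    fun _ p => S.scalarHom_commutes _ p

/-- The generators in the colimit. -/
noncomputable def genLim (i : Fin 2) : S.conR.Quotient :=
  ((fun n => S.gen (S.seq n).s i : ∀ n, S.R (S.seq n).s) : S.conR.Quotient)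

/-- The colimit algebra. -/
noncomputable def Lim : Subalgebra S.Coeff S.conR.Quotient :=
  Algebra.adjoin S.Coeff (Set.range S.genLim)

theorem exists_rep {q : S.conR.Quotient} (hq : q ∈ S.Lim) :
    ∃ x, S.CohR x ∧ (x : S.conR.Quotient) = q := by
  induction hq using Algebra.adjoin_induction with
  | mem q hq =>
    obtain ⟨i, rfl⟩ := hq
    exact ⟨_, Eventually.of_forall fun n =>
      ⟨Algebra.subset_adjoin ⟨i, rfl⟩, (S.tR_gen n i).symm⟩, rfl⟩
  | algebraMap q =>
    obtain ⟨_, c, hc, rfl⟩ := q
    refine ⟨_, hc.mono fun n h => ⟨?_, ?_⟩, (S.scalarHom_mk c).symm⟩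
    · exact Subalgebra.algebraMap_mem (span (S.seq n)) ⟨c n, h.1⟩
    · show algebraMap _ _ (c (n + 1)) = _
      rw [h.2, tR_algebraMap]
  | add a b _ _ iha ihb =>
    obtain ⟨a, ha, rfl⟩ := iha
    obtain ⟨b, hb, rfl⟩ := ihb
    exact ⟨a + b, (ha.and hb).mono fun n h => ⟨add_mem h.1.1 h.2.1, by simp [h.1.2, h.2.2]⟩, rfl⟩
  | mul a b _ _ iha ihb =>
    obtain ⟨a, ha, rfl⟩ := iha
    obtain ⟨b, hb, rfl⟩ := ihb
    exact ⟨a * b, (ha.and hb).mono fun n h => ⟨mul_mem h.1.1 h.2.1, by simp [h.1.2, h.2.2]⟩, rfl⟩

instance isDomain_lim : IsDomain S.Lim :=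
  @NoZeroDivisors.to_isDomain S.Lim _
    ⟨⟨0, 1, fun h => by
      obtain ⟨n, hn⟩ := ((RingCon.eq S.conR).1 (congrArg Subtype.val h :)).exists
      exact zero_ne_one hn⟩⟩
    ⟨fun {p q} h => by
      obtain ⟨x, hx, hxp⟩ := S.exists_rep p.2
      obtain ⟨y, hy, hyq⟩ := S.exists_rep q.2
      have hxy : ((x * y : ∀ n, S.R (S.seq n).s) : S.conR.Quotient) = ((0 : ∀ n, S.R (S.seq n).s) :
          S.conR.Quotient) := by
        rw [RingCon.coe_mul, hxp, hyq]
        exact congrArg Subtype.val h
      have hev := (RingCon.eq S.conR).1 hxy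
      obtain ⟨N, hN⟩ := eventually_atTop.1 ((hx.and hy).and hev)
      have key : ∀ z : ∀ n, S.R (S.seq n).s, (∀ n ≥ N, z (n + 1) = S.tR n (z n)) → z N = 0 →
          ∀ᶠ n in atTop, z n = 0 := fun z hz h0 => eventually_atTop.2 ⟨N, fun n hn => by
        induction n, hn using Nat.le_induction with
        | base => exact h0
        | succ k hk ih => rw [hz k hk, ih, map_zero]⟩
      rcases mul_eq_zero.1 (hN N le_rfl).2 with h0 | h0
      · exact Or.inl (Subtype.ext (hxp.symm.trans ((RingCon.eq S.conR).2
          (key x (fun n hn => (hN n hn).1.1.2) h0))))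
      · exact Or.inr (Subtype.ext (hyq.symm.trans ((RingCon.eq S.conR).2
          (key y (fun n hn => (hN n hn).1.2.2) h0))))⟩

/-- The lift of a coefficient to a coherent sequence. -/
noncomputable def liftF (n₀ : ℕ) (c : S.F (S.seq n₀).s) : ∀ n, S.F (S.seq n).s
  | 0 => if h : n₀ = 0 then h ▸ c else 0
  | n + 1 => if h : n₀ = n + 1 then h ▸ c else S.tF n (liftF n₀ c n)

theorem liftF_self (n₀ : ℕ) (c : S.F (S.seq n₀).s) : S.liftF n₀ c n₀ = c := by
  cases n₀ with
  | zero => simp [liftF]
  | succ k => simp [liftF]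

theorem cohF_liftF (n₀ : ℕ) {c : S.F (S.seq n₀).s} (hc : c ∈ (S.seq n₀).K) :
    S.CohF (S.liftF n₀ c) := by
  have hmem : ∀ n, n₀ ≤ n → S.liftF n₀ c n ∈ (S.seq n).K := fun n hn => by
    induction n, hn using Nat.le_induction with
    | base => rwa [liftF_self]
    | succ k hk ih =>
      rw [liftF, dif_neg (by omega)]
      exact S.tF_mem k ih
  refine eventually_atTop.2 ⟨n₀, fun n hn => ⟨hmem n hn, ?_⟩⟩
  rw [liftF, dif_neg (by omega)]

theorem isAlgebraic_lim (q : S.Lim) : IsAlgebraic S.Coeff q := by
  obtain ⟨x, hx, hxq⟩ := S.exists_rep q.2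
  obtain ⟨i, hi⟩ := eventually_atTop.1 hx
  obtain ⟨j, hj⟩ := span_subset_enum (S.seq i) (hi i le_rfl).1
  set n := Nat.pair i j
  have hin : i ≤ n := Nat.left_le_pair i j
  have hp : ∀ k, i ≤ k → (S.seq k).pend i j = x k := fun k hk => by
    induction k, hk using Nat.le_induction with
    | base => rw [S.pend_self i, hj]
    | succ k hk ih => rw [S.pend_succ hk, ih, (hi k hk).2]
  obtain ⟨-, -, -, hP, hP0, -⟩ := next_spec (S.seq n) n
  rw [Nat.unpair_pair, hp n hin] at hP0
  set P : Polynomial (S.F (S.seq (n + 1)).s) := nextPoly (S.seq n) n with hPdef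
  have hP0' : Polynomial.aeval (x (n + 1)) P = 0 := by
    rw [(hi n hin).2]
    exact hP0
  have hcoef : ∀ d, P.coeff d ∈ (S.seq (n + 1)).K := fun d =>
    Subfield.subset_closure (Or.inr ⟨d, rfl⟩)
  let c : ℕ → S.Coeff := fun d =>
    (⟨_, _, S.cohF_liftF (n + 1) (hcoef d), rfl⟩ : S.coeffRing)
  let Q : Polynomial S.Coeff := ∑ d ∈ P.support, Polynomial.monomial d (c d)
  have hQ : ∀ d ∈ P.support, Q.coeff d = c d := fun d hd => by
    simp only [Q, Polynomial.finsetSum_coeff, Polynomial.coeff_monomial]
    rw [Finset.sum_ite_eq' P.support d c, if_pos hd]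
  obtain ⟨d, hd⟩ := Polynomial.support_nonempty.2 hP
  refine ⟨Q, fun h0 => ?_, ?_⟩
  · have hc0 : c d = 0 := by rw [← hQ d hd, h0, Polynomial.coeff_zero]
    have hev := (RingCon.eq S.conF).1 (congrArg Subtype.val hc0 :)
    obtain ⟨N, hN⟩ := eventually_atTop.1 hev
    have hne : ∀ k, n + 1 ≤ k → S.liftF (n + 1) (P.coeff d) k ≠ 0 := fun k hk => by
      induction k, hk using Nat.le_induction with
      | base => rw [liftF_self]; exact Polynomial.mem_support_iff.1 hd
      | succ k hk ih =>
        rw [liftF, dif_neg (by omega)]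
        exact (map_ne_zero _).2 ih
    exact hne (max N (n + 1)) (le_max_right _ _) (hN _ (le_max_left _ _))
  · apply Subtype.ext
    rw [Subalgebra.coe_zero, ← Subalgebra.coe_val, ← Polynomial.aeval_algHom_apply,
      Subalgebra.coe_val]
    simp only [Q, map_sum, Polynomial.aeval_monomial]
    rw [← hxq]
    have hsum : (∑ d ∈ P.support, algebraMap S.Coeff S.conR.Quotient (c d) *
          (x : S.conR.Quotient) ^ d) =
        S.conR.mk' (∑ d ∈ P.support, (fun k => algebraMap _ (S.R (S.seq k).s)
          (S.liftF (n + 1) (P.coeff d) k) : ∀ k, S.R (S.seq k).s) * x ^ d) := by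
      rw [map_sum]
      exact Finset.sum_congr rfl fun d _ => by
        rw [map_mul, map_pow]
        rfl
    rw [hsum]
    refine (RingCon.eq S.conR).2 (eventually_atTop.2 ⟨n + 1, fun k hk => ?_⟩)
    simp only [Finset.sum_apply, Pi.mul_apply, Pi.pow_apply, Pi.zero_apply]
    induction k, hk using Nat.le_induction with
    | base =>
      simp only [liftF_self]
      rw [← hP0', Polynomial.aeval_def, Polynomial.eval₂_eq_sum, Polynomial.sum_def]
    | succ k hk ih =>
      have := congrArg (S.tR k) ih
      rw [map_zero, map_sum] at this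
      rw [← this]
      refine Finset.sum_congr rfl fun d _ => ?_
      rw [liftF, dif_neg (by omega), (hi k (by omega)).2, map_mul, map_pow, tR_algebraMap]

instance : Algebra.IsAlgebraic S.Coeff S.Lim := ⟨S.isAlgebraic_lim⟩

theorem isUnit_lim {q : S.Lim} (hq : q ≠ 0) : IsUnit q := by
  obtain ⟨P, h0, hP⟩ := (S.isAlgebraic_lim q).exists_nonzero_coeff_and_aeval_eq_zero
    (mem_nonZeroDivisors_of_ne_zero hq)
  rw [← P.X_mul_divX_add, map_add, map_mul, Polynomial.aeval_X, Polynomial.aeval_C] at hP
  have hu : IsUnit (q * Polynomial.aeval q P.divX) := by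
    have e : q * Polynomial.aeval q P.divX = -(algebraMap S.Coeff S.Lim (P.coeff 0)) :=
      (eq_neg_iff_add_eq_zero (G := S.Lim)).2 hP
    have hm := (IsUnit.mk0 _ (neg_ne_zero.2 h0)).map (algebraMap S.Coeff S.Lim)
    rw [map_neg] at hm
    rw [e]
    exact hm
  have hc : Commute q (Polynomial.aeval q P.divX) := by
    have := (Commute.all (Polynomial.X : Polynomial S.Coeff) P.divX).map (Polynomial.aeval q)
    rwa [Polynomial.aeval_X] at this
  exact (hc.isUnit_mul_iff.1 hu).1

theorem not_finite_lim : ¬ Module.Finite S.Coeff S.Lim := by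
  intro h
  set r := Module.finrank S.Coeff S.Lim
  obtain ⟨w, hw⟩ := S.exists_indep (r + 1)
  have hmem : ∀ i : Fin (r + 1), ((w i).map S.genLim).prod ∈ S.Lim := fun i =>
    list_prod_mem fun y hy => by
      obtain ⟨a, -, rfl⟩ := List.mem_map.1 hy
      exact Algebra.subset_adjoin ⟨a, rfl⟩
  have hword : ∀ l : List (Fin 2), (l.map S.genLim).prod =
      S.conR.mk' fun k => (l.map (S.gen (S.seq k).s)).prod := fun l => by
    induction l with
    | nil => exact (map_one S.conR.mk').symm
    | cons a l ih =>
      rw [List.map_cons, List.prod_cons, ih]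
      show S.conR.mk' (fun k => S.gen (S.seq k).s a) * _ = _
      rw [← map_mul]
      congr 1
  have hli : LinearIndependent S.Coeff fun i => (⟨_, hmem i⟩ : S.Lim) := by
    refine LinearIndependent.of_comp S.Lim.val.toLinearMap
      (Fintype.linearIndependent_iff.2 fun g hg i => ?_)
    choose c hc hcg using fun i => (show S.coeffRing from g i).2
    have hg' : ∑ i, g i • ((w i).map S.genLim).prod = 0 := hg
    have hsum : S.conR.mk' (∑ i, (fun k => algebraMap _ (S.R (S.seq k).s) (c i k) :
        ∀ k, S.R (S.seq k).s) * (fun k => ((w i).map (S.gen (S.seq k).s)).prod)) =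
        S.conR.mk' 0 := by
      rw [map_sum, map_zero]
      refine Eq.trans (Finset.sum_congr rfl fun j _ => ?_) hg'
      rw [map_mul, ← hword, Algebra.smul_def]
      congr 1
      show S.scalarHom (c j : S.conF.Quotient) = S.scalarHom (g j).1
      rw [hcg]
    refine Subtype.ext (a1 := (g i : S.coeffRing)) ((hcg i).symm.trans
      ((RingCon.eq S.conF).2 ?_))
    obtain ⟨N, hN⟩ := eventually_atTop.1 ((RingCon.eq S.conR).1 hsum)
    refine eventually_atTop.2 ⟨max N (r + 2), fun k hk => ?_⟩
    have hk' := hN k (le_trans (le_max_left _ _) hk)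
    have hind := S.indep_sound (S.indep_mono (le_trans (le_max_right _ _) hk) hw)
    rw [Fintype.linearIndependent_iff] at hind
    refine hind (fun i => c i k) ?_ i
    simpa [Algebra.smul_def] using hk'
  have := hli.fintype_card_le_finrank
  simp [r] at this

/-- The division ring structure on the colimit. -/
@[instance_reducible]
noncomputable def divisionRing : DivisionRing S.Lim :=
  DivisionRing.ofIsUnitOrEqZero fun q => (eq_or_ne q 0).symm.imp S.isUnit_lim id

/-- Kurosh's problem for division rings has a negative answer once a system exists. -/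
theorem exists_counterexample (S : LimitSystem.{v}) :
    ∃ (D : Type) (_ : DivisionRing D), (∀ x : D, IsAlgebraic (Subring.center D) x) ∧
      ∃ T : Finset D, ¬ FiniteDimensional (Subring.center D)
        (Algebra.adjoin (Subring.center D) (T : Set D)) := by
  let : DivisionRing S.Lim := S.divisionRing
  refine ⟨S.Lim, S.divisionRing, ?_⟩
  classical
  let gens : Fin 2 → S.Lim := fun i => ⟨S.genLim i, Algebra.subset_adjoin ⟨i, rfl⟩⟩
  refine exists_not_locallyFinite (k := S.Coeff) (Finset.univ.image gens) ?_ S.not_finite_lim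
  apply Subalgebra.map_injective (f := S.Lim.val) Subtype.val_injective
  rw [AlgHom.map_adjoin, Algebra.map_top, Subalgebra.range_val, Finset.coe_image, Finset.coe_univ,
    Set.image_univ, ← Set.range_comp]
  rfl

end LimitSystem

end Vale.Agent.P199.Kurosh
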