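import Mathlib
import Vale.Agent.P199.Kurosh.Stmts
import Vale.Agent.P199.Kurosh.Center
import Vale.Agent.P199.Kurosh.Colim

/-! The tower: iterating the step and the growths gives the colimit division ring. -/

open Module
open Vale.Agent.P199.Kurosh (LimitSystem isAlgebraic_center finite_of_finite_center)

namespace P199K

namespace NS

variable {K : ℕ} {C : Type} [Ring C]

theorem mul_eq_zero_of_short {b : ℕ} (f g : NS K C) (hg : ∀ v, v.length < b → g v = 0)
    (w : List (Fin K)) (hw : w.length < b) : (f * g) w = 0 := by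
  induction w generalizing f with
  | nil => simp [hg [] hw]
  | cons i w ih =>
    rw [mul_cons, hg _ hw, mul_zero, zero_add]
    exact ih _ (Nat.lt_of_succ_lt (by simpa using hw))

theorem mul_append_of_short {b : ℕ} (f g : NS K C) (hg : ∀ v, v.length < b → g v = 0)
    (u v : List (Fin K)) (hf : ∀ u', u'.length < u.length → f u' = 0) (hv : v.length = b) :
    (f * g) (u ++ v) = f u * g v := by
  induction u generalizing f with
  | nil =>
    cases v with
    | nil => rfl
    | cons i v =>
      rw [List.nil_append, mul_cons, mul_eq_zero_of_short _ g hg v (by simp [← hv]), add_zero]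
  | cons i u ih =>
    rw [List.cons_append, mul_cons, hf [] (by simp), zero_mul, zero_add]
    exact ih (shift i f) fun u' h => hf (i :: u') (by simpa using h)

theorem exists_lowest {f : NS K C} (hf : f ≠ 0) :
    ∃ u, f u ≠ 0 ∧ ∀ u', u'.length < u.length → f u' = 0 := by
  classical
  have h : ∃ n, ∃ u, f u ≠ 0 ∧ u.length = n := by
    by_contra h
    push Not at h
    exact hf (NS.ext fun w => by_contra fun hw => h w.length w hw rfl)
  obtain ⟨u, hu, hl⟩ := Nat.find_spec h
  refine ⟨u, hu, fun u' hu' => by_contra fun hne => ?_⟩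
  exact Nat.find_min h (hl ▸ hu') ⟨u', hne, rfl⟩

instance instIsDomain [IsDomain C] : IsDomain (NS K C) :=
  @NoZeroDivisors.to_isDomain (NS K C) _
    ⟨⟨0, 1, fun h => zero_ne_one (α := C) (congrFun h [])⟩⟩
    ⟨fun {f g} h => by
      by_contra hne
      push Not at hne
      obtain ⟨u, hu, hu'⟩ := exists_lowest hne.1
      obtain ⟨v, hv, hv'⟩ := exists_lowest hne.2
      have := mul_append_of_short f g hv' u v hu' rfl
      rw [h, zero_apply] at this
      exact mul_ne_zero hu hv this.symm⟩

end NS

namespace Tower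

/-- A stage: a full object with at least two letters. -/
def Stage : Type 1 := {o : Obj // o.Full ∧ 2 ≤ o.K}

/-- Morphisms forgetting the marked series. -/
structure Hom (s t : Stage) where
  /-- scalars -/
  iF : s.1.S.F →+* t.1.S.F
  /-- series -/
  σ : NS s.1.K s.1.S.C →+* NS t.1.K t.1.S.C
  σ_scalar : ∀ a : s.1.S.F, σ (algebraMap _ _ a) = algebraMap _ _ (iF a)
  σ_y : ∀ j, σ (s.1.y j) = t.1.y j
  indep : ∀ (n : ℕ) (w : Fin n → NS s.1.K s.1.S.C),
    LinearIndependent s.1.S.F (fun i => w i []) → LinearIndependent t.1.S.F (fun i => σ (w i) [])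

theorem step (hs : StepStmt) (s : Stage) (f : NS s.1.K s.1.S.C) :
    ∃ t, ∃ h : Hom s t, IsAlgebraic t.1.S.F (h.σ f) := by
  obtain ⟨⟨S, K, y, f₀⟩, hfull, hK⟩ := s
  obtain ⟨o', ⟨hfull', hK', ⟨m⟩⟩, halg⟩ := hs ⟨S, K, y, f⟩ hfull hK
  exact ⟨⟨o', hfull', hK'⟩, ⟨m.iF, m.σ, m.σ_scalar, m.σ_y, m.indep⟩,
    (congrArg (IsAlgebraic o'.S.F) m.σ_f).mpr halg⟩

theorem finrank_laurent (S : Stg) : S.dim ≤ S.laurent.dim := by
  have h : LinearIndependent (LaurentSeries S.F)
      (fun i => (HahnSeries.C (Module.finBasis S.F S.C i) : LaurentSeries S.C)) := by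
    rw [Fintype.linearIndependent_iff]
    intro g hg i
    ext n
    have := congrArg (fun x : LaurentSeries S.C => x.coeff n) hg
    simp only [HahnSeries.coeff_sum, HahnSeries.coeff_zero, Algebra.smul_def, laurent_algebraMap,
      HahnSeries.C_apply, HahnSeries.coeff_mul_single_zero, laurentMap_coeff] at this
    simp only [← Algebra.smul_def] at this
    simpa using Fintype.linearIndependent_iff.1 (Module.finBasis S.F S.C).linearIndependent
      (fun j => (g j).coeff n) this i
  have h' := h.fintype_card_le_finrank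
  rw [Fintype.card_fin] at h'
  exact h'

theorem exists_big (he : SymExistsStmt) (hg : GrowExistsStmt) (hp : PerturbStmt) (s : Stage)
    (m : ℕ) : ∃ t, ∃ _ : Hom s t, m ≤ t.1.S.dim := by
  obtain ⟨o, hfull, hK⟩ := s
  obtain ⟨E⟩ := he o.S (m + 1) m.succ_pos
  let P₀ : Point E o.K :=
    { p := 0, small := fun _ _ _ => rfl, mem := fun _ _ => Submodule.zero_mem _ }
  obtain ⟨P, hP, -⟩ := hp o (m + 1) 1 hfull hK m.succ_pos E P₀
  obtain ⟨G⟩ := hg o (m + 1) hfull hK m.succ_pos E P hP
  refine ⟨⟨G.child, G.full, G.two_le⟩,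
    ⟨G.mor.iF, G.mor.σ, G.mor.σ_scalar, G.mor.σ_y, G.mor.indep⟩, ?_⟩
  refine le_trans ?_ (finrank_laurent E.T)
  rw [E.dim_eq]
  have hpos : 0 < o.S.dim := Module.finrank_pos
  calc m ≤ 1 * (m + 1) ^ 2 := by nlinarith
    _ ≤ o.S.dim * (m + 1) ^ 2 := Nat.mul_le_mul_right _ hpos

theorem word_prod (s : Stage) (l : List (Fin 2)) :
    ((l.map s.1.y).prod) ∈ Algebra.adjoin s.1.S.F (Set.range s.1.y) :=
  list_prod_mem fun y hy => by
    obtain ⟨a, -, rfl⟩ := List.mem_map.1 hy
    exact Algebra.subset_adjoin ⟨a, rfl⟩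

/-- The constant term as a linear map. -/
noncomputable def ev (s : Stage) : NS s.1.K s.1.S.C →ₗ[s.1.S.F] s.1.S.C where
  toFun g := g []
  map_add' _ _ := rfl
  map_smul' a g := NS.smul_apply a g []

theorem exists_words (s : Stage) (m : ℕ) (hm : m ≤ s.1.S.dim) :
    ∃ w : Fin m → List (Fin 2),
      LinearIndependent s.1.S.F fun i => ((w i).map s.1.y).prod [] := by
  set G : List (Fin 2) → s.1.S.C := fun l => (l.map s.1.y).prod [] with hG
  have hspan : Submodule.span s.1.S.F (Set.range G) = ⊤ := by
    rw [eq_top_iff]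
    rintro c -
    obtain ⟨g, hg, rfl, -⟩ := s.2.1 c (fun _ => 0)
    rw [← Subalgebra.mem_toSubmodule, Algebra.adjoin_eq_span] at hg
    have := Submodule.mem_map_of_mem (f := ev s) hg
    rw [Submodule.map_span] at this
    refine Submodule.span_mono ?_ this
    rintro _ ⟨p, hp, rfl⟩
    obtain ⟨l, hl, rfl⟩ := Submonoid.exists_list_of_mem_closure hp
    have : ∃ l' : List (Fin 2), l'.map s.1.y = l := by
      clear hp
      induction l with
      | nil => exact ⟨[], rfl⟩
      | cons a l ih =>
        obtain ⟨i, rfl⟩ := hl a (List.mem_cons_self ..)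
        obtain ⟨l', rfl⟩ := ih fun x hx => hl x (List.mem_cons_of_mem _ hx)
        exact ⟨i :: l', rfl⟩
    obtain ⟨l', rfl⟩ := this
    exact ⟨l', rfl⟩
  obtain ⟨b, hb, hbspan, hbli⟩ := exists_linearIndependent s.1.S.F (Set.range G)
  have hfin : b.Finite := hbli.setFinite
  have : Fintype b := hfin.fintype
  have hcard : m ≤ Fintype.card b := by
    have hbasis := Module.Basis.mk hbli (by rw [Subtype.range_coe, hbspan, hspan])
    rw [← Module.finrank_eq_card_basis hbasis]
    exact hm
  obtain ⟨e⟩ : Nonempty (Fin m ↪ b) :=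
    Function.Embedding.nonempty_of_card_le (by simpa using hcard)
  choose w hw using fun i : Fin m => hb (e i).2
  refine ⟨w, ?_⟩
  have : (fun i => G (w i)) = (Subtype.val : b → s.1.S.C) ∘ e := funext hw
  show LinearIndependent _ fun i => G (w i)
  rw [this]
  exact hbli.comp e e.injective

/-- The system of stages. -/
noncomputable def system (hs : StepStmt) (he : SymExistsStmt) (hg : GrowExistsStmt)
    (hp : PerturbStmt) (init : Stage) : LimitSystem where
  Stage := Stage
  F s := s.1.S.F
  R s := NS s.1.K s.1.S.C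
  gen s := s.1.y
  Hom := Hom
  fmap h := h.iF
  rmap h := h.σ
  map_algebraMap h := h.σ_scalar
  map_gen h := h.σ_y
  Indep s m w := LinearIndependent s.1.S.F fun i => ((w i).map s.1.y).prod []
  indep_map {s t} h m w hw := by
    have := h.indep m (fun i => ((w i).map s.1.y).prod) hw
    simpa [map_list_prod, List.map_map, Function.comp_def, h.σ_y] using this
  indep_sound {s} {m w} hw := LinearIndependent.of_comp (ev s) hw
  init := init
  step := step hs
  grow s m := by
    obtain ⟨t, h, hm⟩ := exists_big he hg hp s m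
    exact ⟨t, h, exists_words t m hm⟩

/-- The complex numbers as the first coefficient algebra. -/
noncomputable def baseStg : Stg where
  F := ℂ
  C := ℂ
  central x _ := ⟨x, rfl⟩
  roots M hM := ⟨_, Complex.isPrimitiveRoot_exp M hM.ne'⟩

/-- Series in two letters over the complex numbers, the pair being the letters. -/
noncomputable def baseObj : Obj where
  S := baseStg
  K := 2
  y i := NS.var i
  f := 0

theorem letters_full (F : Type) [Field F] (c : F) (l : Fin 2 → F) :
    ∃ g ∈ Algebra.adjoin F (Set.range fun i : Fin 2 => (NS.var i : NS 2 F)),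
      g [] = c ∧ ∀ i, g [i] = l i := by
  refine ⟨algebraMap F (NS 2 F) c + algebraMap F (NS 2 F) (l 0) * NS.var 0 +
    algebraMap F (NS 2 F) (l 1) * NS.var 1, ?_, ?_, ?_⟩
  · exact add_mem (add_mem (Subalgebra.algebraMap_mem _ _)
      (mul_mem (Subalgebra.algebraMap_mem _ _) (Algebra.subset_adjoin ⟨0, rfl⟩)))
      (mul_mem (Subalgebra.algebraMap_mem _ _) (Algebra.subset_adjoin ⟨1, rfl⟩))
  · simp [NS.algebraMap_eq, NS.var]
  · intro i
    simp only [NS.algebraMap_eq, NS.add_apply, NS.const_mul]
    fin_cases i <;> simp [NS.var]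

theorem baseObj_full : baseObj.Full := fun c l => letters_full ℂ c l

/-- The first stage. -/
noncomputable def baseStage : Stage := ⟨baseObj, baseObj_full, le_rfl⟩

end Tower

/-- The tower module: the step, symbol extensions, growths and perturbations give the disproof. -/
theorem kurosh_of (hs : StepStmt) (he : SymExistsStmt) (hg : GrowExistsStmt) (hp : PerturbStmt) :
    KuroshStmt := by
  classical
  let L : LimitSystem := Tower.system hs he hg hp Tower.baseStage
  let : DivisionRing L.Lim := L.divisionRing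
  have hgen : ∀ i, L.genLim i ∈ L.Lim := fun i => Algebra.subset_adjoin ⟨i, rfl⟩
  let a : L.Lim := ⟨L.genLim 0, hgen 0⟩
  let b : L.Lim := ⟨L.genLim 1, hgen 1⟩
  have htop : Algebra.adjoin L.Coeff ({a, b} : Set L.Lim) = ⊤ := by
    apply Subalgebra.map_injective (f := L.Lim.val) Subtype.val_injective
    rw [AlgHom.map_adjoin, Algebra.map_top, Subalgebra.range_val]
    refine le_antisymm (Algebra.adjoin_le ?_) (Algebra.adjoin_le ?_)
    · rintro _ ⟨x, rfl | rfl, rfl⟩
      exacts [hgen 0, hgen 1]
    · rintro _ ⟨i, rfl⟩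
      fin_cases i
      exacts [Algebra.subset_adjoin ⟨a, Or.inl rfl, rfl⟩, Algebra.subset_adjoin ⟨b, Or.inr rfl, rfl⟩]
  refine ⟨L.Lim, L.divisionRing, L.Coeff, inferInstance, inferInstance, a, b,
    inferInstance, htop, L.not_finite_lim, ⟨isAlgebraic_center (k := L.Coeff)⟩, fun hfin => ?_⟩
  exact L.not_finite_lim (finite_of_finite_center ({a, b} : Finset L.Lim) (by simpa using htop))

end P199K
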