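import Mathlib
import Vale.Agent.P199.Kurosh.Tower
import Vale.Agent.P199.Kurosh.SelectRatio
import Vale.Agent.P199.Kurosh.SelectCent

/-! Assembly of the modules. -/

open Module

namespace P199K

/-- Statement: the degree of the base value times the dimension of its centraliser is the dimension. -/
def DegMulStmt : Prop := ∀ o : Obj, o.d * finrank o.S.F (o.S.cent o.θ) = o.S.dim

theorem cent_of (h : DegMulStmt) : CentStmt := fun o => ⟨h o, o.finrank_Kc⟩

theorem kurosh_assemble (hMul : DegMulStmt) (hDim : DimStmt) (hW : WLeStmt) (hA : RankAStmt)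
    (hS : SymExistsStmt) (hApp : ApproachExistsStmt) (hG : GrowExistsStmt) (hP : PerturbStmt)
    (hUp : LimitUpStmt) (hBot : BotStmt) (hF : FinalStmt) : KuroshStmt :=
  kurosh_of
    (step_of
      (select_of hDim ratio_holds hBot hW
        (boot_of ratio_holds (cent_of hMul) laurentDim_holds hDim hW hA hS hApp hG hUp))
      hF)
    hS hG hP

end P199K
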