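import Vale.Agent.P199.Kurosh.Sym

/-! Evaluation and substitution of noncommutative series: the truncations, their multiplicativity modulo a
filtration, and the linear part (derivative) with the gauge identity. -/

open Finset

namespace P199K

/-! ### Order of Laurent series -/

namespace OrdGE

variable {R : Type} [Ring R] {m n : ℤ} {x y : LaurentSeries R}

theorem zero : OrdGE n (0 : LaurentSeries R) := fun _ _ => rfl

theorem mono (h : m ≤ n) (hx : OrdGE n x) : OrdGE m x := fun k hk => hx k (lt_of_lt_of_le hk h)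

theorem add (hx : OrdGE n x) (hy : OrdGE n y) : OrdGE n (x + y) := fun k hk => by
  simp [hx k hk, hy k hk]

theorem neg (hx : OrdGE n x) : OrdGE n (-x) := fun k hk => by simp [hx k hk]

theorem sub (hx : OrdGE n x) (hy : OrdGE n y) : OrdGE n (x - y) := by
  rw [sub_eq_add_neg]; exact hx.add hy.neg

theorem sum {α : Type} (s : Finset α) (f : α → LaurentSeries R) (h : ∀ i ∈ s, OrdGE n (f i)) :
    OrdGE n (∑ i ∈ s, f i) := fun k hk => by
  rw [HahnSeries.coeff_sum]; exact Finset.sum_eq_zero fun i hi => h i hi k hk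

theorem mul (hx : OrdGE m x) (hy : OrdGE n y) : OrdGE (m + n) (x * y) := fun k hk => by
  rw [HahnSeries.coeff_mul]
  refine Finset.sum_eq_zero fun ij hij => ?_
  have hs : ij.1 + ij.2 = k := (Finset.mem_antidiagonal.mp hij).2.2
  by_cases h1 : ij.1 < m
  · rw [hx _ h1, zero_mul]
  · rw [hy _ (by omega), mul_zero]

theorem C (c : R) : OrdGE 0 (HahnSeries.C c : LaurentSeries R) := fun k hk => by
  rw [HahnSeries.C_apply, HahnSeries.coeff_single_of_ne hk.ne]

theorem one : OrdGE 0 (1 : LaurentSeries R) := by
  simpa using OrdGE.C (R := R) 1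

theorem single (h : m ≤ n) (c : R) : OrdGE m (HahnSeries.single n c : LaurentSeries R) :=
  fun k hk => by rw [HahnSeries.coeff_single_of_ne (by omega)]

theorem eq_zero (h : ∀ n : ℕ, OrdGE (n : ℤ) x) : x = 0 := by
  ext k
  exact h (k.toNat + 1) k (by omega)

end OrdGE

/-! ### Truncations into an arbitrary ring -/

namespace NS

theorem sum_apply {K : ℕ} {C : Type} [Ring C] {α : Type} (s : Finset α) (f : α → NS K C)
    (w : List (Fin K)) : (∑ i ∈ s, f i) w = ∑ i ∈ s, f i w := by
  classical
  induction s using Finset.induction with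
  | empty => simp
  | insert a t ha ih => rw [Finset.sum_insert ha, Finset.sum_insert ha, NS.add_apply, ih]

theorem ofFn_consEquiv {K l : ℕ} (a : Fin K) (v : Fin l → Fin K) :
    List.ofFn ((Fin.consEquiv fun _ => Fin K) (a, v)) = a :: List.ofFn v := by
  rw [List.ofFn_succ]
  rfl

theorem consEquiv_zero {K l : ℕ} (a : Fin K) (v : Fin l → Fin K) :
    (Fin.consEquiv fun _ => Fin K) (a, v) 0 = a := rfl

theorem consEquiv_succ {K l : ℕ} (a : Fin K) (v : Fin l → Fin K) (i : Fin l) :
    (Fin.consEquiv fun _ => Fin K) (a, v) i.succ = v i := rfl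

section Trunc

variable {K : ℕ} {C : Type} [Ring C] {B : Type} [Ring B]

/-- The truncation at word length `n`, by recursion on the first letter. -/
def trunc (ι : C →+* B) (y : Fin K → B) : ℕ → NS K C → B
  | 0, f => ι (f [])
  | n + 1, f => ι (f []) + ∑ i, y i * trunc ι y n (shift i f)

/-- The linear part of the truncation at word length `n`, in a direction `x`. -/
def lin (ι : C →+* B) (y x : Fin K → B) : ℕ → NS K C → B
  | 0, _ => 0
  | n + 1, f => ∑ i, (x i * trunc ι y n (shift i f) + y i * lin ι y x n (shift i f))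

variable (ι : C →+* B) (y x x' : Fin K → B)

theorem trunc_add : ∀ (n : ℕ) (f g : NS K C), trunc ι y n (f + g) = trunc ι y n f + trunc ι y n g
  | 0, f, g => by simp [trunc]
  | n + 1, f, g => by
      have hs : ∀ i, shift i (f + g) = shift i f + shift i g := fun _ => rfl
      simp only [trunc, hs, trunc_add n, add_apply, map_add, mul_add, Finset.sum_add_distrib]
      abel

theorem trunc_zero_series : ∀ n : ℕ, trunc ι y n (0 : NS K C) = 0
  | 0 => by simp [trunc]
  | n + 1 => by
      have hs : ∀ i : Fin K, shift i (0 : NS K C) = 0 := fun _ => rfl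
      simp [trunc, hs, trunc_zero_series n]

theorem trunc_const (c : C) : ∀ n : ℕ, trunc ι y n (const c : NS K C) = ι c
  | 0 => rfl
  | n + 1 => by
      have hs : ∀ i : Fin K, shift i (const c : NS K C) = 0 := fun _ => rfl
      simp [trunc, hs, trunc_zero_series ι y n]

theorem trunc_var (j : Fin K) (n : ℕ) : trunc ι y (n + 1) (var j : NS K C) = y j := by
  have hs : ∀ i : Fin K, shift i (var j : NS K C) = const (if i = j then 1 else 0) := by
    intro i
    refine NS.ext fun w => ?_
    cases w with
    | nil => simp [shift, var]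
    | cons a l => simp [shift, var]
  simp only [trunc, hs, trunc_const]
  simp [var]

theorem trunc_const_mul (hc : ∀ c i, ι c * y i = y i * ι c) (c : C) :
    ∀ (n : ℕ) (f : NS K C), trunc ι y n ((const c : NS K C) * f) = ι c * trunc ι y n f
  | 0, f => by simp [trunc, map_mul]
  | n + 1, f => by
      have hs : ∀ i : Fin K, shift i ((const c : NS K C) * f) = (const c : NS K C) * shift i f :=
        fun i => NS.ext fun w => by simp [shift, const_mul]
      simp only [trunc, hs, trunc_const_mul hc c n, const_mul, map_mul, mul_add, Finset.mul_sum]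
      congr 1
      refine Finset.sum_congr rfl fun i _ => ?_
      rw [← mul_assoc, ← hc, mul_assoc]

theorem lin_add_series : ∀ (n : ℕ) (f g : NS K C),
    lin ι y x n (f + g) = lin ι y x n f + lin ι y x n g
  | 0, f, g => by simp [lin]
  | n + 1, f, g => by
      have hs : ∀ i, shift i (f + g) = shift i f + shift i g := fun _ => rfl
      simp only [lin, hs, trunc_add, lin_add_series n, mul_add, Finset.sum_add_distrib]
      abel

theorem lin_add : ∀ (n : ℕ) (f : NS K C), lin ι y (x + x') n f = lin ι y x n f + lin ι y x' n f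
  | 0, f => by simp [lin]
  | n + 1, f => by
      simp only [lin, lin_add n, Pi.add_apply, add_mul, mul_add, Finset.sum_add_distrib]
      abel

theorem lin_smul (a : B) (ha : ∀ b, a * b = b * a) :
    ∀ (n : ℕ) (f : NS K C), lin ι y (fun i => a * x i) n f = a * lin ι y x n f
  | 0, f => by simp [lin]
  | n + 1, f => by
      simp only [lin, lin_smul a ha n, mul_add, Finset.mul_sum]
      refine Finset.sum_congr rfl fun i _ => ?_
      rw [← mul_assoc (y i), ← ha (y i), mul_assoc, mul_assoc]

/-- The gauge identity for truncations. -/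
theorem lin_gauge (e : B) (he : ∀ c, e * ι c = ι c * e) : ∀ (n : ℕ) (f : NS K C),
    lin ι y (fun i => e * y i - y i * e) n f = e * trunc ι y n f - trunc ι y n f * e
  | 0, f => by simp [lin, trunc, he]
  | n + 1, f => by
      simp only [lin, trunc, lin_gauge e he n, mul_add, add_mul, Finset.mul_sum, Finset.sum_mul, he]
      rw [add_sub_add_left_eq_sub, ← Finset.sum_sub_distrib]
      refine Finset.sum_congr rfl fun i _ => ?_
      simp only [mul_sub, sub_mul, ← mul_assoc]
      abel

/-- The truncation is the sum over words, as in `evalTrunc`. -/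
theorem evalTrunc_succ (hc : ∀ c i, ι c * y i = y i * ι c) (n : ℕ) (f : List (Fin K) → C) :
    evalTrunc ι y f (n + 1) = ι (f []) + ∑ i, y i * evalTrunc ι y (fun u => f (i :: u)) n := by
  unfold evalTrunc
  rw [Finset.sum_range_succ']
  rw [add_comm]
  congr 1
  · simp [wordProd]
  · simp only [Finset.mul_sum]
    rw [Finset.sum_comm]
    refine Finset.sum_congr rfl fun l _ => ?_
    rw [← (Fin.consEquiv fun _ => Fin K).sum_comp, Fintype.sum_prod_type]
    refine Finset.sum_congr rfl fun i _ => Finset.sum_congr rfl fun v _ => ?_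
    simp only [ofFn_consEquiv, wordProd, List.map_cons, List.prod_cons]
    rw [← mul_assoc, ← mul_assoc, hc]

theorem evalTrunc_eq_trunc (hc : ∀ c i, ι c * y i = y i * ι c) : ∀ (n : ℕ) (f : NS K C),
    evalTrunc ι y f n = trunc ι y n f
  | 0, f => by simp [evalTrunc, trunc, wordProd]
  | n + 1, f => by
      refine (evalTrunc_succ ι y hc n f).trans ?_
      rw [trunc]
      simp only [← evalTrunc_eq_trunc hc n]
      rfl

/-- The linear part as a sum over words with one marked letter. -/
theorem lin_eq_sum (hc : ∀ c i, ι c * y i = y i * ι c) (hx : ∀ c i, ι c * x i = x i * ι c) :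
    ∀ (n : ℕ) (f : NS K C), lin ι y x n f = ∑ l ∈ Finset.range (n + 1), ∑ v : Fin l → Fin K,
      ∑ i : Fin l, ι (f (List.ofFn v)) * wordProd y ((List.ofFn v).take i) * x (v i) *
        wordProd y ((List.ofFn v).drop (i + 1))
  | 0, f => by simp [lin]
  | n + 1, f => by
      rw [lin, Finset.sum_range_succ']
      simp only [Finset.univ_eq_empty, Finset.sum_empty, Finset.sum_const_zero, add_zero]
      have hl : ∀ l : ℕ, ∑ v : Fin (l + 1) → Fin K, ∑ i : Fin (l + 1),
            ι (f (List.ofFn v)) * wordProd y ((List.ofFn v).take i) * x (v i) *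
              wordProd y ((List.ofFn v).drop (i + 1))
          = ∑ a : Fin K, ((x a * ∑ v : Fin l → Fin K, ι (f (a :: List.ofFn v)) *
                wordProd y (List.ofFn v))
            + y a * ∑ v : Fin l → Fin K, ∑ i : Fin l, ι (f (a :: List.ofFn v)) *
                wordProd y ((List.ofFn v).take i) * x (v i) *
                  wordProd y ((List.ofFn v).drop (i + 1))) := by
        intro l
        rw [← (Fin.consEquiv fun _ => Fin K).sum_comp, Fintype.sum_prod_type]
        refine Finset.sum_congr rfl fun a _ => ?_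
        simp only [Finset.mul_sum, ← Finset.sum_add_distrib]
        refine Finset.sum_congr rfl fun v _ => ?_
        rw [Fin.sum_univ_succ]
        simp only [ofFn_consEquiv, consEquiv_zero, consEquiv_succ, Fin.val_zero,
          Fin.val_succ, List.take_zero, List.drop_succ_cons, List.take_succ_cons, List.drop_zero,
          wordProd, List.map_nil, List.prod_nil, mul_one, List.map_cons, List.prod_cons]
        congr 1
        · rw [hx, mul_assoc]
        · refine Finset.sum_congr rfl fun i _ => ?_
          simp only [← mul_assoc]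
          rw [hc]
      simp only [hl]
      rw [Finset.sum_comm]
      refine Finset.sum_congr rfl fun a _ => ?_
      rw [Finset.sum_add_distrib, ← Finset.mul_sum, ← Finset.mul_sum,
        lin_eq_sum hc hx n (shift a f), ← evalTrunc_eq_trunc ι y hc n (shift a f)]
      rfl

end Trunc

/-! ### Filtrations -/

/-- A separated ring filtration indexed by the natural numbers. -/
structure Filt (B : Type) [Ring B] where
  I : ℕ → AddSubgroup B
  anti : ∀ {m n}, m ≤ n → I n ≤ I m
  mul_mem : ∀ {m n x y}, x ∈ I m → y ∈ I n → x * y ∈ I (m + n)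
  sep : ∀ {x}, (∀ n, x ∈ I n) → x = 0

section Approx

variable {K : ℕ} {C : Type} [Ring C] {B : Type} [Ring B] (Φ : Filt B) (ι : C →+* B) (y : Fin K → B)
variable (hι : ∀ c, ι c ∈ Φ.I 0) (hy : ∀ i, y i ∈ Φ.I 1)

include hι hy

theorem trunc_mem : ∀ (n : ℕ) (f : NS K C), trunc ι y n f ∈ Φ.I 0
  | 0, f => hι _
  | n + 1, f => by
      rw [trunc]
      exact add_mem (hι _) (sum_mem fun i _ =>
        Φ.anti (Nat.zero_le _) (Φ.mul_mem (hy i) (trunc_mem n _)))

theorem trunc_succ_sub : ∀ (n : ℕ) (f : NS K C),
    trunc ι y (n + 1) f - trunc ι y n f ∈ Φ.I (n + 1)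
  | 0, f => by
      simp only [trunc, add_sub_cancel_left]
      refine sum_mem fun i _ => ?_
      simpa using Φ.mul_mem (hy i) (hι (shift i f []))
  | n + 1, f => by
      have e : trunc ι y (n + 1 + 1) f - trunc ι y (n + 1) f
          = ∑ i, y i * (trunc ι y (n + 1) (shift i f) - trunc ι y n (shift i f)) := by
        simp only [mul_sub, Finset.sum_sub_distrib]
        show (ι (f []) + _) - (ι (f []) + _) = _
        rw [add_sub_add_left_eq_sub]
      rw [e]
      refine sum_mem fun i _ => ?_
      have := Φ.mul_mem (hy i) (trunc_succ_sub n (shift i f))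
      exact Φ.anti (by omega) this

theorem trunc_sub_of_le {m n : ℕ} (h : m ≤ n) (f : NS K C) :
    trunc ι y n f - trunc ι y m f ∈ Φ.I (m + 1) := by
  induction n, h using Nat.le_induction with
  | base => simp
  | succ k hk ih =>
      have e : trunc ι y (k + 1) f - trunc ι y m f
          = (trunc ι y (k + 1) f - trunc ι y k f) + (trunc ι y k f - trunc ι y m f) := by abel
      rw [e]
      exact add_mem (Φ.anti (by omega) (trunc_succ_sub Φ ι y hι hy k f)) ih

theorem trunc_mul (hc : ∀ c i, ι c * y i = y i * ι c) : ∀ (n : ℕ) (f g : NS K C),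
    trunc ι y n (f * g) - trunc ι y n f * trunc ι y n g ∈ Φ.I (n + 1)
  | 0, f, g => by simp [trunc, map_mul]
  | n + 1, f, g => by
      have hT : trunc ι y (n + 1) (f * g) = ι (f []) * trunc ι y (n + 1) g
          + ∑ i, y i * trunc ι y n (shift i f * g) := by
        simp only [trunc, shift_mul, trunc_add, trunc_const_mul ι y hc, mul_nil, map_mul, mul_add,
          Finset.mul_sum, Finset.sum_add_distrib]
        rw [← add_assoc]
        congr 2
        refine Finset.sum_congr rfl fun i _ => ?_
        rw [← mul_assoc, ← hc, mul_assoc]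
      have hR : trunc ι y (n + 1) f * trunc ι y (n + 1) g = ι (f []) * trunc ι y (n + 1) g
          + ∑ i, y i * trunc ι y n (shift i f) * trunc ι y (n + 1) g := by
        rw [← Finset.sum_mul, ← add_mul]
        rfl
      rw [hT, hR, add_sub_add_left_eq_sub, ← Finset.sum_sub_distrib]
      refine sum_mem fun i _ => ?_
      have e : y i * trunc ι y n (shift i f * g) - y i * trunc ι y n (shift i f) * trunc ι y (n + 1) g
          = y i * (trunc ι y n (shift i f * g) - trunc ι y n (shift i f) * trunc ι y n g)
            - y i * (trunc ι y n (shift i f) * (trunc ι y (n + 1) g - trunc ι y n g)) := by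
        simp only [mul_sub, mul_assoc]
        abel
      rw [e]
      refine sub_mem (Φ.anti (by omega) (Φ.mul_mem (hy i) (trunc_mul hc n (shift i f) g))) ?_
      exact Φ.anti (by omega) (Φ.mul_mem (hy i)
        (Φ.mul_mem (trunc_mem Φ ι y hι hy n (shift i f)) (trunc_succ_sub Φ ι y hι hy n g)))

/-- A function approximated by all truncations is a ring homomorphism. -/
def homOfApprox (hc : ∀ c i, ι c * y i = y i * ι c) (φ : NS K C → B)
    (hφ : ∀ f n, φ f - trunc ι y n f ∈ Φ.I (n + 1)) : NS K C →+* B where
  toFun := φ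
  map_one' := by
    refine sub_eq_zero.mp (Φ.sep fun n => ?_)
    have := hφ 1 n
    rw [one_def, trunc_const, map_one] at this
    exact Φ.anti (Nat.le_succ n) (by simpa [one_def] using this)
  map_mul' f g := by
    refine sub_eq_zero.mp (Φ.sep fun n => Φ.anti (Nat.le_succ n) ?_)
    have hmem : ∀ f, φ f ∈ Φ.I 0 := fun f => by
      have := add_mem (Φ.anti (Nat.zero_le _) (hφ f 0)) (trunc_mem Φ ι y hι hy 0 f)
      simpa using this
    have e : φ (f * g) - φ f * φ g = (φ (f * g) - trunc ι y n (f * g))
        + (trunc ι y n (f * g) - trunc ι y n f * trunc ι y n g)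
        - (φ f - trunc ι y n f) * trunc ι y n g - φ f * (φ g - trunc ι y n g) := by
      simp only [sub_mul, mul_sub]
      abel
    rw [e]
    refine sub_mem (sub_mem (add_mem (hφ _ n) (trunc_mul Φ ι y hι hy hc n f g)) ?_) ?_
    · simpa using Φ.mul_mem (hφ f n) (trunc_mem Φ ι y hι hy n g)
    · simpa using Φ.mul_mem (hmem f) (hφ g n)
  map_zero' := by
    refine Φ.sep fun n => ?_
    have := hφ 0 n
    rw [trunc_zero_series, sub_zero] at this
    exact Φ.anti (Nat.le_succ n) this
  map_add' f g := by
    refine sub_eq_zero.mp (Φ.sep fun n => Φ.anti (Nat.le_succ n) ?_)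
    have e : φ (f + g) - (φ f + φ g)
        = (φ (f + g) - trunc ι y n (f + g)) - (φ f - trunc ι y n f) - (φ g - trunc ι y n g) := by
      rw [trunc_add]; abel
    rw [e]
    exact sub_mem (sub_mem (hφ _ n) (hφ f n)) (hφ g n)

theorem lin_succ_sub (x : Fin K → B) (hx : ∀ i, x i ∈ Φ.I 0) : ∀ (n : ℕ) (f : NS K C),
    lin ι y x (n + 1) f - lin ι y x n f ∈ Φ.I n
  | 0, f => by
      simp only [lin, sub_zero]
      refine sum_mem fun i _ => add_mem ?_ (by simp)
      simpa using Φ.mul_mem (hx i) (trunc_mem Φ ι y hι hy 0 (shift i f))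
  | n + 1, f => by
      have e : lin ι y x (n + 1 + 1) f - lin ι y x (n + 1) f
          = ∑ i, (x i * (trunc ι y (n + 1) (shift i f) - trunc ι y n (shift i f))
              + y i * (lin ι y x (n + 1) (shift i f) - lin ι y x n (shift i f))) := by
        rw [lin, lin, ← Finset.sum_sub_distrib]
        refine Finset.sum_congr rfl fun i _ => ?_
        simp only [mul_sub]
        abel
      rw [e]
      refine sum_mem fun i _ => add_mem ?_ ?_
      · simpa using Φ.mul_mem (hx i) (trunc_succ_sub Φ ι y hι hy n (shift i f))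
      · exact Φ.anti (by omega) (Φ.mul_mem (hy i) (lin_succ_sub x hx n (shift i f)))

theorem lin_sub_of_le (x : Fin K → B) (hx : ∀ i, x i ∈ Φ.I 0) {m n : ℕ} (h : m ≤ n) (f : NS K C) :
    lin ι y x n f - lin ι y x m f ∈ Φ.I m := by
  induction n, h using Nat.le_induction with
  | base => simp
  | succ k hk ih =>
      have e : lin ι y x (k + 1) f - lin ι y x m f
          = (lin ι y x (k + 1) f - lin ι y x k f) + (lin ι y x k f - lin ι y x m f) := by abel
      rw [e]
      exact add_mem (Φ.anti hk (lin_succ_sub Φ ι y hι hy x hx k f)) ih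

end Approx

end NS

/-! ### The two filtrations -/

/-- Laurent series filtered by order. -/
def ordFilt (R : Type) [Ring R] : NS.Filt (LaurentSeries R) where
  I n :=
    { carrier := {x | OrdGE (n : ℤ) x}
      zero_mem' := OrdGE.zero
      add_mem' := OrdGE.add
      neg_mem' := OrdGE.neg }
  anti h _ hx := OrdGE.mono (by exact_mod_cast h) hx
  mul_mem := fun {m n x y} hx hy => by
    have := OrdGE.mul (x := x) (y := y) hx hy
    show OrdGE ((m + n : ℕ) : ℤ) (x * y)
    exact_mod_cast this
  sep h := OrdGE.eq_zero h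

theorem mem_ordFilt {R : Type} [Ring R] {n : ℕ} {x : LaurentSeries R} :
    x ∈ (ordFilt R).I n ↔ OrdGE (n : ℤ) x := Iff.rfl

theorem ordNS_mul {R : Type} [Ring R] {K : ℕ} : ∀ (w : List (Fin K)) {m n : ℕ}
    (f g : NS K (LaurentSeries R)),
    (∀ u, OrdGE ((m - u.length : ℕ) : ℤ) (f u)) → (∀ v, OrdGE ((n - v.length : ℕ) : ℤ) (g v)) →
    OrdGE ((m + n - w.length : ℕ) : ℤ) ((f * g) w) := by
  intro w
  induction w with
  | nil =>
      intro m n f g hf hg
      rw [NS.mul_nil]
      exact OrdGE.mono (by simp) ((hf []).mul (hg []))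
  | cons i w ih =>
      intro m n f g hf hg
      rw [NS.mul_cons]
      refine OrdGE.add (OrdGE.mono ?_ ((hf []).mul (hg (i :: w)))) ?_
      · simp only [List.length_cons, List.length_nil]; omega
      · have h := ih (m := m - 1) (NS.shift i f) g (fun u => by
          have := hf (i :: u)
          simp only [List.length_cons] at this
          exact OrdGE.mono (by omega) this) hg
        refine OrdGE.mono ?_ h
        simp only [List.length_cons]; omega

/-- Series over Laurent series filtered by order plus word length. -/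
def wordFilt (K : ℕ) (R : Type) [Ring R] : NS.Filt (NS K (LaurentSeries R)) where
  I n :=
    { carrier := {g | ∀ w : List (Fin K), OrdGE ((n - w.length : ℕ) : ℤ) (g w)}
      zero_mem' := fun _ => OrdGE.zero
      add_mem' := fun hf hg w => (hf w).add (hg w)
      neg_mem' := fun hf w => (hf w).neg }
  anti h _ hx w := OrdGE.mono (by omega) (hx w)
  mul_mem := fun {m n x y} hx hy w => ordNS_mul w x y hx hy
  sep h := NS.ext fun w => OrdGE.eq_zero fun n => OrdGE.mono (by omega) (h (n + w.length) w)

theorem mem_wordFilt {K : ℕ} {R : Type} [Ring R] {n : ℕ} {g : NS K (LaurentSeries R)} :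
    g ∈ (wordFilt K R).I n ↔ ∀ w : List (Fin K), OrdGE ((n - w.length : ℕ) : ℤ) (g w) := Iff.rfl

/-- Coefficientwise limit of a sequence of Laurent series with positive support. -/
noncomputable def lsLim {R : Type} [Zero R] (a : ℕ → LaurentSeries R) (d : ℕ) : LaurentSeries R :=
  HahnSeries.ofSuppBddBelow (fun k : ℤ => if k < 0 then 0 else (a (k.toNat + d)).coeff k)
    ⟨0, fun n hn => by
      by_contra h
      exact hn (by simp [not_le.1 h])⟩

@[simp] theorem lsLim_coeff {R : Type} [Zero R] (a : ℕ → LaurentSeries R) (d : ℕ) (k : ℤ) :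
    (lsLim a d).coeff k = if k < 0 then 0 else (a (k.toNat + d)).coeff k := rfl

theorem lsLim_sub {R : Type} [Ring R] (a : ℕ → LaurentSeries R) (d e : ℕ)
    (h0 : ∀ n, OrdGE 0 (a n))
    (h : ∀ m n, m ≤ n → OrdGE ((m + e - d : ℕ) : ℤ) (a n - a m)) (he : 1 ≤ e) (n : ℕ) :
    OrdGE ((n + e - d : ℕ) : ℤ) (lsLim a d - a n) := by
  intro k hk
  rw [HahnSeries.coeff_sub, lsLim_coeff]
  by_cases hneg : k < 0
  · rw [if_pos hneg, h0 n k hneg, sub_zero]
  · rw [if_neg hneg]
    rcases le_total n (k.toNat + d) with hle | hle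
    · have := h n _ hle k hk
      rwa [HahnSeries.coeff_sub] at this
    · have h2 := h _ n hle k (by omega)
      rw [HahnSeries.coeff_sub, sub_eq_zero] at h2
      rw [h2, sub_self]

/-! ### Points -/

variable {S : Stg} {M : ℕ} {E : Sym S M}

theorem OrdGE.iota (c : S.C) : OrdGE 0 (E.ι c) := OrdGE.C _

theorem Sym.E_comm {e : E.T.C} (he : e ∈ E.E) (c : S.C) :
    E.emb.iC c * e = e * E.emb.iC c := by
  induction he using Submodule.span_induction with
  | mem x hx =>
      obtain ⟨⟨a, b⟩, rfl⟩ := hx
      have h1 : Commute (E.emb.iC c) E.X := (E.X_comm c).symm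
      have h2 : Commute (E.emb.iC c) E.Y := (E.Y_comm c).symm
      exact (h1.pow_right _).mul_right (h2.pow_right _)
  | zero => simp
  | add a b _ _ ha hb => rw [mul_add, add_mul, ha, hb]
  | smul r a _ ha => rw [mul_smul_comm, ha, smul_mul_assoc]

theorem Sym.ι_comm_of_mem {x : LaurentSeries E.T.C} (hx : ∀ n, x.coeff n ∈ E.E) (c : S.C) :
    E.ι c * x = x * E.ι c := by
  ext n
  simp only [Sym.ι, RingHom.comp_apply, HahnSeries.C_apply, HahnSeries.coeff_single_zero_mul,
    HahnSeries.coeff_mul_single_zero]
  exact Sym.E_comm (hx n) c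

namespace Point

variable {K : ℕ} (P : Point E K)

theorem comm (c : S.C) (i : Fin K) : E.ι c * P.p i = P.p i * E.ι c :=
  Sym.ι_comm_of_mem (fun n => P.mem i n) c

theorem p_mem (i : Fin K) : P.p i ∈ (ordFilt E.T.C).I 1 := P.small i

theorem eval_eq_lsLim (f : NS K S.C) :
    P.eval f = lsLim (fun n => NS.trunc E.ι P.p n f) 0 := by
  ext k
  simp only [Point.eval, lsLim_coeff, add_zero, HahnSeries.ofSuppBddBelow]
  rw [NS.evalTrunc_eq_trunc E.ι P.p P.comm]

theorem eval_sub_trunc (f : NS K S.C) (n : ℕ) :
    OrdGE ((n : ℤ) + 1) (P.eval f - NS.trunc E.ι P.p n f) := by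
  have h := lsLim_sub (fun n => NS.trunc E.ι P.p n f) 0 1
    (fun m => NS.trunc_mem (ordFilt E.T.C) E.ι P.p OrdGE.iota P.p_mem m f)
    (fun a b hab => NS.trunc_sub_of_le (ordFilt E.T.C) E.ι P.p OrdGE.iota P.p_mem hab f) le_rfl n
  rw [P.eval_eq_lsLim]
  exact_mod_cast h

theorem eval_ordGE (f : NS K S.C) : OrdGE 0 (P.eval f) := fun k hk => by
  rw [P.eval_eq_lsLim, lsLim_coeff, if_pos hk]

/-- Evaluation at a point as a ring homomorphism. -/
noncomputable def evalHom : NS K S.C →+* LaurentSeries E.T.C :=
  NS.homOfApprox (ordFilt E.T.C) E.ι P.p OrdGE.iota P.p_mem P.comm P.eval fun f n => by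
    rw [mem_ordFilt]
    push_cast
    exact P.eval_sub_trunc f n

@[simp] theorem evalHom_apply (f : NS K S.C) : P.evalHom f = P.eval f := rfl

theorem eval_mul (f g : NS K S.C) : P.eval (f * g) = P.eval f * P.eval g := map_mul P.evalHom f g

theorem eval_add (f g : NS K S.C) : P.eval (f + g) = P.eval f + P.eval g := map_add P.evalHom f g

theorem eval_sub (f g : NS K S.C) : P.eval (f - g) = P.eval f - P.eval g := map_sub P.evalHom f g

theorem eval_one : P.eval (1 : NS K S.C) = 1 := map_one P.evalHom

theorem eval_const (c : S.C) : P.eval (NS.const c) = E.ι c := by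
  refine sub_eq_zero.mp (OrdGE.eq_zero fun n => OrdGE.mono (show (n:ℤ) ≤ (n:ℤ) + 1 by omega) ?_)
  have := P.eval_sub_trunc (NS.const c) n
  rwa [NS.trunc_const] at this

theorem eval_var (i : Fin K) : P.eval (NS.var i) = P.p i := by
  refine sub_eq_zero.mp (OrdGE.eq_zero fun n =>
    OrdGE.mono (show (n:ℤ) ≤ ((n + 1 : ℕ):ℤ) + 1 by omega) ?_)
  have := P.eval_sub_trunc (NS.var i) (n + 1)
  rwa [NS.trunc_var] at this

/-- The derivative of a series at a point in an integral direction. -/
noncomputable def D (f : NS K S.C) (x : Fin K → LaurentSeries E.T.C) : LaurentSeries E.T.C :=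
  lsLim (fun n => NS.lin E.ι P.p x n f) 1

variable {x x' : Fin K → LaurentSeries E.T.C}

theorem D_sub_lin (hx : ∀ i, OrdGE 0 (x i)) (f : NS K S.C) (n : ℕ) :
    OrdGE (n : ℤ) (P.D f x - NS.lin E.ι P.p x n f) := by
  have hm : ∀ m, OrdGE 0 (NS.lin E.ι P.p x m f) := fun m => by
    have h := NS.lin_sub_of_le (ordFilt E.T.C) E.ι P.p OrdGE.iota P.p_mem x hx (Nat.zero_le m) f
    have h0 : NS.lin E.ι P.p x 0 f = 0 := rfl
    rw [h0, sub_zero] at h
    exact h
  have h := lsLim_sub (fun m => NS.lin E.ι P.p x m f) 1 1 hm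
    (fun a b hab => by
      simp only [Nat.add_sub_cancel]
      exact NS.lin_sub_of_le (ordFilt E.T.C) E.ι P.p OrdGE.iota P.p_mem x hx hab f) le_rfl n
  simp only [Nat.add_sub_cancel] at h
  exact h

theorem D_ordGE (f : NS K S.C) : OrdGE 0 (P.D f x) := fun k hk => by
  rw [D, lsLim_coeff, if_pos hk]

theorem D_unique (hx : ∀ i, OrdGE 0 (x i)) (f : NS K S.C) (v : LaurentSeries E.T.C)
    (h : ∀ n : ℕ, OrdGE (n : ℤ) (v - NS.lin E.ι P.p x n f)) : v = P.D f x := by
  refine sub_eq_zero.mp (OrdGE.eq_zero fun n => ?_)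
  have e : v - P.D f x
      = (v - NS.lin E.ι P.p x n f) - (P.D f x - NS.lin E.ι P.p x n f) := by abel
  rw [e]
  exact (h n).sub (P.D_sub_lin hx f n)

theorem D_add_series (hx : ∀ i, OrdGE 0 (x i)) (f g : NS K S.C) :
    P.D (f + g) x = P.D f x + P.D g x := by
  refine (P.D_unique hx _ _ fun n => ?_).symm
  rw [NS.lin_add_series, add_sub_add_comm]
  exact (P.D_sub_lin hx f n).add (P.D_sub_lin hx g n)

theorem D_add (hx : ∀ i, OrdGE 0 (x i)) (hx' : ∀ i, OrdGE 0 (x' i)) (f : NS K S.C) :
    P.D f (x + x') = P.D f x + P.D f x' := by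
  refine (P.D_unique (x := x + x') (fun i => (hx i).add (hx' i)) _ _ fun n => ?_).symm
  rw [NS.lin_add, add_sub_add_comm]
  exact (P.D_sub_lin hx f n).add (P.D_sub_lin hx' f n)

theorem D_smul (hx : ∀ i, OrdGE 0 (x i)) (a : LaurentSeries E.T.C) (ha0 : OrdGE 0 a)
    (ha : ∀ b, a * b = b * a) (f : NS K S.C) :
    P.D f (fun i => a * x i) = a * P.D f x := by
  refine (P.D_unique (fun i => by simpa using ha0.mul (hx i)) _ _ fun n => ?_).symm
  rw [NS.lin_smul E.ι P.p x a ha, ← mul_sub]
  simpa using ha0.mul (P.D_sub_lin hx f n)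

/-- The gauge identity: directions `[e, p]` give `[e, f(p)]`. -/
theorem D_gauge (e : LaurentSeries E.T.C) (he0 : OrdGE 0 e) (hmem : ∀ n, e.coeff n ∈ E.E)
    (f : NS K S.C) :
    P.D f (fun i => e * P.p i - P.p i * e) = e * P.eval f - P.eval f * e := by
  have hp0 : ∀ i, OrdGE 0 (P.p i) := fun i => (P.small i).mono (by norm_num)
  have hx : ∀ i, OrdGE 0 (e * P.p i - P.p i * e) := fun i =>
    OrdGE.sub (by simpa using he0.mul (hp0 i)) (by simpa using (hp0 i).mul he0)
  refine (P.D_unique hx _ _ fun n => ?_).symm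
  rw [NS.lin_gauge E.ι P.p e (fun c => (Sym.ι_comm_of_mem hmem c).symm)]
  have h1 : OrdGE (n : ℤ) (P.eval f - NS.trunc E.ι P.p n f) :=
    (P.eval_sub_trunc f n).mono (by omega)
  have e2 : e * P.eval f - P.eval f * e - (e * NS.trunc E.ι P.p n f - NS.trunc E.ι P.p n f * e)
      = e * (P.eval f - NS.trunc E.ι P.p n f) - (P.eval f - NS.trunc E.ι P.p n f) * e := by
    simp only [mul_sub, sub_mul]
    abel
  rw [e2]
  exact OrdGE.sub (by simpa using he0.mul h1) (by simpa using h1.mul he0)

/-- The Leibniz formula: `deriv` is the coefficient sequence of `D`. -/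
theorem deriv_eq (hx : ∀ i, OrdGE 0 (x i)) (hmem : ∀ i n, (x i).coeff n ∈ E.E) (f : NS K S.C)
    (k : ℤ) : P.deriv f x k = (P.D f x).coeff k := by
  have e : P.deriv f x k = (NS.lin E.ι P.p x (k.toNat + 1) f).coeff k := by
    rw [NS.lin_eq_sum E.ι P.p x P.comm (fun c i => Sym.ι_comm_of_mem (hmem i) c)]
    simp only [HahnSeries.coeff_sum, Point.deriv]
  rw [e, D, lsLim_coeff]
  split_ifs with hk
  · have h := P.D_sub_lin hx f (k.toNat + 1) k (by omega)
    rw [HahnSeries.coeff_sub, D, lsLim_coeff, if_pos hk, zero_sub, neg_eq_zero] at h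
    exact h
  · rfl

/-! ### Substitution into series over the Laurent stage -/

variable {K' : ℕ} (b : Fin K → Fin K' → LaurentSeries E.T.C)

/-- The constants inside series over the Laurent stage. -/
noncomputable def constι (K' : ℕ) (E : Sym S M) : S.C →+* NS K' (LaurentSeries E.T.C) :=
  (NS.constHom : LaurentSeries E.T.C →+* NS K' (LaurentSeries E.T.C)).comp E.ι

/-- The letters `p i + Σ b i j z j`. -/
noncomputable def letters : Fin K → NS K' (LaurentSeries E.T.C) := fun i w => match w with
  | [] => P.p i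
  | [j] => b i j
  | _ :: _ :: _ => 0

variable (hb0 : ∀ i j, OrdGE 0 (b i j)) (hbm : ∀ i j n, (b i j).coeff n ∈ E.E)

include hb0 in
theorem letters_mem (i : Fin K) : P.letters b i ∈ (wordFilt K' E.T.C).I 1 := by
  intro w
  match w with
  | [] => simpa [letters] using P.small i
  | [j] => simpa [letters] using hb0 i j
  | _ :: _ :: _ => simp only [letters]; exact OrdGE.zero

theorem constι_mem (c : S.C) : constι K' E c ∈ (wordFilt K' E.T.C).I 0 := by
  intro w
  match w with
  | [] => simpa [constι] using OrdGE.iota (E := E) c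
  | _ :: _ => simp only [constι, RingHom.comp_apply, NS.constHom_apply, NS.const_cons]
              exact OrdGE.zero

include hbm in
theorem letters_comm (c : S.C) (i : Fin K) :
    constι K' E c * P.letters b i = P.letters b i * constι K' E c := by
  refine NS.ext fun w => ?_
  simp only [constι, RingHom.comp_apply, NS.constHom_apply, NS.const_mul, NS.mul_const]
  match w with
  | [] => exact P.comm c i
  | [j] => exact Sym.ι_comm_of_mem (hbm i j) c
  | _ :: _ :: _ => simp [letters]

theorem trunc_letters_nil : ∀ (n : ℕ) (f : NS K S.C),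
    NS.trunc (constι K' E) (P.letters b) n f [] = NS.trunc E.ι P.p n f
  | 0, f => rfl
  | n + 1, f => by
      simp only [NS.trunc, NS.add_apply]
      rw [NS.sum_apply]
      simp only [NS.mul_nil, trunc_letters_nil n, letters]
      rfl

theorem trunc_letters_one (j : Fin K') : ∀ (n : ℕ) (f : NS K S.C),
    NS.trunc (constι K' E) (P.letters b) n f [j] = NS.lin E.ι P.p (fun i => b i j) n f
  | 0, f => rfl
  | n + 1, f => by
      simp only [NS.trunc, NS.lin, NS.add_apply]
      rw [NS.sum_apply]
      simp only [constι, RingHom.comp_apply, NS.constHom_apply, NS.const_cons, zero_add]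
      refine Finset.sum_congr rfl fun i _ => ?_
      rw [NS.mul_cons, NS.mul_nil]
      simp only [NS.shift_apply, letters]
      rw [show NS.constHom.comp E.ι = constι K' E from rfl, trunc_letters_nil P b n,
        trunc_letters_one j n, add_comm]

/-- Substitution of the letters into a series. -/
noncomputable def substFun (f : NS K S.C) : NS K' (LaurentSeries E.T.C) := fun w =>
  lsLim (fun n => NS.trunc (constι K' E) (P.letters b) n f w) w.length

include hb0 in
theorem substFun_sub_trunc (f : NS K S.C) (n : ℕ) :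
    P.substFun b f - NS.trunc (constι K' E) (P.letters b) n f ∈ (wordFilt K' E.T.C).I (n + 1) := by
  intro w
  have h := lsLim_sub (fun m => NS.trunc (constι K' E) (P.letters b) m f w) w.length 1
    (fun m => OrdGE.mono (by omega)
      (NS.trunc_mem (wordFilt K' E.T.C) _ _ constι_mem (P.letters_mem b hb0) m f w))
    (fun a c hac =>
      NS.trunc_sub_of_le (wordFilt K' E.T.C) _ _ constι_mem (P.letters_mem b hb0) hac f w) le_rfl n
  exact h

/-- Substitution as a ring homomorphism. -/
noncomputable def substHom : NS K S.C →+* NS K' (LaurentSeries E.T.C) :=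
  NS.homOfApprox (wordFilt K' E.T.C) (constι K' E) (P.letters b) constι_mem (P.letters_mem b hb0)
    (P.letters_comm b hbm) (P.substFun b) (P.substFun_sub_trunc b hb0)

theorem substHom_nil (f : NS K S.C) : P.substHom b hb0 hbm f [] = P.eval f := by
  show P.substFun b f [] = P.eval f
  rw [P.eval_eq_lsLim]
  simp only [substFun, P.trunc_letters_nil, List.length_nil]

theorem substHom_one (f : NS K S.C) (j : Fin K') :
    P.substHom b hb0 hbm f [j] = P.D f (fun i => b i j) := by
  show P.substFun b f [j] = _
  simp only [substFun, P.trunc_letters_one, List.length_singleton, D]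

end Point

end P199K
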