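import Mathlib
import Vale.Agent.P199.Kurosh.Laurent

/-! The trace form of the Laurent stage is the coefficientwise trace form. -/

open Module

namespace P199K

variable (S : Stg)

theorem laurent_finBasis_li : LinearIndependent (LaurentSeries S.F)
    (fun i => (HahnSeries.C (Module.finBasis S.F S.C i) : LaurentSeries S.C)) := by
  rw [Fintype.linearIndependent_iff]
  intro a ha i
  ext n
  have := congrArg (fun z : LaurentSeries S.C => z.coeff n) ha
  simp only [HahnSeries.coeff_sum, Algebra.smul_def, laurent_algebraMap, HahnSeries.C_apply,
    HahnSeries.coeff_mul_single_zero, laurentMap_coeff, HahnSeries.coeff_zero] at this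
  simp only [← Algebra.smul_def] at this
  simpa using Fintype.linearIndependent_iff.1 (Module.finBasis S.F S.C).linearIndependent
    (fun j => (a j).coeff n) this i

theorem laurent_finBasis_span : ⊤ ≤ Submodule.span (LaurentSeries S.F)
    (Set.range fun i => (HahnSeries.C (Module.finBasis S.F S.C i) : LaurentSeries S.C)) := by
  intro x _
  rw [laurent_span S x]
  refine Submodule.sum_mem _ fun k _ => ?_
  rw [← Algebra.smul_def]
  exact Submodule.smul_mem _ _ (Submodule.subset_span ⟨k, rfl⟩)

/-- The constants of a basis, as a basis of the Laurent series. -/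
noncomputable def laurentFinBasis :
    Basis (Fin (finrank S.F S.C)) (LaurentSeries S.F) (LaurentSeries S.C) :=
  Basis.mk (laurent_finBasis_li S) (laurent_finBasis_span S)

theorem laurentFinBasis_repr (y : LaurentSeries S.C) (i : Fin (finrank S.F S.C)) :
    (laurentFinBasis S).repr y i = y.map ((Module.finBasis S.F S.C).coord i) := by
  have h : y = ∑ j, (y.map ((Module.finBasis S.F S.C).coord j) : LaurentSeries S.F) •
      laurentFinBasis S j := by
    refine (laurent_span S y).trans (Finset.sum_congr rfl fun j _ => ?_)
    rw [laurentFinBasis, Basis.mk_apply, Algebra.smul_def]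
  conv_lhs => rw [h]
  rw [Basis.repr_sum_self]

/-- The trace form of the Laurent stage, coefficient by coefficient. -/
theorem laurentStage_τ_coeff (x : LaurentSeries S.C) (n : ℤ) :
    (S.laurent.τ x : LaurentSeries S.F).coeff n = S.τ (x.coeff n) := by
  classical
  show (LinearMap.trace (LaurentSeries S.F) (LaurentSeries S.C)
    (LinearMap.mul (LaurentSeries S.F) (LaurentSeries S.C) x)).coeff n =
      LinearMap.trace S.F S.C (LinearMap.mul S.F S.C (x.coeff n))
  rw [LinearMap.trace_eq_matrix_trace _ (laurentFinBasis S),
    LinearMap.trace_eq_matrix_trace _ (Module.finBasis S.F S.C), Matrix.trace, Matrix.trace,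
    HahnSeries.coeff_sum]
  refine Finset.sum_congr rfl fun i _ => ?_
  rw [Matrix.diag_apply, Matrix.diag_apply, LinearMap.toMatrix_apply, LinearMap.toMatrix_apply,
    LinearMap.mul_apply', LinearMap.mul_apply', laurentFinBasis_repr, laurentFinBasis, Basis.mk_apply,
    HahnSeries.map_coeff, HahnSeries.C_apply, HahnSeries.coeff_mul_single_zero]
  rfl

end P199K
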