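import Mathlib
import Vale.Agent.P199.Kurosh.SelectCore
import Vale.Agent.P199.Kurosh.Eval
import Vale.Agent.P199.Kurosh.Alg
import Vale.Agent.P199.Kurosh.SymKit
import Vale.Agent.P199.Kurosh.LaurentTrace

/-! If every descendant has vanishing tangent space in the centraliser, the root is good: the Euler
derivation shows that the series is a root of the minimal polynomial of its constant term. -/

open Module Finset

namespace P199K

/-! ### Leading coefficients and the Euler derivation -/

section Lead

variable {R : Type} [Ring R]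

theorem OrdGE.coeff_mul_lead {m n : ℤ} {x y : LaurentSeries R} (hx : OrdGE m x) (hy : OrdGE n y) :
    (x * y).coeff (m + n) = x.coeff m * y.coeff n := by
  rw [HahnSeries.coeff_mul]
  refine Finset.sum_eq_single (m, n) (fun p hp hne => ?_) fun h => ?_
  · obtain ⟨h1, h2, h3⟩ := Finset.mem_antidiagonal.mp hp
    exfalso
    have hm : m ≤ p.1 := not_lt.1 fun hlt => h1 (hx _ hlt)
    have hn : n ≤ p.2 := not_lt.1 fun hlt => h2 (hy _ hlt)
    exact hne (Prod.ext (by omega) (by omega))
  · by_contra hne
    exact h (Finset.mem_antidiagonal.mpr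
      ⟨left_ne_zero_of_mul hne, right_ne_zero_of_mul hne, rfl⟩)

theorem OrdGE.pow_lead {x : LaurentSeries R} (hx : OrdGE 0 x) :
    ∀ k : ℕ, OrdGE 0 (x ^ k) ∧ (x ^ k).coeff 0 = x.coeff 0 ^ k
  | 0 => ⟨by simpa using OrdGE.one, by simp⟩
  | k + 1 => by
    obtain ⟨h1, h2⟩ := OrdGE.pow_lead hx k
    refine ⟨by simpa [pow_succ] using h1.mul hx, ?_⟩
    have h := h1.coeff_mul_lead hx
    rw [add_zero] at h
    rw [pow_succ, pow_succ, h, h2]

/-- The derivation `s d/ds`. -/
noncomputable def eulerL : LaurentSeries R →+ LaurentSeries R where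
  toFun x := ⟨fun n => n • x.coeff n, x.isPWO_support.mono fun n hn h => hn (by simp [h])⟩
  map_zero' := by ext n; simp
  map_add' x y := by ext n; simp [smul_add]

@[simp] theorem eulerL_coeff (x : LaurentSeries R) (n : ℤ) : (eulerL x).coeff n = n • x.coeff n :=
  rfl

theorem eulerL_C (c : R) : eulerL (HahnSeries.C c : LaurentSeries R) = 0 := by
  ext n
  rcases eq_or_ne n 0 with rfl | hn <;> simp [*]

theorem eulerL_mul (x y : LaurentSeries R) : eulerL (x * y) = eulerL x * y + x * eulerL y := by
  ext n
  have hx : (eulerL x).support ⊆ x.support := fun k hk h => hk (by simp [h])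
  have hy : (eulerL y).support ⊆ y.support := fun k hk h => hk (by simp [h])
  rw [eulerL_coeff, HahnSeries.coeff_add, HahnSeries.coeff_mul_left' x.isPWO_support hx,
    HahnSeries.coeff_mul_right' y.isPWO_support hy, HahnSeries.coeff_mul, Finset.smul_sum,
    ← Finset.sum_add_distrib]
  refine Finset.sum_congr rfl fun p hp => ?_
  rw [← (Finset.mem_antidiagonal.mp hp).2.2, eulerL_coeff, eulerL_coeff, smul_mul_assoc,
    mul_smul_comm, ← add_smul]

theorem OrdGE.eulerL {m : ℤ} {x : LaurentSeries R} (hx : OrdGE m x) : OrdGE m (eulerL x) :=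
  fun k hk => by simp [hx k hk]

end Lead

/-! ### Points -/

namespace Point

variable {S : Stg} {M K : ℕ} {E : Sym S M} (P : Point E K)

theorem wordProd_lead (U : Fin K → E.T.C) (hU : ∀ i, (P.p i).coeff 1 = U i) :
    ∀ w : List (Fin K), OrdGE (w.length : ℤ) (NS.wordProd P.p w) ∧
      (NS.wordProd P.p w).coeff w.length = NS.wordProd U w
  | [] => by refine ⟨by simpa [NS.wordProd] using OrdGE.one, by simp [NS.wordProd]⟩
  | i :: w => by
    obtain ⟨h1, h2⟩ := wordProd_lead U hU w
    have he : ((i :: w).length : ℤ) = 1 + (w.length : ℤ) := by simp [add_comm]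
    have hp : NS.wordProd P.p (i :: w) = P.p i * NS.wordProd P.p w := by simp [NS.wordProd]
    rw [he, hp]
    refine ⟨(P.small i).mul h1, ?_⟩
    rw [(P.small i).coeff_mul_lead h1, h2, hU]
    simp [NS.wordProd]

theorem ι_mul_coeff (c : S.C) (z : LaurentSeries E.T.C) (n : ℤ) :
    (E.ι c * z).coeff n = E.emb.iC c * z.coeff n := by
  simp [Sym.ι]

/-- The first coefficient of a value: the lowest homogeneous part at the linear coefficients. -/
theorem eval_lead (U : Fin K → E.T.C) (hU : ∀ i, (P.p i).coeff 1 = U i) (g : NS K S.C) (l : ℕ)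
    (hmin : ∀ w : List (Fin K), w.length < l → g w = 0) :
    (P.eval g).coeff l =
      ∑ v : Fin l → Fin K, E.emb.iC (g (List.ofFn v)) * NS.wordProd U (List.ofFn v) := by
  have h := P.eval_sub_trunc g l l (by omega)
  rw [HahnSeries.coeff_sub, sub_eq_zero] at h
  rw [h, ← NS.evalTrunc_eq_trunc E.ι P.p P.comm]
  unfold evalTrunc
  rw [Finset.sum_range_succ,
    HahnSeries.coeff_add, Finset.sum_eq_zero fun j hj => Finset.sum_eq_zero fun v _ => ?_,
    HahnSeries.coeff_zero, zero_add, HahnSeries.coeff_sum]
  · refine Finset.sum_congr rfl fun v _ => ?_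
    have := (P.wordProd_lead U hU (List.ofFn v)).2
    rw [List.length_ofFn] at this
    rw [ι_mul_coeff, this]
  · rw [hmin _ (by simpa using Finset.mem_range.1 hj), map_zero, zero_mul]

/-- The Euler derivation of a value is the derivative along the Euler derivation of the point. -/
theorem eulerL_trunc : ∀ (n : ℕ) (f : NS K S.C),
    eulerL (NS.trunc E.ι P.p n f) = NS.lin E.ι P.p (fun i => eulerL (P.p i)) n f
  | 0, f => eulerL_C _
  | n + 1, f => by
    have h0 : eulerL (E.ι (f [])) = 0 := eulerL_C _
    simp only [NS.trunc, NS.lin, map_add, map_sum, h0, zero_add, eulerL_mul, eulerL_trunc n]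

theorem eulerL_eval (f : NS K S.C) : eulerL (P.eval f) = P.D f (fun i => eulerL (P.p i)) := by
  refine P.D_unique (fun i => ((P.small i).mono (by norm_num)).eulerL) f _ fun n => ?_
  rw [← P.eulerL_trunc, ← map_sub]
  exact ((P.eval_sub_trunc f n).mono (by omega)).eulerL

end Point

/-! ### Traces of powers of a series -/

/-- If the trace kills every `x ^ j * s dx/ds`, the trace of every power of `x` is constant. -/
theorem laurent_τ_pow (T : Stg) (x : LaurentSeries T.C) (hx : OrdGE 0 x)
    (h : ∀ j, T.laurent.τ (x ^ j * eulerL x : LaurentSeries T.C) = 0) (k : ℕ) :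
    (T.laurent.τ (x ^ k : LaurentSeries T.C) : LaurentSeries T.F) =
      HahnSeries.C (T.τ (x.coeff 0 ^ k)) := by
  have hc : ∀ a b : LaurentSeries T.C, T.laurent.τ (a * b : LaurentSeries T.C) =
      T.laurent.τ (b * a : LaurentSeries T.C) := fun a b => T.laurent.τ_mul_comm a b
  have key : ∀ k a, T.laurent.τ (x ^ a * eulerL (x ^ k) : LaurentSeries T.C) = 0 := by
    intro k
    induction k with
    | zero =>
      intro a
      have h1 : eulerL (1 : LaurentSeries T.C) = 0 := eulerL_C 1
      rw [pow_zero, h1, mul_zero]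
      exact map_zero T.laurent.τ
    | succ k ih =>
      intro a
      rw [pow_succ, eulerL_mul, mul_add, ← mul_assoc, ← mul_assoc, ← pow_add]
      refine (map_add T.laurent.τ _ _).trans ?_
      rw [hc (x ^ a * eulerL (x ^ k)) x, ← mul_assoc, ← pow_succ', ih, h, add_zero]
  refine HahnSeries.ext (funext fun n => ?_)
  rw [laurentStage_τ_coeff]
  rcases eq_or_ne n 0 with rfl | hn
  · rw [(hx.pow_lead k).2]
    simp
  · have h1 := key k 0
    rw [pow_zero, one_mul] at h1
    have h2 : T.τ ((eulerL (x ^ k)).coeff n) = 0 := by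
      rw [← laurentStage_τ_coeff, h1]
      rfl
    rw [eulerL_coeff, map_zsmul, smul_eq_zero] at h2
    rw [h2.resolve_left hn, HahnSeries.C_apply, HahnSeries.coeff_single_of_ne hn]

/-! ### The root is good -/

/-- Evaluation at the base point as an algebra homomorphism. -/
def NS.ev0A (S : Stg) (K : ℕ) : NS K S.C →ₐ[S.F] S.C :=
  { (NS.ev0 : NS K S.C →+* S.C) with commutes' := fun _ => rfl }

theorem bot_of (hS : SymExistsStmt) (hG : GrowExistsStmt) (hP : PerturbStmt) : BotStmt := by
  intro root hfull hK hW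
  set q := minpoly root.S.F root.θ with hq
  have hint : IsIntegral root.S.F root.θ := Algebra.IsIntegral.isIntegral _
  refine ⟨root, Obj.Desc.refl hfull hK, q, minpoly.ne_zero hint, ?_⟩
  by_contra hne
  set g := Polynomial.aeval root.f q with hg
  have hev0 : ∀ Q : Polynomial root.S.F, (Polynomial.aeval root.f Q) [] = Polynomial.aeval root.θ Q :=
    fun Q => (Polynomial.aeval_algHom_apply (NS.ev0A root.S root.K) root.f Q).symm
  -- a word of least length in the support of `g`
  obtain ⟨w0, hw0⟩ : ∃ w, g w ≠ 0 := not_forall.1 fun h => hne (NS.ext h)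
  obtain ⟨w, hw, hmin⟩ := exists_nat_min (fun w => g w ≠ 0) List.length ⟨w0, hw0⟩
  have hmin' : ∀ v : List (Fin root.K), v.length < w.length → g v = 0 :=
    fun v hv => by_contra fun h => absurd (hmin v h) (not_le.2 hv)
  -- separation
  have hM : 0 < 2 ^ (w.length * w.length) := pow_pos two_pos _
  obtain ⟨E⟩ := hS root.S _ hM
  obtain ⟨U, hU, hne'⟩ : ∃ U : Fin root.K → E.T.C, (∀ i, U i ∈ E.E) ∧
      ∑ v : Fin w.length → Fin root.K,
        E.emb.iC (g (List.ofFn v)) * NS.wordProd U (List.ofFn v) ≠ 0 := by
    by_contra hcon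
    push Not at hcon
    have := congrFun (E.sep_zero_base le_rfl (fun v => g (List.ofFn v)) hcon) w.get
    rw [List.ofFn_get] at this
    exact hw this
  -- a generating point with these linear coefficients
  let P0 : Point E root.K :=
    { p := fun i => HahnSeries.single 1 (U i)
      small := fun i => OrdGE.single le_rfl _
      mem := fun i n => by
        by_cases hn : n = 1
        · subst hn; simpa using hU i
        · rw [HahnSeries.coeff_single_of_ne hn]; exact zero_mem _ }
  obtain ⟨P, hgen, hclose⟩ := hP root _ 2 hfull hK hM E P0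
  have hlin : ∀ i, (P.p i).coeff 1 = U i := fun i => by
    have h := hclose i 1 (by norm_num)
    rw [HahnSeries.coeff_sub, sub_eq_zero] at h
    rw [h]
    simp [P0]
  have hval : P.eval g ≠ 0 := fun h => hne' (by
    rw [← P.eval_lead U hlin g w.length hmin', h, HahnSeries.coeff_zero])
  -- the child
  obtain ⟨G⟩ := hG root _ hfull hK hM E P hgen
  have hWc : G.child.W = ⊥ := hW G.child ⟨G.full, G.two_le, ⟨G.mor⟩⟩
  have hbase : G.child.θ = P.eval root.f := G.base
  have hTT : ∀ v ∈ G.child.T, v ∈ LinearMap.range (G.child.S.ad G.child.θ) := by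
    intro v hv
    obtain ⟨z, hz, y, rfl⟩ := G.child.S.exists_cent_add_ad G.child.θ v
    have hy : G.child.S.ad G.child.θ y ∈ G.child.T := Submodule.mem_sup_right ⟨y, rfl⟩
    have hzT : z ∈ G.child.T := by simpa using Submodule.sub_mem _ hv hy
    have hz0 : z ∈ G.child.W := ⟨hzT, hz⟩
    rw [hWc, Submodule.mem_bot] at hz0
    exact ⟨y, by simp [hz0]⟩
  set x := P.eval root.f with hx
  have hkill : ∀ j, E.T.laurent.τ (x ^ j * eulerL x : LaurentSeries E.T.C) = 0 := by
    intro j
    have hdir : ∀ i n, (eulerL (P.p i)).coeff n ∈ E.E := fun i n =>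
      zsmul_mem (P.mem i n) n
    have hord : ∀ i, OrdGE 0 (eulerL (P.p i)) := fun i => ((P.small i).mono (by norm_num)).eulerL
    have hmem := G.tangent (fun i => eulerL (P.p i)) (eulerL x) hdir hord fun n => by
      rw [P.deriv_eq hord hdir, ← P.eulerL_eval]
    obtain ⟨y, hy⟩ := hTT _ hmem
    have hy' : E.T.laurent.ad x y = (eulerL x : LaurentSeries E.T.C) := by rw [hbase] at hy; exact hy
    rw [← hy']
    exact E.T.laurent.τ_cent_mul_ad (E.T.laurent.mem_cent.2 ((Commute.refl x).pow_right j).eq) y
  -- traces of the powers of the value of `g`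
  have hx0 : x.coeff 0 = E.emb.iC root.θ := by
    have h := P.eval_sub_trunc root.f 0 0 (by norm_num)
    rw [HahnSeries.coeff_sub, sub_eq_zero] at h
    rw [hx, h]
    simp [NS.trunc, Sym.ι, Obj.θ]
  have htr : ∀ Q : Polynomial root.S.F,
      (E.T.laurent.τ (P.eval (Polynomial.aeval root.f Q) : LaurentSeries E.T.C) : LaurentSeries E.T.F)
        = HahnSeries.C (E.T.τ (E.emb.iC (Polynomial.aeval root.θ Q))) := by
    intro Q
    induction Q using Polynomial.induction_on' with
    | add a b ha hb =>
      rw [map_add, P.eval_add, map_add, map_add, map_add, map_add, ← ha, ← hb]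
      exact map_add E.T.laurent.τ _ _
    | monomial k a =>
      rw [Polynomial.aeval_monomial, Polynomial.aeval_monomial, P.eval_mul, NS.algebraMap_eq,
        P.eval_const, ← Algebra.smul_def, E.iC_smul, map_smul, map_pow, ← P.evalHom_apply, map_pow]
      have e : E.ι (algebraMap root.S.F root.S.C a) =
          algebraMap (LaurentSeries E.T.F) (LaurentSeries E.T.C) (HahnSeries.C (E.emb.iF a)) := by
        rw [Sym.ι, RingHom.comp_apply, E.emb.compat]
        exact E.T.toLaurent.compat _
      rw [e, ← Algebra.smul_def, P.evalHom_apply, ← hx]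
      refine (map_smul E.T.laurent.τ _ _).trans ?_
      rw [laurent_τ_pow E.T x (P.eval_ordGE _) hkill k, hx0, smul_eq_mul, map_mul]
      rfl
  have hzero : ∀ m, 1 ≤ m → E.T.laurent.τ (P.eval g ^ m : LaurentSeries E.T.C) = 0 := by
    intro m hm
    have h := htr (q ^ m)
    rw [map_pow, map_pow (Polynomial.aeval root.θ), hq, minpoly.aeval, zero_pow (by omega), map_zero,
      map_zero, map_zero, ← hq, ← hg, ← P.evalHom_apply, map_pow, P.evalHom_apply] at h
    exact h
  exact hval (E.T.laurent.eq_zero_of_τ_pow hzero)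

end P199K
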