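import Mathlib

/-!
Homogeneous coefficient families with zero sums over rotation classes are sums of commutators
with the variables.
-/

namespace Vale.Agent.P199.Kurosh

open Finset

variable {k V ι : Type*} [Field k] [AddCommGroup V] [Module k V] {n : ℕ}

/-- The word with its last letter moved to the front. -/
theorem cons_last_init (w : Fin (n + 1) → ι) :
    (fun j => w (j - 1)) = Fin.cons (w (Fin.last n)) (Fin.init w) := by
  funext j
  refine Fin.cases ?_ (fun i => ?_) j
  · rw [Fin.cons_zero]
    congr 1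
    exact Fin.ext (by simp)
  · rw [Fin.cons_succ, Fin.init]
    congr 1
    rw [← Fin.coeSucc_eq_succ, add_sub_cancel_right]

/-- A family with zero rotation sums is `K w - K (w rotated)`. -/
theorem exists_sub_rotate_of_cyclic_zero [CharZero k] (c : (Fin (n + 1) → ι) → V)
    (h : ∀ w : Fin (n + 1) → ι, ∑ p : Fin (n + 1), c (fun j => w (p + j)) = 0) :
    ∃ K : (Fin (n + 1) → ι) → V, ∀ w, c w = K w - K (fun j => w (j - 1)) := by
  refine ⟨fun w => ((n : k) + 1)⁻¹ •
    ∑ p : Fin (n + 1), (p.val : k) • c (fun j => w (p + 1 + j)), fun w => ?_⟩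
  have hn : ((n : k) + 1) ≠ 0 := Nat.cast_add_one_ne_zero n
  set C : Fin (n + 1) → V := fun p => c (fun j => w (p + j))
  have e1 : ∀ p : Fin (n + 1), c (fun j => (fun i => w (i - 1)) (p + 1 + j)) = C p := fun p => by
    simp only [C]
    congr 1
    funext j
    congr 1
    abel
  have e2 : ∑ p : Fin (n + 1), (p.val : k) • C (p + 1)
      = ∑ q : Fin (n + 1), ((q - 1).val : k) • C q := by
    refine Fintype.sum_equiv (Equiv.addRight 1) _ _ fun p => ?_
    simp
  have e3 : ∀ q : Fin (n + 1), ((q - 1).val : k) - (q.val : k)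
      = (if q = 0 then ((n : k) + 1) else 0) - 1 := fun q => by
    rcases eq_or_ne q 0 with rfl | hq
    · simp
    · have := Fin.val_sub_one_of_ne_zero hq
      have hpos : 0 < q.val := Fin.pos_iff_ne_zero.2 hq |> Fin.lt_def.1 |> (by simpa using ·)
      rw [this, if_neg hq, Nat.cast_sub hpos, Nat.cast_one]
      ring
  have e4 : ∑ p : Fin (n + 1), (p.val : k) • C (p + 1) - ∑ p : Fin (n + 1), (p.val : k) • C p
      = ((n : k) + 1) • c w := by
    rw [e2, ← Finset.sum_sub_distrib]
    simp only [← sub_smul, e3]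
    simp only [sub_smul, ite_smul, zero_smul, one_smul, Finset.sum_sub_distrib, Finset.sum_ite_eq',
      Finset.mem_univ, if_true]
    rw [show ∑ p, C p = 0 from h w, sub_zero]
    simp [C]
  show c w = _ • ∑ p : Fin (n + 1), (p.val : k) • C (p + 1) - _ • _
  simp only [e1]
  rw [← smul_sub, e4, inv_smul_smul₀ hn]

/-- A family with zero rotation sums is a sum of commutators `[u s, G s]`. -/
theorem exists_commutator_of_cyclic_zero [CharZero k] (c : (Fin (n + 1) → ι) → V)
    (h : ∀ w : Fin (n + 1) → ι, ∑ p : Fin (n + 1), c (fun j => w (p + j)) = 0) :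
    ∃ G : ι → (Fin n → ι) → V, ∀ w,
      c w = G (w 0) (Fin.tail w) - G (w (Fin.last n)) (Fin.init w) := by
  obtain ⟨K, hK⟩ := exists_sub_rotate_of_cyclic_zero (k := k) c h
  refine ⟨fun s u => K (Fin.cons s u), fun w => ?_⟩
  rw [hK, cons_last_init]
  simp only [Fin.cons_self_tail]

omit [Field k] in
/-- Conversely, commutators with the variables have zero rotation sums. -/
theorem cyclic_zero_of_commutator (G : ι → (Fin n → ι) → V) (w : Fin (n + 1) → ι) :
    ∑ p : Fin (n + 1), (G (w (p + 0)) (Fin.tail fun j => w (p + j)) -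
      G (w (p + Fin.last n)) (Fin.init fun j => w (p + j))) = 0 := by
  rw [Finset.sum_sub_distrib, sub_eq_zero]
  refine Fintype.sum_equiv (Equiv.addRight 1) _ _ fun p => ?_
  simp only [Equiv.coe_addRight]
  congr 1
  · congr 1
    rw [add_assoc, add_comm 1 (Fin.last n), Fin.last_add_one]
  · funext i
    simp only [Fin.tail, Fin.init, ← Fin.coeSucc_eq_succ]
    congr 1
    rw [add_assoc, add_comm (1 : Fin (n + 1))]

end Vale.Agent.P199.Kurosh
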