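import Vale.Agent.P199.Kurosh.Final.Child

/-! The final step: a minimal state leads to an algebraic descendant. -/

open Module

namespace P199K

theorem final_holds (hMin : MinimalStmt) (hS : SymExistsStmt) (hA : ApproachExistsStmt)
    (hG : GrowExistsStmt) (hL : LimitStmt) (hV : VanishStmt) (hSub : SubstStmt) : FinalStmt := by
  intro root o ho
  obtain ⟨hW, -⟩ := hMin root o ho
  obtain ⟨m, hm, hind⟩ := Fin2.exists_model hMin ho
  obtain ⟨B⟩ := Fin2.exists_base ho hW m hind
  obtain ⟨E⟩ := hS o.S (max 5 (o.d + 1)) (by omega)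
  have hfull : o.Full := ho.state.1.1
  have hK : 2 ≤ o.K := ho.state.1.2.1
  obtain ⟨P, hgen, A, hn⟩ := hA o hfull hK hW m _ (by omega) E
  obtain ⟨G⟩ := hG o _ hfull hK (by omega) E P hgen
  obtain ⟨hmin, -, hlift⟩ := hL root o ho m _ hm (by omega) (by omega) E P A G
  let D : Fin2.Setup :=
    { root := root, o := o, ho := ho, hW := hW, m := m, B := B, M := _, hM := le_max_left _ _,
      E := E, P := P, A := A, hn := hn, G := G, ho' := hmin,
      hW' := (hMin root G.child hmin).1, lift := hlift }
  obtain ⟨Q⟩ := Fin2.Setup.exists_pairing (D := D) hV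
  exact Obj.good_of_pairing hSub hV D.ch_min Q

end P199K
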