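import Mathlib
import Vale.Agent.P199.Kurosh.Laurent
import Vale.Agent.P199.Kurosh.Alg
import Vale.Agent.P199.Kurosh.Eval

/-! Leading coefficients on the Laurent stage: the trace, lead spaces and closedness. -/

open Module

namespace P199K

/-! ### Orders -/

section Ord

variable {R : Type} [Ring R]

theorem OrdGE.coeff_mul {a b : ℤ} {x y : LaurentSeries R} (hx : OrdGE a x) (hy : OrdGE b y) :
    (x * y).coeff (a + b) = x.coeff a * y.coeff b := by
  rw [HahnSeries.coeff_mul]
  refine Finset.sum_eq_single (a, b) (fun p hp hne => ?_) (fun hnot => ?_)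
  · have h := (Finset.mem_antidiagonal.1 hp).2.2
    rcases lt_trichotomy p.1 a with h1 | h1 | h1
    · rw [hx _ h1, zero_mul]
    · exact absurd (Prod.ext h1 (by omega)) hne
    · rw [hy _ (by omega), mul_zero]
  · by_contra h
    exact hnot (Finset.mem_antidiagonal.2
      ⟨left_ne_zero_of_mul h, right_ne_zero_of_mul h, rfl⟩)

theorem exists_ordGE (x : LaurentSeries R) : ∃ n, OrdGE n x := by
  by_cases hx : x = 0
  · exact ⟨0, hx ▸ OrdGE.zero⟩
  · exact ⟨x.order, fun m hm => HahnSeries.coeff_eq_zero_of_lt_order hm⟩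

theorem ordGE_order (x : LaurentSeries R) : OrdGE x.order x :=
  fun _ hm => HahnSeries.coeff_eq_zero_of_lt_order hm

theorem eq_zero_of_forall_ordGE {x : LaurentSeries R} (h : ∀ n, OrdGE n x) : x = 0 := by
  ext m
  exact h (m + 1) m (by omega)

theorem ordGE_C (c : R) : OrdGE 0 (HahnSeries.C c : LaurentSeries R) := fun m hm => by
  rw [HahnSeries.C_apply, HahnSeries.coeff_single, if_neg hm.ne]

theorem ordGE_single (n : ℤ) (c : R) : OrdGE n (HahnSeries.single n c) := fun m hm => by
  rw [HahnSeries.coeff_single, if_neg hm.ne]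

end Ord

namespace Stg

variable (S : Stg)

/-- A functional of the base extended coefficientwise to Laurent series. -/
noncomputable def extFun (φ : S.C →ₗ[S.F] S.F) :
    LaurentSeries S.C →ₗ[LaurentSeries S.F] LaurentSeries S.F where
  toFun x := x.map φ
  map_add' x y := HahnSeries.ext (funext fun n => map_add φ _ _)
  map_smul' a x := by
    have hs : (x.map φ).support ⊆ x.support := fun n hn h0 => hn (by
      show φ (x.coeff n) = 0
      rw [h0, map_zero])
    have hs' : (laurentMap (algebraMap S.F S.C) a).support ⊆ a.support := fun n hn h0 => hn (by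
      rw [laurentMap_coeff, h0, map_zero])
    rw [Algebra.smul_def, RingHom.id_apply, smul_eq_mul, laurent_algebraMap]
    ext n
    show φ _ = _
    rw [HahnSeries.coeff_mul_left' a.isPWO_support hs',
      HahnSeries.coeff_mul_right' x.isPWO_support hs, map_sum]
    refine Finset.sum_congr rfl fun p _ => ?_
    rw [laurentMap_coeff, ← Algebra.smul_def, map_smul, smul_eq_mul]
    rfl

theorem extFun_coeff (φ : S.C →ₗ[S.F] S.F) (x : LaurentSeries S.C) (n : ℤ) :
    (S.extFun φ x).coeff n = φ (x.coeff n) := rfl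

theorem laurent_eq_sum (x : LaurentSeries S.C) :
    x = ∑ i, S.extFun (S.bas.coord i) x • HahnSeries.C (S.bas i) := by
  conv_lhs => rw [laurent_span S x]
  exact Finset.sum_congr rfl fun i _ => (Algebra.smul_def _ _).symm

theorem extFun_C (φ : S.C →ₗ[S.F] S.F) (c : S.C) :
    S.extFun φ (HahnSeries.C c) = HahnSeries.C (φ c) := by
  ext n
  rw [extFun_coeff, HahnSeries.C_apply, HahnSeries.C_apply]
  rcases eq_or_ne n 0 with rfl | hn
  · simp
  · simp [hn]

/-- The constants of a basis form a basis of the Laurent stage. -/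
noncomputable def lbas : Basis (Fin S.dim) (LaurentSeries S.F) (LaurentSeries S.C) :=
  Basis.ofEquivFun
    { toFun := fun x i => S.extFun (S.bas.coord i) x
      map_add' := fun x y => funext fun i => map_add _ x y
      map_smul' := fun a x => funext fun i => map_smul _ a x
      invFun := fun a => ∑ i, a i • HahnSeries.C (S.bas i)
      left_inv := fun x => (S.laurent_eq_sum x).symm
      right_inv := fun a => funext fun i => by
        show S.extFun (S.bas.coord i) (∑ j, a j • HahnSeries.C (S.bas j)) = a i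
        rw [map_sum, Finset.sum_eq_single i]
        · rw [map_smul, smul_eq_mul, extFun_C, Basis.coord_apply, Basis.repr_self,
            Finsupp.single_eq_same, map_one, mul_one]
        · intro j _ hj
          rw [map_smul, smul_eq_mul, extFun_C, Basis.coord_apply, Basis.repr_self,
            Finsupp.single_eq_of_ne hj.symm, map_zero, mul_zero]
        · simp }

theorem lbas_repr (x : LaurentSeries S.C) (i : Fin S.dim) :
    S.lbas.repr x i = S.extFun (S.bas.coord i) x := rfl

theorem lbas_apply (i : Fin S.dim) : S.lbas i = HahnSeries.C (S.bas i) := by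
  rw [lbas, Basis.coe_ofEquivFun]
  show ∑ j, (Pi.single i 1 : Fin S.dim → LaurentSeries S.F) j • HahnSeries.C (S.bas j) = _
  rw [Finset.sum_eq_single i]
  · rw [Pi.single_eq_same, one_smul]
  · intro j _ hj
    rw [Pi.single_eq_of_ne hj, zero_smul]
  · simp

theorem finrank_laurentSeries :
    finrank (LaurentSeries S.F) (LaurentSeries S.C) = S.dim :=
  (Module.finrank_eq_card_basis S.lbas).trans (Fintype.card_fin _)

theorem laurent_dim : S.laurent.dim = S.dim := S.finrank_laurentSeries

theorem trace_mulLeft_coeff (x : LaurentSeries S.C) (n : ℤ) :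
    (LinearMap.trace (LaurentSeries S.F) (LaurentSeries S.C)
      (LinearMap.mulLeft (LaurentSeries S.F) x)).coeff n = S.τ (x.coeff n) := by
  rw [τ_apply, LinearMap.trace_eq_matrix_trace _ S.lbas,
    LinearMap.trace_eq_matrix_trace _ S.bas, Matrix.trace, Matrix.trace, HahnSeries.coeff_sum]
  refine Finset.sum_congr rfl fun i _ => ?_
  simp only [Matrix.diag_apply, LinearMap.toMatrix_apply, LinearMap.mulLeft_apply, lbas_repr,
    lbas_apply, extFun_coeff]
  rw [HahnSeries.C_apply, HahnSeries.coeff_mul_single_zero]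
  rfl

/-- The trace is computed coefficientwise. -/
theorem laurent_τ_coeff (x : LaurentSeries S.C) (n : ℤ) :
    (S.laurent.τ (x : S.laurent.C) : LaurentSeries S.F).coeff n = S.τ (x.coeff n) :=
  S.trace_mulLeft_coeff x n

theorem smul_ordGE {a : LaurentSeries S.F} {x : LaurentSeries S.C} {m n : ℤ}
    (ha : OrdGE m a) (hx : OrdGE n x) :
    OrdGE (m + n) (a • x) ∧ (a • x).coeff (m + n) = a.coeff m • x.coeff n := by
  have ha' : OrdGE m (laurentMap (algebraMap S.F S.C) a) := fun k hk => by
    rw [laurentMap_coeff, ha k hk, map_zero]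
  rw [Algebra.smul_def, laurent_algebraMap]
  refine ⟨ha'.mul hx, (ha'.coeff_mul hx).trans ?_⟩
  rw [laurentMap_coeff, ← Algebra.smul_def]

theorem C_smul_coeff (r : S.F) (x : LaurentSeries S.C) (n : ℤ) :
    ((HahnSeries.C r : LaurentSeries S.F) • x).coeff n = r • x.coeff n := by
  have h : laurentMap (algebraMap S.F S.C) (HahnSeries.C r) = HahnSeries.C (algebraMap S.F S.C r) :=
    HahnSeries.map_C r (algebraMap S.F S.C)
  rw [Algebra.smul_def, laurent_algebraMap, h, HahnSeries.C_apply,
    HahnSeries.coeff_single_zero_mul, ← Algebra.smul_def]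

/-- Leading coefficients of the integral elements of a subspace of the Laurent stage. -/
noncomputable def leadSp (V : Submodule (LaurentSeries S.F) (LaurentSeries S.C)) :
    Submodule S.F S.C where
  carrier := {c | ∃ x : LaurentSeries S.C, x ∈ V ∧ OrdGE 0 x ∧ x.coeff 0 = c}
  zero_mem' := ⟨0, V.zero_mem, OrdGE.zero, rfl⟩
  add_mem' := by
    rintro _ _ ⟨x, hx, hx0, rfl⟩ ⟨y, hy, hy0, rfl⟩
    exact ⟨x + y, V.add_mem hx hy, hx0.add hy0, rfl⟩
  smul_mem' := by
    rintro r _ ⟨x, hx, hx0, rfl⟩
    refine ⟨_, V.smul_mem (HahnSeries.C r) hx, fun m hm => ?_, S.C_smul_coeff r x 0⟩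
    rw [C_smul_coeff, hx0 m hm, smul_zero]

variable {S}

theorem mem_leadSp {V : Submodule (LaurentSeries S.F) (LaurentSeries S.C)} {c : S.C} :
    c ∈ S.leadSp V ↔ ∃ x : LaurentSeries S.C, x ∈ V ∧ OrdGE 0 x ∧ x.coeff 0 = c :=
  Iff.rfl

theorem leadSp_mono {V V' : Submodule (LaurentSeries S.F) (LaurentSeries S.C)} (h : V ≤ V') :
    S.leadSp V ≤ S.leadSp V' := fun _ ⟨x, hx, hx0, hc⟩ => ⟨x, h hx, hx0, hc⟩

/-- A nonzero element can be shifted to order zero inside its line. -/
theorem exists_normalised {V : Submodule (LaurentSeries S.F) (LaurentSeries S.C)}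
    {x : LaurentSeries S.C} (hx : x ∈ V) (hx0 : x ≠ 0) :
    ∃ y : LaurentSeries S.C, y ∈ V ∧ OrdGE 0 y ∧ y.coeff 0 = x.coeff x.order ∧ y.coeff 0 ≠ 0 := by
  obtain ⟨h1, h2⟩ := S.smul_ordGE (ordGE_single (-x.order) (1 : S.F)) (ordGE_order x)
  rw [neg_add_cancel] at h1 h2
  rw [HahnSeries.coeff_single_same, one_smul] at h2
  exact ⟨_, V.smul_mem _ hx, h1, h2, h2 ▸ HahnSeries.coeff_order_eq_zero.not.2 hx0⟩

theorem finrank_leadSp_le (V : Submodule (LaurentSeries S.F) (LaurentSeries S.C)) :
    finrank S.F (S.leadSp V) ≤ finrank (LaurentSeries S.F) V := by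
  classical
  let l := Module.finBasis S.F (S.leadSp V)
  choose w hwV hw0 hwc using fun i => (l i).2
  have hli : LinearIndependent (LaurentSeries S.F) (fun i => (⟨w i, hwV i⟩ : V)) := by
    refine LinearIndependent.of_comp V.subtype (Fintype.linearIndependent_iff.2 fun g hg => ?_)
    by_contra hne
    push Not at hne
    obtain ⟨i₀, hi₀, hmin⟩ := (Finset.univ.filter fun i => g i ≠ 0).exists_min_image
      (fun i => (g i).order) (hne.imp fun i hi => by simp [hi])
    set m := (g i₀).order with hm
    have hg' : ∀ i, OrdGE m (g i) := fun i => by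
      by_cases h : g i = 0
      · rw [h]
        exact OrdGE.zero
      · exact OrdGE.mono (hmin i (by simp [h])) (ordGE_order _)
    have hz : ∑ i, (g i).coeff m • ((l i : S.C)) = 0 := by
      have h1 := congrArg (fun z : LaurentSeries S.C => z.coeff m) hg
      simp only [HahnSeries.coeff_sum, HahnSeries.coeff_zero, Function.comp_apply,
        Submodule.subtype_apply] at h1
      refine Eq.trans (Finset.sum_congr rfl fun i _ => ?_) h1
      have h := (S.smul_ordGE (hg' i) (hw0 i)).2
      rw [add_zero, hwc i] at h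
      exact h.symm
    have hli := Fintype.linearIndependent_iff.1
      (l.linearIndependent.map' (S.leadSp V).subtype (Submodule.ker_subtype _)) _ hz i₀
    exact HahnSeries.coeff_order_eq_zero.not.2 (Finset.mem_filter.1 hi₀).2 hli
  simpa using hli.fintype_card_le_finrank

theorem le_finrank_leadSp (V : Submodule (LaurentSeries S.F) (LaurentSeries S.C)) :
    finrank (LaurentSeries S.F) V ≤ finrank S.F (S.leadSp V) := by
  induction hr : finrank (LaurentSeries S.F) V using Nat.strong_induction_on generalizing V with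
  | _ r ih =>
    subst hr
    rcases eq_or_ne V ⊥ with rfl | hV
    · simp
    obtain ⟨x, hx, hx0⟩ := (Submodule.ne_bot_iff V).1 hV
    obtain ⟨y, hyV, hy0, -, hyne⟩ := exists_normalised hx hx0
    obtain ⟨φ, hφ, -⟩ := Submodule.exists_le_ker_of_notMem (p := (⊥ : Submodule S.F S.C))
      (v := y.coeff 0) (by simpa using hyne)
    let ψ := (S.extFun φ).domRestrict V
    let V' := (LinearMap.ker ψ).map V.subtype
    have hV' : finrank (LaurentSeries S.F) V' = finrank (LaurentSeries S.F) (LinearMap.ker ψ) :=
      Submodule.finrank_map_subtype_eq V _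
    have hrn := LinearMap.finrank_range_add_finrank_ker ψ
    have hrange : finrank (LaurentSeries S.F) (LinearMap.range ψ) ≤ 1 :=
      (Submodule.finrank_le _).trans_eq (Module.finrank_self _)
    have hker : ∀ z ∈ V', ∀ n, φ (z.coeff n) = 0 := by
      rintro _ ⟨z, hz, rfl⟩ n
      exact congrArg (fun a : LaurentSeries S.F => a.coeff n) hz
    have hle : V' ≤ V := Submodule.map_subtype_le V _
    have hlt : finrank (LaurentSeries S.F) V' < finrank (LaurentSeries S.F) V :=
      Submodule.finrank_lt_finrank_of_lt (lt_of_le_of_ne hle fun h => hφ (hker y (h ▸ hyV) 0))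
    have hih := ih _ hlt V' rfl
    have hlt' : S.leadSp V' < S.leadSp V := by
      refine lt_of_le_of_ne (leadSp_mono hle) fun h => hφ ?_
      obtain ⟨z, hz, -, hz0⟩ : y.coeff 0 ∈ S.leadSp V' := h ▸ ⟨y, hyV, hy0, rfl⟩
      rw [← hz0]
      exact hker z hz 0
    have hlt'' := Submodule.finrank_lt_finrank_of_lt hlt'
    omega

/-- The lead space of a subspace has the same dimension. -/
theorem finrank_leadSp (V : Submodule (LaurentSeries S.F) (LaurentSeries S.C)) :
    finrank S.F (S.leadSp V) = finrank (LaurentSeries S.F) V :=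
  le_antisymm (finrank_leadSp_le V) (le_finrank_leadSp V)

/-- The same, stated on the Laurent stage. -/
theorem finrank_leadSp_laurent (V : Submodule S.laurent.F S.laurent.C) :
    finrank S.F (S.leadSp V) = finrank S.laurent.F V :=
  finrank_leadSp V

/-- The lead space of the orthogonal is the orthogonal of the lead space. -/
theorem leadSp_orth (V : Submodule S.laurent.F S.laurent.C) :
    S.leadSp (S.laurent.orth V) = S.orth (S.leadSp V) := by
  refine Submodule.eq_of_le_of_finrank_eq ?_ ?_
  · rintro _ ⟨z, hz, hz0, rfl⟩ _ ⟨v, hv, hv0, rfl⟩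
    have h2 := congrArg (fun a : LaurentSeries S.F => a.coeff 0) (hz _ hv)
    have h3 : (z * v).coeff 0 = z.coeff 0 * v.coeff 0 := hz0.coeff_mul hv0
    rw [← h3, ← S.laurent_τ_coeff (z * v) 0]
    exact h2
  · calc finrank S.F (S.leadSp (S.laurent.orth V))
        = finrank S.laurent.F (S.laurent.orth V) := finrank_leadSp_laurent _
      _ = S.laurent.dim - finrank S.laurent.F V := finrank_orth V
      _ = S.dim - finrank S.F (S.leadSp V) := by rw [laurent_dim, finrank_leadSp_laurent]
      _ = _ := (finrank_orth _).symm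

/-- Finite-dimensional subspaces of the Laurent stage are closed. -/
theorem mem_of_forall_approx (V : Submodule (LaurentSeries S.F) (LaurentSeries S.C))
    (x : LaurentSeries S.C) (h : ∀ N : ℤ, ∃ v ∈ V, OrdGE N (x - v)) : x ∈ V := by
  by_contra hx
  obtain ⟨f, hf, hle⟩ := Submodule.exists_le_ker_of_notMem hx
  refine hf ?_
  have hb : ∀ z, f z = ∑ i, S.extFun (S.bas.coord i) z * f (HahnSeries.C (S.bas i)) := fun z => by
    conv_lhs => rw [S.laurent_eq_sum z]
    simp only [map_sum, map_smul, smul_eq_mul]
  choose m hm using fun i => exists_ordGE (f (HahnSeries.C (S.bas i)))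
  obtain ⟨M, hM⟩ := (Set.finite_range m).bddBelow
  refine eq_zero_of_forall_ordGE (R := S.F) fun N => ?_
  obtain ⟨v, hv, hxv⟩ := h (N - M)
  have h1 : f x = f (x - v) := by rw [map_sub, LinearMap.mem_ker.1 (hle hv), sub_zero]
  rw [h1, hb]
  refine OrdGE.sum _ _ fun i _ => ?_
  have h2 : OrdGE (N - M) (S.extFun (S.bas.coord i) (x - v)) := fun k hk => by
    rw [extFun_coeff, hxv k hk, map_zero]
  exact OrdGE.mono (by linarith [hM ⟨i, rfl⟩]) (h2.mul (hm i))

end Stg

end P199K
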