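import Mathlib
import Vale.Agent.P199.Kurosh.Stage

/-!
# P199: commutative subalgebras of a stage, ratio algebra and line of a state
-/

open Module Submodule

namespace P199K

namespace Stg

variable {S : Stg}

/-- A subalgebra of a finite-dimensional division algebra is closed under inversion. -/
lemma inv_mem (K : Subalgebra S.F S.C) {x : S.C} (hx : x ∈ K) : x⁻¹ ∈ K := by
  rcases eq_or_ne x 0 with rfl | h0
  · simp
  let f : K →ₗ[S.F] K := LinearMap.mulLeft S.F (⟨x, hx⟩ : K)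
  have hinj : Function.Injective f := fun a b hab => Subtype.ext
    (mul_left_cancel₀ h0 (congrArg Subtype.val hab))
  obtain ⟨y, hy⟩ := (LinearMap.injective_iff_surjective.1 hinj) 1
  rw [show x⁻¹ = (y : S.C) from inv_eq_of_mul_eq_one_right (congrArg Subtype.val hy)]
  exact y.2

lemma gen_mul {θ a b : S.C} (ha : a ∈ S.gen θ) (hb : b ∈ S.gen θ) : a * b ∈ S.gen θ :=
  Subalgebra.mul_mem _ ha hb

lemma gen_pow {θ a : S.C} (ha : a ∈ S.gen θ) (n : ℕ) : a ^ n ∈ S.gen θ :=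
  Subalgebra.pow_mem _ ha n

lemma gen_inv {θ a : S.C} (ha : a ∈ S.gen θ) : a⁻¹ ∈ S.gen θ :=
  inv_mem (Algebra.adjoin S.F ({θ} : Set S.C)) ha

lemma gen_self (θ : S.C) : θ ∈ S.gen θ := Algebra.self_mem_adjoin_singleton _ _

lemma gen_comm {θ a b : S.C} (ha : a ∈ S.gen θ) (hb : b ∈ S.gen θ) : a * b = b * a := by
  have h1 : Commute a θ := by
    refine (Algebra.commute_of_mem_adjoin_of_forall_mem_commute ha ?_).symm
    rintro _ rfl
    exact Commute.refl _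
  refine (Algebra.commute_of_mem_adjoin_of_forall_mem_commute hb ?_).eq
  rintro _ rfl
  exact h1

lemma mem_cent {θ a : S.C} : a ∈ S.cent θ ↔ θ * a = a * θ := by
  simp [Stg.cent, Stg.ad, sub_eq_zero]

lemma gen_le_cent (θ : S.C) : S.gen θ ≤ S.cent θ := fun _ ha =>
  mem_cent.2 (gen_comm (gen_self θ) ha)

end Stg

namespace Obj

variable (o : Obj)

/-- The span of the products `a ^ i * b ^ (n - i) * w`. -/
def layer (a b : o.S.C) (n : ℕ) : Submodule o.S.F o.S.C :=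
  span o.S.F {z | ∃ i ≤ n, ∃ w ∈ o.W, z = a ^ i * b ^ (n - i) * w}

/-- The ratio algebra as a subalgebra. -/
def L0alg : Subalgebra o.S.F o.S.C :=
  Algebra.adjoin o.S.F {x : o.S.C | ∃ a ∈ o.W, ∃ b ∈ o.W, b ≠ 0 ∧ x = a * b⁻¹}

lemma L0_eq : o.L0 = Subalgebra.toSubmodule o.L0alg := rfl

lemma ratio_mem_L0 {a b : o.S.C} (ha : a ∈ o.W) (hb : b ∈ o.W) (h0 : b ≠ 0) :
    a * b⁻¹ ∈ o.L0 :=
  Algebra.subset_adjoin ⟨a, ha, b, hb, h0, rfl⟩

lemma L0_le_gen (hW : o.W ≤ o.S.gen o.θ) : o.L0 ≤ o.S.gen o.θ := by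
  refine (Subalgebra.toSubmodule).monotone (Algebra.adjoin_le ?_)
  rintro _ ⟨a, ha, b, hb, -, rfl⟩
  exact Stg.gen_mul (hW ha) (Stg.gen_inv (hW hb))

lemma inv_mul_mem_L0 (hW : o.W ≤ o.S.gen o.θ) {ω w : o.S.C} (hω : ω ∈ o.W) (h0 : ω ≠ 0)
    (hw : w ∈ o.W) : ω⁻¹ * w ∈ o.L0 := by
  rw [Stg.gen_comm (Stg.gen_inv (hW hω)) (hW hw)]
  exact o.ratio_mem_L0 hw hω h0

lemma r_le_d0 (hW : o.W ≤ o.S.gen o.θ) : o.r ≤ o.d0 := by
  by_cases h : o.W = ⊥
  · rw [Obj.r, h, finrank_bot]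
    exact Nat.zero_le _
  obtain ⟨ω, hω, h0⟩ := Submodule.exists_mem_ne_zero_of_ne_bot h
  have hle : o.W ≤ o.L0.map (LinearMap.mulLeft o.S.F ω) := fun w hw =>
    ⟨ω⁻¹ * w, o.inv_mul_mem_L0 hW hω h0 hw, by simp [h0]⟩
  exact (Submodule.finrank_mono hle).trans (Submodule.finrank_map_le _ _)

lemma W_le_layer_zero (a b : o.S.C) : o.W ≤ o.layer a b 0 := fun w hw =>
  subset_span ⟨0, le_rfl, w, hw, by simp⟩

lemma r_le_finrank_layer_zero (a b : o.S.C) : o.r ≤ finrank o.S.F (o.layer a b 0) :=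
  Submodule.finrank_mono (o.W_le_layer_zero a b)

lemma finrank_map_mulLeft {ω : o.S.C} (h0 : ω ≠ 0) (V : Submodule o.S.F o.S.C) :
    finrank o.S.F (V.map (LinearMap.mulLeft o.S.F ω)) = finrank o.S.F V :=
  ((Submodule.equivMapOfInjective _ (mul_right_injective₀ h0) V).finrank_eq).symm

/-- Case B: a pair of translates spanning the ratio algebra makes every higher layer full. -/
lemma d0_le_finrank_layer (hW : o.W ≤ o.S.gen o.θ) {ω w0 w1 : o.S.C} (hω : ω ∈ o.W) (h0 : ω ≠ 0)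
    (hw0 : w0 ≠ 0) (hm0 : ω * w0 ∈ o.W) (hm1 : ω * w1 ∈ o.W)
    (hsp : ∀ x ∈ o.L0, ∃ a b : o.S.C, ω * a ∈ o.W ∧ ω * b ∈ o.W ∧ x = w0 * a + w1 * b)
    {n : ℕ} (hn : 1 ≤ n) : o.d0 ≤ finrank o.S.F (o.layer (ω * w0) (ω * w1) n) := by
  have hg : ω ∈ o.S.gen o.θ := hW hω
  have hmem : ∀ {u : o.S.C}, ω * u ∈ o.W → u ∈ o.S.gen o.θ := fun {u} hu => by
    rw [show u = ω⁻¹ * (ω * u) by simp [h0]]
    exact Stg.gen_mul (Stg.gen_inv hg) (hW hu)
  suffices hle : o.L0.map (LinearMap.mulLeft o.S.F (ω ^ (n + 1))) ≤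
      o.layer (ω * w0) (ω * w1) n by
    rw [Obj.d0, ← o.finrank_map_mulLeft (pow_ne_zero (n + 1) h0) o.L0]
    exact Submodule.finrank_mono hle
  induction n, hn using Nat.le_induction with
  | base =>
    rintro _ ⟨x, hx, rfl⟩
    obtain ⟨a, b, ha, hb, rfl⟩ := hsp x hx
    have h1 : ∀ {u v : o.S.C}, ω * u ∈ o.W → ω * v ∈ o.W →
        ω ^ 2 * (u * v) = ω * u * (ω * v) := by
      intro u v hu hv
      rw [pow_two, mul_assoc, ← mul_assoc ω u v, Stg.gen_comm hg (hmem hu), mul_assoc, mul_assoc,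
        ← mul_assoc ω u (ω * v), Stg.gen_comm hg (hmem hu), mul_assoc]
    simp only [LinearMap.mulLeft_apply]
    rw [mul_add, h1 hm0 ha, h1 hm1 hb]
    exact Submodule.add_mem _ (subset_span ⟨1, le_rfl, _, ha, by simp⟩)
      (subset_span ⟨0, Nat.zero_le _, _, hb, by simp⟩)
  | succ n hn ih =>
    rintro _ ⟨x, hx, rfl⟩
    have hw0L : w0 ∈ o.L0 := by
      rw [show w0 = ω⁻¹ * (ω * w0) by simp [h0]]
      exact o.inv_mul_mem_L0 hW hω h0 hm0
    have hx' : w0⁻¹ * x ∈ o.L0 := Subalgebra.mul_mem o.L0alg (Stg.inv_mem o.L0alg hw0L) hx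
    have hstep : (o.layer (ω * w0) (ω * w1) n).map (LinearMap.mulLeft o.S.F (ω * w0)) ≤
        o.layer (ω * w0) (ω * w1) (n + 1) := by
      rw [Obj.layer, Submodule.map_span, span_le]
      rintro _ ⟨_, ⟨i, hi, w, hw, rfl⟩, rfl⟩
      refine subset_span ⟨i + 1, by omega, w, hw, ?_⟩
      simp only [LinearMap.mulLeft_apply, pow_succ', Nat.add_sub_add_right, mul_assoc]
    have h := hstep ⟨_, ih ⟨_, hx', rfl⟩, rfl⟩
    convert h using 1
    simp only [LinearMap.mulLeft_apply]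
    rw [pow_succ' ω (n + 1), mul_assoc, mul_assoc ω w0, ← mul_assoc w0,
      Stg.gen_comm (hmem hm0) (Stg.gen_pow hg _), mul_assoc (ω ^ (n + 1)),
      ← mul_assoc w0 w0⁻¹, mul_inv_cancel₀ hw0, one_mul]

/-- Case A: a ratio whose powers span the ratio algebra makes the high layers full. -/
lemma d0_le_finrank_layer_of_powers (hW : o.W ≤ o.S.gen o.θ) {ω r : o.S.C} (hω : ω ∈ o.W)
    (h0 : ω ≠ 0) (hr : ω * r ∈ o.W)
    (hsp : o.L0 ≤ span o.S.F (Set.range fun i : Fin o.d0 => r ^ (i : ℕ)))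
    {n : ℕ} (hn : o.d0 ≤ n + 1) : o.d0 ≤ finrank o.S.F (o.layer ω (ω * r) n) := by
  have hg : ω ∈ o.S.gen o.θ := hW hω
  have hrg : r ∈ o.S.gen o.θ := by
    rw [show r = ω⁻¹ * (ω * r) by simp [h0]]
    exact Stg.gen_mul (Stg.gen_inv hg) (hW hr)
  suffices hle : o.L0.map (LinearMap.mulLeft o.S.F (ω ^ (n + 1))) ≤
      o.layer ω (ω * r) n by
    rw [Obj.d0, ← o.finrank_map_mulLeft (pow_ne_zero (n + 1) h0) o.L0]
    exact Submodule.finrank_mono hle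
  refine (Submodule.map_mono hsp).trans ?_
  rw [Submodule.map_span, span_le]
  rintro _ ⟨_, ⟨i, rfl⟩, rfl⟩
  have hi := i.isLt
  refine subset_span ⟨n - i, Nat.sub_le _ _, ω, hω, ?_⟩
  simp only [LinearMap.mulLeft_apply]
  rw [Nat.sub_sub_self (by omega : (i : ℕ) ≤ n), Commute.mul_pow (Stg.gen_comm hg hrg : Commute ω r),
    mul_assoc, mul_assoc, Stg.gen_comm (Stg.gen_pow hrg _) hg, ← mul_assoc (ω ^ (i : ℕ)),
    ← pow_succ, ← mul_assoc (ω ^ (n - _)), ← pow_add]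
  congr 2
  omega

end Obj

end P199K
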