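import Mathlib

/-!
# P199: interface for a symbol extension `C ⊗ (X^M = x, Y^M = y, Y X = q X Y)`

A structure listing what later modules use: the inclusion, the two generators and the coefficient
map in the monomial basis.
-/

namespace Vale.P199K

/-- `A` is `C` extended by a symbol algebra of degree `M`. -/
structure SymbolExt (F C A : Type*) [Field F] [Ring C] [Algebra F C] [Ring A] [Algebra F A] where
  M : ℕ
  M_pos : 0 < M
  inc : C →ₐ[F] A
  X : A
  Y : A
  q : F
  q_prim : IsPrimitiveRoot q M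
  x : F
  y : F
  x_ne : x ≠ 0
  y_ne : y ≠ 0
  commX : ∀ c, Commute (inc c) X
  commY : ∀ c, Commute (inc c) Y
  rel : Y * X = q • (X * Y)
  X_pow : X ^ M = algebraMap F A x
  Y_pow : Y ^ M = algebraMap F A y
  coef : A →ₗ[F] (Fin M → Fin M → C)
  coef_mono : ∀ (c : C) (i j i' j' : Fin M),
    coef (inc c * (X ^ (i : ℕ) * Y ^ (j : ℕ))) i' j' = if i = i' ∧ j = j' then c else 0
  sum_coef : ∀ a, ∑ i, ∑ j, inc (coef a i j) * (X ^ (i : ℕ) * Y ^ (j : ℕ)) = a

namespace SymbolExt

variable {F C A : Type*} [Field F] [Ring C] [Algebra F C] [Ring A] [Algebra F A]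
  (E : SymbolExt F C A)


/-- Exponents reduced modulo `M`. -/
def idx (n : ℕ) : Fin E.M := ⟨n % E.M, Nat.mod_lt _ E.M_pos⟩

lemma X_pow_reduce (n : ℕ) :
    E.X ^ n = E.x ^ (n / E.M) • E.X ^ (n % E.M) := by
  conv_lhs => rw [← Nat.div_add_mod n E.M, pow_add, pow_mul, E.X_pow, ← map_pow,
    ← Algebra.smul_def]

lemma Y_pow_reduce (n : ℕ) :
    E.Y ^ n = E.y ^ (n / E.M) • E.Y ^ (n % E.M) := by
  conv_lhs => rw [← Nat.div_add_mod n E.M, pow_add, pow_mul, E.Y_pow, ← map_pow,
    ← Algebra.smul_def]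

/-- Coefficients of an arbitrary monomial. -/
lemma coef_inc_monomial (c : C) (n m : ℕ) (i j : Fin E.M) :
    E.coef (E.inc c * (E.X ^ n * E.Y ^ m)) i j =
      if E.idx n = i ∧ E.idx m = j then (E.x ^ (n / E.M) * E.y ^ (m / E.M)) • c else 0 := by
  rw [E.X_pow_reduce n, E.Y_pow_reduce m, smul_mul_smul_comm, mul_smul_comm, map_smul,
    Pi.smul_apply, Pi.smul_apply]
  have := E.coef_mono c (E.idx n) (E.idx m) i j
  rw [show E.coef (E.inc c * (E.X ^ (n % E.M) * E.Y ^ (m % E.M))) i j = _ from this, smul_ite,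
    smul_zero]

lemma ext {a b : A} (h : ∀ i j, E.coef a i j = E.coef b i j) : a = b := by
  rw [← E.sum_coef a, ← E.sum_coef b]
  simp [h]

lemma coef_inc_mul (k : C) (a : A) (i j : Fin E.M) :
    E.coef (E.inc k * a) i j = k * E.coef a i j := by
  conv_lhs => rw [← E.sum_coef a]
  simp only [Finset.mul_sum, ← mul_assoc (E.inc k) (E.inc _), ← map_mul, map_sum, Finset.sum_apply,
    E.coef_mono, ite_and, Finset.sum_ite_eq', Finset.sum_ite_irrel, Finset.sum_const_zero,
    Finset.mem_univ, if_true]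

lemma coef_mul_inc (k : C) (a : A) (i j : Fin E.M) :
    E.coef (a * E.inc k) i j = E.coef a i j * k := by
  conv_lhs => rw [← E.sum_coef a]
  simp only [Finset.sum_mul, mul_assoc (E.inc _) _ (E.inc k),
    (((E.commX k).pow_right _).mul_right ((E.commY k).pow_right _)).symm.eq,
    ← mul_assoc (E.inc _) (E.inc k), ← map_mul, map_sum, Finset.sum_apply,
    E.coef_mono, ite_and, Finset.sum_ite_eq', Finset.sum_ite_irrel, Finset.sum_const_zero,
    Finset.mem_univ, if_true]

end SymbolExt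

end Vale.P199K
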