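import Mathlib
import Vale.Agent.P199.QBinom
import Vale.Agent.P199.Kurosh.Centralizer
import Vale.Agent.P199.Kurosh.SymbolExt

/-!
# P199: the space `K(Z)` (RANK)

`Z = a X + b Y` with `a, b` in a commutative subfield `L` of `C`.  `ker W` is the set of elements of
`A = C ⊗ E` commuting with `L` and `Z` and orthogonal to `W ⊗ E`.  Its dimension is computed.
-/

namespace Vale.P199K

namespace Rank

open Module Submodule Finset Vale.Agent.P199

variable {F C A L : Type*} [Field F] [Ring C] [Algebra F C] [Ring A] [Algebra F A]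
  [Field L] [Algebra F L]
  (E : SymbolExt F C A) (ι : L →ₐ[F] C) (a b : L) (τ : C →ₗ[F] F) (W : Submodule F L)

/-- The element `Z`. -/
def Z : A := E.inc (ι a) * E.X + E.inc (ι b) * E.Y

lemma Z_pow (n : ℕ) : Z E ι a b ^ n = ∑ i ∈ range (n + 1),
    qbin E.q n i • (E.inc (ι (a ^ i * b ^ (n - i))) * (E.X ^ i * E.Y ^ (n - i))) := by
  rw [Z, qbinom_theorem E.rel (show Commute (E.inc (ι a)) (E.inc (ι b)) from
    ((Commute.all a b).map ι).map E.inc) (E.commX _) (E.commY _) (E.commX _) (E.commY _)]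
  simp only [← map_pow, ← map_mul]

lemma Z_pow_M : Z E ι a b ^ E.M = E.inc (ι (E.x • a ^ E.M + E.y • b ^ E.M)) := by
  rw [Z, qbinom_pow_order E.M_pos E.q_prim E.rel (show Commute (E.inc (ι a)) (E.inc (ι b)) from
    ((Commute.all a b).map ι).map E.inc) (E.commX _) (E.commY _) (E.commX _) (E.commY _),
    E.X_pow, E.Y_pow, ← Algebra.commutes,
    ← Algebra.commutes, ← Algebra.smul_def, ← Algebra.smul_def]
  simp only [map_add, map_smul, map_pow]

lemma Z_comm_inc {μ : C} (hμ : μ ∈ Centralizer.space ι) :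
    Commute (E.inc μ) (Z E ι a b) := by
  rw [Centralizer.mem_space] at hμ
  have hl : ∀ l, Commute (E.inc μ) (E.inc (ι l)) := fun l => (show Commute μ (ι l) from
    (hμ l).symm).map E.inc
  exact ((hl a).mul_right (E.commX μ)).add_right ((hl b).mul_right (E.commY μ))

/-- The coefficients of `μ Z ^ n`, `n < M`. -/
lemma coef_inc_mul_Z_pow (μ : C) (n i j : Fin E.M) :
    E.coef (E.inc μ * Z E ι a b ^ (n : ℕ)) i j = if (i : ℕ) + j = n then
      qbin E.q n i • (μ * ι (a ^ (i : ℕ) * b ^ (j : ℕ))) else 0 := by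
  rw [Z_pow, Finset.mul_sum, map_sum, Finset.sum_apply, Finset.sum_apply]
  have hterm : ∀ k ∈ range ((n : ℕ) + 1), E.coef (E.inc μ * (qbin E.q n k •
      (E.inc (ι (a ^ k * b ^ ((n : ℕ) - k))) * (E.X ^ k * E.Y ^ ((n : ℕ) - k))))) i j =
      if k = i ∧ (n : ℕ) - k = j then qbin E.q n k • (μ * ι (a ^ k * b ^ ((n : ℕ) - k))) else 0 := by
    intro k hk
    have hk' : k ≤ n := Nat.lt_succ_iff.1 (mem_range.1 hk)
    have hkM : k < E.M := lt_of_le_of_lt hk' n.isLt
    have hjM : (n : ℕ) - k < E.M := lt_of_le_of_lt (Nat.sub_le _ _) n.isLt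
    have := E.coef_mono (μ * ι (a ^ k * b ^ ((n : ℕ) - k))) ⟨k, hkM⟩ ⟨_, hjM⟩ i j
    rw [mul_smul_comm, map_smul, Pi.smul_apply, Pi.smul_apply, ← mul_assoc, ← map_mul, this,
      smul_ite, smul_zero]
    simp only [Fin.ext_iff]
  rw [Finset.sum_congr rfl hterm]
  by_cases h : (i : ℕ) + j = n
  · rw [if_pos h, Finset.sum_eq_single (i : ℕ)]
    · rw [if_pos ⟨rfl, by omega⟩, show (n : ℕ) - i = j by omega]
    · exact fun k _ hk => if_neg fun hh => hk hh.1
    · exact fun hh => absurd (mem_range.2 (by omega)) hh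
  · rw [if_neg h]
    refine Finset.sum_eq_zero fun k hk => if_neg fun hh => h ?_
    have := mem_range.1 hk
    omega

/-- Elements commuting with `L` and with `Z`. -/
def commutant : Submodule F A where
  carrier := {z | (∀ l, E.inc (ι l) * z = z * E.inc (ι l)) ∧ Z E ι a b * z = z * Z E ι a b}
  add_mem' := fun {u v} hu hv => ⟨fun l => by rw [mul_add, add_mul, hu.1, hv.1],
    by rw [mul_add, add_mul, hu.2, hv.2]⟩
  zero_mem' := ⟨fun l => by simp, by simp⟩
  smul_mem' := fun r u hu => ⟨fun l => by rw [mul_smul_comm, smul_mul_assoc, hu.1],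
    by rw [mul_smul_comm, smul_mul_assoc, hu.2]⟩

lemma coef_mem_space {z : A} (hz : ∀ l, E.inc (ι l) * z = z * E.inc (ι l)) (i j : Fin E.M) :
    E.coef z i j ∈ Centralizer.space ι := by
  rw [Centralizer.mem_space]
  intro l
  rw [← E.coef_inc_mul, hz, E.coef_mul_inc]

lemma inc_mul_Z_pow_mem_commutant {μ : C} (hμ : μ ∈ Centralizer.space ι) (n : ℕ) :
    E.inc μ * Z E ι a b ^ n ∈ commutant E ι a b := by
  refine ⟨fun l => ?_, ?_⟩
  · have h1 : Commute (E.inc (ι l)) (E.inc μ) :=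
      (show Commute (ι l) μ from (Centralizer.mem_space ι).1 hμ l).map E.inc
    refine (h1.mul_right (Commute.pow_right ?_ n)).eq
    refine Z_comm_inc E ι a b ((Centralizer.mem_space ι).2 fun k => ?_)
    rw [← map_mul, ← map_mul, mul_comm]
  · exact ((Z_comm_inc E ι a b hμ).symm.mul_right (Commute.self_pow _ n)).eq

lemma Z_mul_mono_sub (c : C) (hc : c ∈ Centralizer.space ι) (i j : ℕ) :
    Z E ι a b * (E.inc c * (E.X ^ i * E.Y ^ j)) - E.inc c * (E.X ^ i * E.Y ^ j) * Z E ι a b =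
      (1 - E.q ^ j) • (E.inc (ι a * c) * (E.X ^ (i + 1) * E.Y ^ j)) +
        (E.q ^ i - 1) • (E.inc (ι b * c) * (E.X ^ i * E.Y ^ (j + 1))) := by
  have hmX : ∀ k : C, E.X ^ i * E.Y ^ j * E.inc k = E.inc k * (E.X ^ i * E.Y ^ j) := fun k =>
    (((E.commX k).pow_right i).mul_right ((E.commY k).pow_right j)).symm.eq
  have hc' : ∀ l, c * ι l = ι l * c := fun l => ((Centralizer.mem_space ι).1 hc l).symm
  have h1 : E.X * (E.X ^ i * E.Y ^ j) = E.X ^ (i + 1) * E.Y ^ j := by
    rw [← mul_assoc, ← pow_succ']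
  have h2 : E.Y * (E.X ^ i * E.Y ^ j) = E.q ^ i • (E.X ^ i * E.Y ^ (j + 1)) := by
    rw [← mul_assoc, mul_pow_qcomm E.rel, smul_mul_assoc, mul_assoc, ← pow_succ']
  have h3 : E.X ^ i * E.Y ^ j * E.X = E.q ^ j • (E.X ^ (i + 1) * E.Y ^ j) := by
    have hj : ∀ k, E.Y ^ k * E.X = E.q ^ k • (E.X * E.Y ^ k) := by
      intro k
      induction k with
      | zero => simp
      | succ k ih =>
        rw [pow_succ, mul_assoc, E.rel, mul_smul_comm, ← mul_assoc, ih, smul_mul_assoc, smul_smul,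
          mul_assoc, ← pow_succ, ← pow_succ']
    rw [mul_assoc, hj, mul_smul_comm, ← mul_assoc, ← pow_succ]
  have h4 : E.X ^ i * E.Y ^ j * E.Y = E.X ^ i * E.Y ^ (j + 1) := by
    rw [mul_assoc, ← pow_succ]
  have hX : ∀ k : C, E.X * E.inc k = E.inc k * E.X := fun k => (E.commX k).symm.eq
  have hY : ∀ k : C, E.Y * E.inc k = E.inc k * E.Y := fun k => (E.commY k).symm.eq
  have e1 : Z E ι a b * (E.inc c * (E.X ^ i * E.Y ^ j)) =
      E.inc (ι a * c) * (E.X * (E.X ^ i * E.Y ^ j)) +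
        E.inc (ι b * c) * (E.Y * (E.X ^ i * E.Y ^ j)) := by
    rw [Z, add_mul]
    simp only [mul_assoc, ← mul_assoc E.X (E.inc c), hX, ← mul_assoc E.Y (E.inc c), hY, map_mul]
  have e2 : E.inc c * (E.X ^ i * E.Y ^ j) * Z E ι a b =
      E.inc (ι a * c) * (E.X ^ i * E.Y ^ j * E.X) +
        E.inc (ι b * c) * (E.X ^ i * E.Y ^ j * E.Y) := by
    rw [Z, mul_add, ← hc', ← hc']
    simp only [mul_assoc (E.inc c), ← mul_assoc (E.X ^ i * E.Y ^ j) (E.inc _), hmX, map_mul]
    simp only [mul_assoc]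
  rw [e1, e2, h1, h2, h3, h4, mul_smul_comm, mul_smul_comm, sub_smul, sub_smul, one_smul, one_smul]
  abel

variable {a b}

lemma coef_eq_zero_of_row_zero (hb : b ≠ 0) {z : A} (hz : z ∈ commutant E ι a b)
    (h0 : ∀ j, E.coef z ⟨0, E.M_pos⟩ j = 0) : ∀ i j, E.coef z i j = 0 := by
  have hsp := coef_mem_space E ι hz.1
  suffices h : ∀ p, ∀ hp : p < E.M, ∀ j, E.coef z ⟨p, hp⟩ j = 0 from fun i j => h i.1 i.2 j
  intro p
  induction p with
  | zero => exact fun _ j => h0 j
  | succ p ih =>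
    intro hp j0
    have hdiff : Z E ι a b * z - z * Z E ι a b = 0 := sub_eq_zero.2 hz.2
    rw [← E.sum_coef z, Finset.mul_sum, Finset.sum_mul, ← Finset.sum_sub_distrib] at hdiff
    simp only [Finset.mul_sum, Finset.sum_mul, ← Finset.sum_sub_distrib,
      Z_mul_mono_sub E ι a b _ (hsp _ _)] at hdiff
    have h := congrFun (congrFun (congrArg E.coef hdiff) ⟨p + 1, hp⟩) (E.idx (j0 + 1))
    simp only [map_sum, map_add, map_smul, Finset.sum_apply, Pi.add_apply, Pi.smul_apply,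
      E.coef_inc_monomial, map_zero, Pi.zero_apply] at h
    rw [Finset.sum_eq_single (⟨p + 1, hp⟩ : Fin E.M), Finset.sum_eq_single j0] at h
    · have hne : E.idx ((p + 1 : ℕ) + 1) ≠ ⟨p + 1, hp⟩ := by
        intro hh
        have hh' : (p + 1 + 1) % E.M = p + 1 := congrArg Fin.val hh
        rcases (show p + 1 + 1 < E.M ∨ p + 1 + 1 = E.M by omega) with h' | h'
        · rw [Nat.mod_eq_of_lt h'] at hh'; omega
        · rw [h', Nat.mod_self] at hh'; omega
      have hp' : E.idx (p + 1 : ℕ) = ⟨p + 1, hp⟩ := Fin.ext (Nat.mod_eq_of_lt hp)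
      simp only [hne, hp', false_and, if_false, smul_zero, zero_add, true_and, if_true] at h
      have hq : E.q ^ (p + 1) - 1 ≠ 0 :=
        sub_ne_zero.2 (E.q_prim.pow_ne_one_of_pos_of_lt (Nat.succ_ne_zero p) hp)
      rw [smul_smul, smul_eq_zero] at h
      have hne2 : (E.q ^ (p + 1) - 1) * (E.x ^ ((p + 1) / E.M) * E.y ^ (((j0 : ℕ) + 1) / E.M)) ≠ 0 :=
        mul_ne_zero hq (mul_ne_zero (pow_ne_zero _ E.x_ne) (pow_ne_zero _ E.y_ne))
      have h2 := congrArg (fun c => ι b⁻¹ * c) (h.resolve_left hne2)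
      simpa [← mul_assoc, ← map_mul, hb] using h2
    · intro j _ hj
      have hidx : E.idx (j + 1) ≠ E.idx (j0 + 1) := by
        intro hh
        have hh' : ((j : ℕ) + 1) % E.M = ((j0 : ℕ) + 1) % E.M := congrArg Fin.val hh
        have := Nat.ModEq.add_right_cancel' 1 (show ((j : ℕ) + 1) ≡ (j0 : ℕ) + 1 [MOD E.M] from hh')
        exact hj (Fin.ext (this.eq_of_lt_of_lt j.isLt j0.isLt))
      have hne : E.idx ((p + 1 : ℕ) + 1) ≠ ⟨p + 1, hp⟩ := by
        intro hh
        have hh' : (p + 1 + 1) % E.M = p + 1 := congrArg Fin.val hh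
        rcases (show p + 1 + 1 < E.M ∨ p + 1 + 1 = E.M by omega) with h' | h'
        · rw [Nat.mod_eq_of_lt h'] at hh'; omega
        · rw [h', Nat.mod_self] at hh'; omega
      simp [hidx, hne]
    · exact fun hh => absurd (Finset.mem_univ _) hh
    · intro i _ hi
      refine Finset.sum_eq_zero fun j _ => ?_
      have h2 : E.idx i ≠ ⟨p + 1, hp⟩ := fun hh => hi (Fin.ext (by
        simpa [SymbolExt.idx, Nat.mod_eq_of_lt i.isLt] using congrArg Fin.val hh))
      by_cases h1 : E.idx ((i : ℕ) + 1) = ⟨p + 1, hp⟩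
      · have hip : (i : ℕ) = p := by
          have hh' : ((i : ℕ) + 1) % E.M = p + 1 := congrArg Fin.val h1
          rcases (show (i : ℕ) + 1 < E.M ∨ (i : ℕ) + 1 = E.M by omega) with h' | h'
          · rw [Nat.mod_eq_of_lt h'] at hh'; omega
          · rw [h', Nat.mod_self] at hh'; omega
        have : E.coef z i j = 0 := by
          have := ih (Nat.lt_of_succ_lt hp) j
          convert this
        simp [this]
      · simp [h1, h2]
    · exact fun hh => absurd (Finset.mem_univ _) hh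

/-- Every element of the commutant is `∑ μ_n Z ^ n`. -/
lemma eq_sum_of_mem_commutant (hb : b ≠ 0) {z : A} (hz : z ∈ commutant E ι a b) :
    z = ∑ n : Fin E.M,
      E.inc (E.coef z ⟨0, E.M_pos⟩ n * ι (b ^ (n : ℕ))⁻¹) * Z E ι a b ^ (n : ℕ) := by
  rw [← sub_eq_zero]
  set w := ∑ n : Fin E.M,
    E.inc (E.coef z ⟨0, E.M_pos⟩ n * ι (b ^ (n : ℕ))⁻¹) * Z E ι a b ^ (n : ℕ) with hw
  have hwmem : w ∈ commutant E ι a b := Submodule.sum_mem _ fun n _ =>
    inc_mul_Z_pow_mem_commutant E ι a b ((Centralizer.mem_space ι).2 fun l => by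
      rw [← mul_assoc, (Centralizer.mem_space ι).1 (coef_mem_space E ι hz.1 _ _) l, mul_assoc,
        mul_assoc, ← map_mul, ← map_mul, mul_comm l]) _
  refine E.ext fun i j => ?_
  rw [map_zero, Pi.zero_apply, Pi.zero_apply]
  refine coef_eq_zero_of_row_zero E ι hb (Submodule.sub_mem _ hz hwmem) (fun j => ?_) i j
  rw [map_sub, hw, map_sum, Pi.sub_apply, Pi.sub_apply, Finset.sum_apply, Finset.sum_apply,
    Finset.sum_eq_single j]
  · rw [coef_inc_mul_Z_pow, if_pos (by simp), qbin_zero_right, one_smul, mul_assoc, ← map_mul]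
    simp [hb]
  · intro n _ hn
    rw [coef_inc_mul_Z_pow, if_neg]
    simpa [Fin.ext_iff, eq_comm] using hn
  · exact fun hh => absurd (Finset.mem_univ _) hh

variable (a b)

/-- `orth W`: every coefficient is `τ`-orthogonal to `ι W`. -/
def orth : Submodule F A where
  carrier := {z | ∀ i j, ∀ w ∈ W, τ (E.coef z i j * ι w) = 0}
  add_mem' := fun {u v} hu hv i j w hw => by
    rw [map_add, Pi.add_apply, Pi.add_apply, add_mul, map_add, hu i j w hw, hv i j w hw, add_zero]
  zero_mem' := fun i j w _ => by simp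
  smul_mem' := fun r u hu i j w hw => by
    rw [map_smul, Pi.smul_apply, Pi.smul_apply, smul_mul_assoc, map_smul, hu i j w hw, smul_zero]

/-- `orth W` is the orthogonal of `W ⊗ E` for the pairing `τ (coefficient of 1)`. -/
lemma mem_orth_iff {z : A} : z ∈ orth E ι τ W ↔ ∀ w ∈ W, ∀ p r : Fin E.M,
    τ (E.coef (z * (E.inc (ι w) * (E.X ^ (p : ℕ) * E.Y ^ (r : ℕ))))
      ⟨0, E.M_pos⟩ ⟨0, E.M_pos⟩) = 0 := by
  have key : ∀ w : L, ∀ p r : Fin E.M,
      E.coef (z * (E.inc (ι w) * (E.X ^ (p : ℕ) * E.Y ^ (r : ℕ)))) ⟨0, E.M_pos⟩ ⟨0, E.M_pos⟩ =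
      ∑ i : Fin E.M, ∑ j : Fin E.M, if E.idx ((i : ℕ) + p) = ⟨0, E.M_pos⟩ ∧
          E.idx ((j : ℕ) + r) = ⟨0, E.M_pos⟩ then
        (E.q ^ ((j : ℕ) * p) * (E.x ^ (((i : ℕ) + p) / E.M) * E.y ^ (((j : ℕ) + r) / E.M))) •
          (E.coef z i j * ι w) else 0 := by
    intro w p r
    have hpq : ∀ i j k : ℕ, E.Y ^ j * E.X ^ k = E.q ^ (j * k) • (E.X ^ k * E.Y ^ j) := by
      intro i j k
      induction j with
      | zero => simp
      | succ j ih =>
        rw [pow_succ, mul_assoc, mul_pow_qcomm E.rel, mul_smul_comm, ← mul_assoc, ih,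
          smul_mul_assoc, smul_smul, mul_assoc, ← pow_succ, Nat.succ_mul, pow_add, mul_comm,
          pow_add]
    conv_lhs => rw [← E.sum_coef z]
    simp only [Finset.sum_mul, map_sum, Finset.sum_apply]
    refine Finset.sum_congr rfl fun i _ => Finset.sum_congr rfl fun j _ => ?_
    rw [mul_assoc, ← mul_assoc (E.X ^ (i : ℕ) * E.Y ^ (j : ℕ)),
      ← (((E.commX (ι w)).pow_right _).mul_right ((E.commY (ι w)).pow_right _)).eq,
      mul_assoc (E.inc (ι w)), ← mul_assoc (E.inc _) (E.inc (ι w)), ← map_mul,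
      mul_assoc (E.X ^ (i : ℕ)), ← mul_assoc (E.Y ^ (j : ℕ)), hpq i, smul_mul_assoc,
      mul_assoc (E.X ^ (p : ℕ)), ← pow_add, mul_smul_comm, ← mul_assoc (E.X ^ (i : ℕ)), ← pow_add,
      mul_smul_comm, map_smul, Pi.smul_apply, Pi.smul_apply, E.coef_inc_monomial, smul_ite,
      smul_zero, smul_smul]
  constructor
  · intro h w hw p r
    rw [key]
    simp only [map_sum]
    refine Finset.sum_eq_zero fun i _ => Finset.sum_eq_zero fun j _ => ?_
    split_ifs
    · rw [map_smul, h i j w hw, smul_zero]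
    · rw [map_zero]
  · intro h i j w hw
    have hneg : ∀ (i : Fin E.M), ∃ p : Fin E.M, ∀ k : Fin E.M,
        E.idx ((k : ℕ) + p) = ⟨0, E.M_pos⟩ ↔ k = i := by
      intro i
      refine ⟨E.idx (E.M - i), fun k => ?_⟩
      simp only [SymbolExt.idx, Fin.ext_iff, Nat.add_mod_mod]
      have := i.isLt
      have := k.isLt
      constructor
      · intro hh
        obtain ⟨c, hc⟩ := Nat.dvd_of_mod_eq_zero hh
        rcases c with _ | _ | c
        · omega
        · omega
        · rw [Nat.mul_succ, Nat.mul_succ] at hc; omega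
      · intro hh
        rw [hh, Nat.add_sub_cancel' (by omega), Nat.mod_self]
    obtain ⟨p, hp⟩ := hneg i
    obtain ⟨r, hr⟩ := hneg j
    have h' := h w hw p r
    rw [key] at h'
    simp only [hp, hr, ite_and, Finset.sum_ite_eq', Finset.mem_univ, if_true,
      Finset.sum_ite_irrel, Finset.sum_const_zero, map_smul, smul_eq_mul, mul_eq_zero] at h'
    refine h'.resolve_left ?_
    have hq0 : E.q ≠ 0 := E.q_prim.ne_zero E.M_pos.ne'
    simp [hq0, E.x_ne, E.y_ne]

/-- `K(Z)`. -/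
def space : Submodule F A := commutant E ι a b ⊓ orth E ι τ W

/-- `S_n`, the span of the `a ^ i * b ^ (n - i) * W`. -/
def layer (n : ℕ) : Submodule F L :=
  (range (n + 1)).sup fun i => W.map (LinearMap.mulLeft F (a ^ i * b ^ (n - i)))

/-- The elements of the centraliser orthogonal to a subspace of `L`. -/
def perp (S : Submodule F L) : Submodule F C where
  carrier := {μ | μ ∈ Centralizer.space ι ∧ ∀ l ∈ S, τ (μ * ι l) = 0}
  add_mem' := fun {u v} hu hv => ⟨Submodule.add_mem _ hu.1 hv.1, fun l hl => by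
    rw [add_mul, map_add, hu.2 l hl, hv.2 l hl, add_zero]⟩
  zero_mem' := ⟨Submodule.zero_mem _, fun l _ => by simp⟩
  smul_mem' := fun r u hu => ⟨Submodule.smul_mem _ r hu.1, fun l hl => by
    rw [smul_mul_assoc, map_smul, hu.2 l hl, smul_zero]⟩

lemma mem_perp_layer {n : ℕ} {μ : C} : μ ∈ perp ι τ (layer a b W n) ↔
    μ ∈ Centralizer.space ι ∧ ∀ i ≤ n, ∀ w ∈ W, τ (μ * ι (a ^ i * b ^ (n - i) * w)) = 0 := by
  refine and_congr_right fun _ => ⟨fun h i hi w hw => h _ ?_, fun h l hl => ?_⟩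
  · exact Finset.le_sup (f := fun i => W.map (LinearMap.mulLeft F (a ^ i * b ^ (n - i))))
      (mem_range.2 (by omega)) ⟨w, hw, rfl⟩
  · have hle : layer a b W n ≤ LinearMap.ker ((τ.comp (LinearMap.mulLeft F μ)).comp ι.toLinearMap) := by
      refine Finset.sup_le fun i hi => ?_
      rintro _ ⟨w, hw, rfl⟩
      simpa [mul_assoc] using h i (Nat.lt_succ_iff.1 (mem_range.1 hi)) w hw
    simpa using hle hl

variable {a b}

/-- `∑ μ_n Z ^ n` as a linear map. -/
noncomputable def combine :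
    (Π n : Fin E.M, perp ι τ (layer a b W n)) →ₗ[F] A :=
  ∑ n : Fin E.M, ((LinearMap.mulRight F (Z E ι a b ^ (n : ℕ))).comp E.inc.toLinearMap).comp
    ((perp ι τ (layer a b W n)).subtype.comp (LinearMap.proj n))

lemma combine_apply (μ : Π n : Fin E.M, perp ι τ (layer a b W n)) :
    combine E ι τ W μ = ∑ n : Fin E.M, E.inc (μ n : C) * Z E ι a b ^ (n : ℕ) := by
  simp [combine, LinearMap.sum_apply]

lemma coef_combine (μ : Π n : Fin E.M, perp ι τ (layer a b W n)) (i j : Fin E.M) :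
    E.coef (combine E ι τ W μ) i j = if h : (i : ℕ) + j < E.M then
      qbin E.q ((i : ℕ) + j) i • ((μ ⟨_, h⟩ : C) * ι (a ^ (i : ℕ) * b ^ (j : ℕ))) else 0 := by
  rw [combine_apply, map_sum, Finset.sum_apply, Finset.sum_apply]
  simp only [coef_inc_mul_Z_pow]
  split_ifs with h
  · rw [Finset.sum_eq_single ⟨_, h⟩]
    · rw [if_pos rfl]
    · intro n _ hn
      rw [if_neg fun hh => hn (Fin.ext hh.symm)]
    · exact fun hh => absurd (Finset.mem_univ _) hh
  · exact Finset.sum_eq_zero fun n _ => if_neg fun hh => h (by have := n.isLt; omega)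

lemma combine_injective (hb : b ≠ 0) : Function.Injective (combine (a := a) (b := b) E ι τ W) := by
  rw [← LinearMap.ker_eq_bot, Submodule.eq_bot_iff]
  intro μ hμ
  funext n
  have h := congrFun (congrFun (congrArg E.coef (LinearMap.mem_ker.1 hμ)) ⟨0, E.M_pos⟩) n
  rw [coef_combine, dif_pos (by simp), qbin_zero_right, one_smul, map_zero] at h
  have h2 := congrArg (fun c => c * ι (b ^ (n : ℕ))⁻¹) h
  simp only [Pi.zero_apply, zero_mul, mul_assoc, ← map_mul, pow_zero, one_mul,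
    mul_inv_cancel₀ (pow_ne_zero (n : ℕ) hb), map_one, mul_one] at h2
  refine Subtype.ext ?_
  have hn : ∀ h : 0 + (n : ℕ) < E.M, (⟨0 + (n : ℕ), h⟩ : Fin E.M) = n := fun _ =>
    Fin.ext (Nat.zero_add _)
  have h3 : ∀ h : 0 + (n : ℕ) < E.M, (μ ⟨0 + (n : ℕ), h⟩ : C) = μ n := fun h =>
    congrArg (fun m : Fin E.M => (μ m : C)) (hn h)
  rw [h3] at h2
  simpa using h2

/-- `K(Z)` consists of the `∑ μ_n Z ^ n` with `μ_n` orthogonal to the `n`-th layer. -/
theorem range_combine (hb : b ≠ 0) :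
    LinearMap.range (combine (a := a) (b := b) E ι τ W) = space E ι a b τ W := by
  refine le_antisymm ?_ fun z hz => ?_
  · rintro _ ⟨μ, rfl⟩
    refine ⟨?_, fun i j w hw => ?_⟩
    · rw [combine_apply]
      exact Submodule.sum_mem _ fun n _ => inc_mul_Z_pow_mem_commutant E ι a b (μ n).2.1 _
    · rw [coef_combine]
      split_ifs with h
      · have := ((mem_perp_layer ι a b τ W).1 (μ ⟨_, h⟩).2).2 i (Nat.le_add_right _ _) w hw
        rw [Nat.add_sub_cancel_left] at this
        rw [smul_mul_assoc, mul_assoc, ← map_mul, map_smul, this, smul_zero]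
      · simp
  · have hsum := eq_sum_of_mem_commutant E ι hb hz.1
    have hmem : ∀ n : Fin E.M, E.coef z ⟨0, E.M_pos⟩ n * ι (b ^ (n : ℕ))⁻¹ ∈
        perp ι τ (layer a b W n) := by
      intro n
      refine (mem_perp_layer ι a b τ W).2 ⟨(Centralizer.mem_space ι).2 fun l => by
        rw [← mul_assoc, (Centralizer.mem_space ι).1 (coef_mem_space E ι hz.1.1 _ _) l, mul_assoc,
          mul_assoc, ← map_mul, ← map_mul, mul_comm l], fun i hi w hw => ?_⟩
      have hiM : i < E.M := lt_of_le_of_lt hi n.isLt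
      have hjM : (n : ℕ) - i < E.M := lt_of_le_of_lt (Nat.sub_le _ _) n.isLt
      have h := hz.2 ⟨i, hiM⟩ ⟨_, hjM⟩ w hw
      rw [hsum, map_sum, Finset.sum_apply, Finset.sum_apply, Finset.sum_eq_single n] at h
      · rw [coef_inc_mul_Z_pow, if_pos (Nat.add_sub_cancel' hi), smul_mul_assoc, map_smul,
          smul_eq_mul, mul_eq_zero, mul_assoc _ (ι _) (ι w), ← map_mul] at h
        exact h.resolve_left (qbin_ne_zero E.q_prim n.isLt hi)
      · intro m _ hm
        rw [coef_inc_mul_Z_pow, if_neg]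
        exact fun hh => hm (Fin.ext (by simp only at hh; omega))
      · exact fun hh => absurd (Finset.mem_univ _) hh
    exact ⟨fun n => ⟨_, hmem n⟩, by rw [combine_apply]; exact hsum.symm⟩

section Dim

variable [FiniteDimensional F C] [FiniteDimensional F L] [CharZero F] [Nontrivial C]

omit [FiniteDimensional F C] [Nontrivial C] in
lemma finrank_perp {κ : F} (hκ : κ ≠ 0) (hτ : ∀ l, τ (ι l) = κ * Algebra.trace F L l)
    (S : Submodule F L) [FiniteDimensional F (Centralizer.space ι)] :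
    finrank F (perp ι τ S) + finrank F S = finrank F (Centralizer.space ι) := by
  let φ : Centralizer.space ι →ₗ[F] Module.Dual F S :=
    LinearMap.mk₂ F (fun (μ : Centralizer.space ι) (l : S) => τ ((μ : C) * ι (l : L)))
      (fun m₁ m₂ n => by simp [add_mul]) (fun c m n => by simp)
      (fun m n₁ n₂ => by simp [mul_add]) (fun c m n => by simp)
  have hsurj : Function.Surjective φ := by
    intro f
    obtain ⟨g, hg⟩ := LinearMap.exists_extend f
    let e := (Algebra.traceForm F L).toDual (traceForm_nondegenerate F L)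
    set l₀ := e.symm g
    refine ⟨⟨ι (κ⁻¹ • l₀), (Centralizer.mem_space ι).2 fun k => by
      rw [← map_mul, ← map_mul, mul_comm]⟩, LinearMap.ext fun l => ?_⟩
    have h1 : Algebra.trace F L (l₀ * l) = f l := by
      rw [← hg]
      exact LinearMap.BilinForm.apply_toDual_symm_apply (hB := traceForm_nondegenerate F L) g l
    simp only [φ, LinearMap.mk₂_apply]
    rw [← map_mul, smul_mul_assoc, map_smul, map_smul, smul_eq_mul, hτ, ← mul_assoc,
      inv_mul_cancel₀ hκ, one_mul, h1]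
  have hker : LinearMap.ker φ = (perp ι τ S).comap (Centralizer.space ι).subtype := by
    ext μ
    simp only [LinearMap.mem_ker, LinearMap.ext_iff, φ, LinearMap.mk₂_apply, Submodule.mem_comap]
    exact ⟨fun h => ⟨μ.2, fun l hl => h ⟨l, hl⟩⟩, fun h l => h.2 l l.2⟩
  have h := LinearMap.finrank_range_add_finrank_ker φ
  rw [LinearMap.range_eq_top.2 hsurj, finrank_top, Subspace.dual_finrank_eq, hker] at h
  rw [← (Submodule.comapSubtypeEquivOfLe (show perp ι τ S ≤ Centralizer.space ι from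
    fun μ hμ => hμ.1)).finrank_eq]
  omega

/-- The trace of left multiplication is a multiple of the field trace on a subfield. -/
lemma exists_trace_scale : ∃ κ : F, κ ≠ 0 ∧
    ∀ l : L, LinearMap.trace F C (LinearMap.mulLeft F (ι l)) = κ * Algebra.trace F L l := by
  obtain ⟨r, hr, h⟩ := Centralizer.exists_trace_mulLeft ι
  refine ⟨r, fun h0 => ?_, h⟩
  rw [Nat.cast_eq_zero.1 h0, mul_zero] at hr
  exact (Module.finrank_pos (R := F) (M := C)).ne' hr

/-- The dimension of `K(Z)`. -/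
theorem finrank_space {κ : F} (hκ : κ ≠ 0) (hτ : ∀ l, τ (ι l) = κ * Algebra.trace F L l)
    (hb : b ≠ 0) :
    finrank F (space E ι a b τ W) + ∑ n : Fin E.M, finrank F (layer a b W n) =
      E.M * finrank F (Centralizer.space ι) := by
  rw [← range_combine E ι τ W hb,
    LinearMap.finrank_range_of_inj (combine_injective E ι τ W hb), Module.finrank_pi_fintype,
    ← Finset.sum_add_distrib,
    Finset.sum_congr rfl fun (n : Fin E.M) _ => finrank_perp ι τ hκ hτ (layer a b W (n : ℕ))]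
  simp

end Dim

section Layers

variable {K₀ : IntermediateField F L} {W₀ : Submodule F L} {ω a₀ b₀ : L}

lemma layer_le (hW₀ : W₀ ≤ K₀.toSubalgebra.toSubmodule) (ha : a₀ ∈ K₀) (hb : b₀ ∈ K₀) (n : ℕ) :
    layer (ω * a₀) (ω * b₀) (W₀.map (LinearMap.mulLeft F ω)) n ≤
      K₀.toSubalgebra.toSubmodule.map (LinearMap.mulLeft F (ω ^ (n + 1))) := by
  refine Finset.sup_le fun i hi => ?_
  rintro _ ⟨_, ⟨w, hw, rfl⟩, rfl⟩
  have hi : i ≤ n := Nat.lt_succ_iff.1 (mem_range.1 hi)
  refine ⟨a₀ ^ i * b₀ ^ (n - i) * w,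
    K₀.mul_mem (K₀.mul_mem (pow_mem ha i) (pow_mem hb _)) (hW₀ hw), ?_⟩
  simp only [LinearMap.mulLeft_apply, mul_pow]
  rw [show n + 1 = i + (n - i) + 1 by omega, pow_succ, pow_add]
  ring

lemma layer_zero : layer a b W 0 = W := by
  simp [layer, LinearMap.mulLeft_one]

/-- Case B: the two translates span, so all higher layers are full. -/
theorem layer_eq (hW₀ : W₀ ≤ K₀.toSubalgebra.toSubmodule) (ha : a₀ ∈ K₀) (hb : b₀ ∈ K₀)
    (ha0 : a₀ ≠ 0)
    (hspan : K₀.toSubalgebra.toSubmodule ≤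
      W₀.map (LinearMap.mulLeft F a₀) ⊔ W₀.map (LinearMap.mulLeft F b₀)) :
    ∀ n, 1 ≤ n → layer (ω * a₀) (ω * b₀) (W₀.map (LinearMap.mulLeft F ω)) n =
      K₀.toSubalgebra.toSubmodule.map (LinearMap.mulLeft F (ω ^ (n + 1))) := by
  intro n hn
  refine le_antisymm (layer_le hW₀ ha hb n) ?_
  induction n, hn using Nat.le_induction with
  | base =>
    refine (Submodule.map_mono hspan).trans ?_
    rw [Submodule.map_sup, sup_le_iff]
    constructor
    · rintro _ ⟨_, ⟨w, hw, rfl⟩, rfl⟩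
      refine Finset.le_sup (f := fun i => (W₀.map (LinearMap.mulLeft F ω)).map
        (LinearMap.mulLeft F ((ω * a₀) ^ i * (ω * b₀) ^ (1 - i))))
        (mem_range.2 (show (1 : ℕ) < 2 by omega)) ⟨ω * w, ⟨w, hw, rfl⟩, ?_⟩
      simp only [LinearMap.mulLeft_apply]
      ring
    · rintro _ ⟨_, ⟨w, hw, rfl⟩, rfl⟩
      refine Finset.le_sup (f := fun i => (W₀.map (LinearMap.mulLeft F ω)).map
        (LinearMap.mulLeft F ((ω * a₀) ^ i * (ω * b₀) ^ (1 - i))))
        (mem_range.2 (show (0 : ℕ) < 2 by omega)) ⟨ω * w, ⟨w, hw, rfl⟩, ?_⟩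
      simp only [LinearMap.mulLeft_apply]
      ring
  | succ n hn ih =>
    rintro _ ⟨k, hk, rfl⟩
    have hk' : a₀⁻¹ * k ∈ K₀ := K₀.mul_mem (K₀.inv_mem ha) hk
    have h1 : (LinearMap.mulLeft F (ω * a₀))
        ((LinearMap.mulLeft F (ω ^ (n + 1))) (a₀⁻¹ * k)) ∈
        (layer (ω * a₀) (ω * b₀) (W₀.map (LinearMap.mulLeft F ω)) n).map
          (LinearMap.mulLeft F (ω * a₀)) := ⟨_, ih ⟨_, hk', rfl⟩, rfl⟩
    have hle : (layer (ω * a₀) (ω * b₀) (W₀.map (LinearMap.mulLeft F ω)) n).map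
          (LinearMap.mulLeft F (ω * a₀)) ≤
        layer (ω * a₀) (ω * b₀) (W₀.map (LinearMap.mulLeft F ω)) (n + 1) := by
      rw [Submodule.map_le_iff_le_comap]
      refine Finset.sup_le fun i hi => ?_
      rintro _ ⟨w, hw, rfl⟩
      refine Finset.le_sup (f := fun i => (W₀.map (LinearMap.mulLeft F ω)).map
        (LinearMap.mulLeft F ((ω * a₀) ^ i * (ω * b₀) ^ (n + 1 - i))))
        (mem_range.2 (Nat.succ_lt_succ (mem_range.1 hi))) ⟨w, hw, ?_⟩
      simp only [LinearMap.mulLeft_apply, Nat.succ_eq_add_one]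
      rw [show n + 1 - (i + 1) = n - i by omega, pow_succ]
      ring
    have h2 := hle h1
    convert h2 using 1
    simp only [LinearMap.mulLeft_apply]
    rw [pow_succ ω (n + 1)]
    field_simp

/-- Case A: a primitive element makes the high layers full. -/
theorem le_layer_of_powers {d₀ : ℕ} (hone : (1 : L) ∈ W₀)
    (hspan : K₀.toSubalgebra.toSubmodule ≤ span F (Set.range fun i : Fin d₀ => a₀ ^ (i : ℕ)))
    {n : ℕ} (hn : d₀ ≤ n + 1) :
    K₀.toSubalgebra.toSubmodule.map (LinearMap.mulLeft F (ω ^ (n + 1))) ≤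
      layer (ω * a₀) (ω * 1) (W₀.map (LinearMap.mulLeft F ω)) n := by
  refine (Submodule.map_mono hspan).trans ?_
  rw [Submodule.map_span, Submodule.span_le]
  rintro _ ⟨_, ⟨i, rfl⟩, rfl⟩
  have hi : (i : ℕ) ≤ n := by omega
  refine Finset.le_sup (f := fun i => (W₀.map (LinearMap.mulLeft F ω)).map
    (LinearMap.mulLeft F ((ω * a₀) ^ i * (ω * 1) ^ (n - i))))
    (mem_range.2 (show (i : ℕ) < n + 1 by omega)) ⟨ω * 1, ⟨1, hone, rfl⟩, ?_⟩
  simp only [LinearMap.mulLeft_apply, mul_one, mul_pow]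
  rw [show n + 1 = (i : ℕ) + (n - i) + 1 by omega, pow_succ, pow_add]
  ring

end Layers

end Rank

end Vale.P199K
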