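import Mathlib
import Vale.Agent.P199.Kurosh.Sym
import Vale.Agent.P199.Kurosh.SymbolExt

/-!
# P199: base change of a coefficient algebra inside a symbol extension

For `E : Sym S M` the span of the constants over the new ground field is a subalgebra `Cx` with
the dimension of `S.C`, and `E.T.C` is free over it on the monomials: this gives a `SymbolExt`.
-/

open Module Submodule

namespace P199K

namespace Sym

variable {S : Stg} {M : ℕ} (E : Sym S M)

/-- The base change of `S.C`. -/
def Cx : Subalgebra E.T.F E.T.C := Algebra.adjoin E.T.F (Set.range E.emb.iC)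

lemma iC_mem (c : S.C) : E.emb.iC c ∈ E.Cx := Algebra.subset_adjoin ⟨c, rfl⟩

lemma iC_smul_Cx (r : S.F) (c : S.C) : E.emb.iC (r • c) = E.emb.iF r • E.emb.iC c := by
  rw [Algebra.smul_def, map_mul, E.emb.compat, ← Algebra.smul_def]

/-- Image of a subspace, over the new field. -/
def ext (V : Submodule S.F S.C) : Submodule E.T.F E.T.C :=
  Submodule.span E.T.F (E.emb.iC '' (V : Set S.C))

lemma Cx_toSubmodule : Subalgebra.toSubmodule E.Cx = E.ext ⊤ := by
  rw [Cx, Algebra.adjoin_eq_span, ext, Submodule.top_coe, Set.image_univ]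
  congr 1
  ext z
  refine ⟨fun hz => ?_, fun hz => Submonoid.subset_closure hz⟩
  induction hz using Submonoid.closure_induction with
  | mem z hz => exact hz
  | one => exact ⟨1, map_one _⟩
  | mul x y _ _ hx hy =>
    obtain ⟨a, rfl⟩ := hx
    obtain ⟨b, rfl⟩ := hy
    exact ⟨a * b, map_mul _ _ _⟩

lemma iC_mem_ext {V : Submodule S.F S.C} {c : S.C} (hc : c ∈ V) : E.emb.iC c ∈ E.ext V :=
  Submodule.subset_span ⟨c, hc, rfl⟩

/-- The monomials in any basis form a basis. -/
lemma monomials_linearIndependent {ι : Type*} [Fintype ι] (b : Basis ι S.F S.C) :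
    LinearIndependent E.T.F (fun p : ι × Fin M × Fin M =>
      E.emb.iC (b p.1) * (E.X ^ (p.2.1 : ℕ) * E.Y ^ (p.2.2 : ℕ))) := by
  refine linearIndependent_of_top_le_span_of_card_eq_finrank ?_ ?_
  · rw [← E.span, Submodule.span_le]
    rintro _ ⟨⟨c, i, j⟩, rfl⟩
    simp only [SetLike.mem_coe]
    rw [← b.sum_repr c, map_sum, Finset.sum_mul, Finset.sum_mul]
    refine Submodule.sum_mem _ fun g _ => ?_
    rw [iC_smul_Cx, smul_mul_assoc, smul_mul_assoc, mul_assoc]
    exact Submodule.smul_mem _ _ (Submodule.subset_span ⟨(g, i, j), rfl⟩)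
  · rw [Fintype.card_prod, Fintype.card_prod, Fintype.card_fin, ← Module.finrank_eq_card_basis b]
    show S.dim * (M * M) = E.T.dim
    rw [E.dim_eq]
    ring

variable (hM : 0 < M)
include hM

lemma linearIndependent_iC {κ : Type*} [Finite κ] {v : κ → S.C} (hv : LinearIndependent S.F v) :
    LinearIndependent E.T.F (fun k => E.emb.iC (v k)) := by
  classical
  have hs := hv.linearIndepOn_id
  let b := Basis.extend hs
  have := FiniteDimensional.fintypeBasisIndex b
  have h := (monomials_linearIndependent E b).comp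
    (fun k : κ => (⟨v k, hs.subset_extend _ (Set.mem_range_self k)⟩, (⟨0, hM⟩ : Fin M),
      (⟨0, hM⟩ : Fin M)))
    (fun x y hxy => hv.injective (congrArg Subtype.val (congrArg Prod.fst hxy)))
  convert h using 1
  funext k
  simp [b, Basis.extend_apply_self]

lemma finrank_ext (V : Submodule S.F S.C) : finrank E.T.F (E.ext V) = finrank S.F V := by
  let b := Module.finBasis S.F V
  have hli : LinearIndependent E.T.F (fun k => E.emb.iC (b k : S.C)) :=
    linearIndependent_iC E hM (b.linearIndependent.map' V.subtype V.ker_subtype)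
  have hspan : E.ext V = Submodule.span E.T.F (Set.range fun k => E.emb.iC (b k : S.C)) := by
    refine le_antisymm ?_ ?_
    · rw [ext, Submodule.span_le]
      rintro _ ⟨c, hc, rfl⟩
      have hrep : c = ∑ k, b.repr ⟨c, hc⟩ k • (b k : S.C) := by
        refine (congrArg V.subtype (b.sum_repr ⟨c, hc⟩)).symm.trans ?_
        rw [map_sum]
        rfl
      rw [hrep, map_sum]
      refine Submodule.sum_mem _ fun k _ => ?_
      rw [iC_smul_Cx]
      exact Submodule.smul_mem _ _ (Submodule.subset_span ⟨k, rfl⟩)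
    · rw [Submodule.span_le]
      rintro _ ⟨k, rfl⟩
      exact iC_mem_ext E (b k).2
  rw [hspan, finrank_span_eq_card hli, Fintype.card_fin]

lemma finrank_Cx : finrank E.T.F E.Cx = S.dim := by
  rw [← Subalgebra.finrank_toSubmodule, Cx_toSubmodule, finrank_ext E hM, finrank_top]
  rfl

omit hM

lemma X_comm_Cx (c : E.Cx) : Commute (c : E.T.C) E.X := by
  refine Algebra.commute_of_mem_adjoin_of_forall_mem_commute c.2 ?_ |>.symm
  rintro _ ⟨a, rfl⟩
  exact E.X_comm a

lemma Y_comm_Cx (c : E.Cx) : Commute (c : E.T.C) E.Y := by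
  refine Algebra.commute_of_mem_adjoin_of_forall_mem_commute c.2 ?_ |>.symm
  rintro _ ⟨a, rfl⟩
  exact E.Y_comm a

/-- The linear map reading a coefficient family as an element. -/
noncomputable def assemble : (Fin M → Fin M → E.Cx) →ₗ[E.T.F] E.T.C where
  toFun c := ∑ i, ∑ j, (c i j : E.T.C) * (E.X ^ (i : ℕ) * E.Y ^ (j : ℕ))
  map_add' c d := by simp [add_mul, Finset.sum_add_distrib]
  map_smul' r c := by simp [Finset.smul_sum]

lemma assemble_single (c : E.Cx) (i j : Fin M) :
    E.assemble (Pi.single i (Pi.single j c)) = (c : E.T.C) * (E.X ^ (i : ℕ) * E.Y ^ (j : ℕ)) := by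
  show ∑ i' : Fin M, ∑ j' : Fin M,
    (((Pi.single i (Pi.single j c) : Fin M → Fin M → E.Cx) i' j' : E.Cx) : E.T.C) *
      (E.X ^ (i' : ℕ) * E.Y ^ (j' : ℕ)) = _
  rw [Finset.sum_eq_single i, Finset.sum_eq_single j]
  · simp
  · intro j' _ hj'
    simp [hj']
  · simp
  · intro i' _ hi'
    simp [hi']
  · simp

lemma assemble_surjective : Function.Surjective E.assemble := by
  rw [← LinearMap.range_eq_top, ← top_le_iff, ← E.span, Submodule.span_le]
  rintro _ ⟨⟨c, i, j⟩, rfl⟩
  refine ⟨Pi.single i (Pi.single j ⟨_, E.iC_mem c⟩), ?_⟩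
  rw [assemble_single]
  exact (mul_assoc _ _ _).symm

include hM

lemma assemble_injective : Function.Injective E.assemble := by
  refine (LinearMap.injective_iff_surjective_of_finrank_eq_finrank ?_).2 (assemble_surjective E)
  rw [Module.finrank_pi_fintype, Finset.sum_const, Finset.card_univ, Fintype.card_fin, smul_eq_mul,
    Module.finrank_pi_fintype, Finset.sum_const, Finset.card_univ, Fintype.card_fin, smul_eq_mul,
    finrank_Cx E hM]
  show M * (M * S.dim) = E.T.dim
  rw [E.dim_eq]
  ring

/-- The interface for the rank computation. -/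
noncomputable def symbolExt : Vale.P199K.SymbolExt E.T.F E.Cx E.T.C where
  M := M
  M_pos := hM
  inc := E.Cx.val
  X := E.X
  Y := E.Y
  q := E.emb.iF E.ζ
  q_prim := E.prim.map_of_injective E.emb.iF.injective
  x := E.X_pow.choose
  y := E.Y_pow.choose
  x_ne h := pow_ne_zero M E.X_ne (by rw [← E.X_pow.choose_spec, h, map_zero])
  y_ne h := pow_ne_zero M E.Y_ne (by rw [← E.Y_pow.choose_spec, h, map_zero])
  commX := E.X_comm_Cx
  commY := E.Y_comm_Cx
  rel := by rw [E.YX, Algebra.smul_def]
  X_pow := E.X_pow.choose_spec.symm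
  Y_pow := E.Y_pow.choose_spec.symm
  coef := (LinearEquiv.ofBijective E.assemble
    ⟨assemble_injective E hM, assemble_surjective E⟩).symm.toLinearMap
  coef_mono c i j i' j' := by
    have h : (LinearEquiv.ofBijective E.assemble
        ⟨assemble_injective E hM, assemble_surjective E⟩).symm
        ((c : E.T.C) * (E.X ^ (i : ℕ) * E.Y ^ (j : ℕ))) = Pi.single i (Pi.single j c) := by
      rw [LinearEquiv.symm_apply_eq]
      exact (assemble_single E c i j).symm
    simp only [LinearEquiv.coe_coe, Subalgebra.coe_val, h, Pi.single_apply, ite_apply,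
      Pi.zero_apply, eq_comm (a := i), eq_comm (a := j), ite_and]
  sum_coef a := (LinearEquiv.ofBijective E.assemble
    ⟨assemble_injective E hM, assemble_surjective E⟩).apply_symm_apply a

end Sym

end P199K
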