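import Mathlib
import Vale.Agent.P199.Kurosh.Stmts
import Vale.Agent.P199.Kurosh.SymBase
import Vale.Agent.P199.Kurosh.RankAux
import Vale.Agent.P199.Kurosh.RankCore

/-!
# P199: the rank lemma for `K(Z)`, cases A and B
-/

open Module Submodule

namespace P199K

namespace Rank

open Vale.P199K

variable {o : Obj} {M : ℕ}

/-- `K(Z)` for `Z = a X + b Y`. -/
noncomputable def KZgen (E : Sym o.S M) (a b : o.S.C) : Submodule E.T.F E.T.C :=
  E.T.cent (E.emb.iC o.θ) ⊓ E.T.cent (E.emb.iC a * E.X + E.emb.iC b * E.Y) ⊓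
    E.T.orth (span E.T.F {z | ∃ w ∈ o.W, ∃ e ∈ E.E, z = E.emb.iC w * e})

lemma KZ_eq (m : Model o) (E : Sym o.S M) :
    m.KZ E = KZgen E (m.ω * m.w0) (m.ω * m.w1) := by
  have h : m.Z E = E.emb.iC (m.ω * m.w0) * E.X + E.emb.iC (m.ω * m.w1) * E.Y := by
    rw [Model.Z, map_mul, map_mul, mul_add, ← mul_assoc, ← mul_assoc]
  rw [Model.KZ, KZgen, h]

/-- The trace of a non-constant monomial vanishes. -/
lemma τ_monomial (E : Sym o.S M) (u : E.Cx) {i j : Fin M} (h : ¬ ((i : ℕ) = 0 ∧ (j : ℕ) = 0)) :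
    E.T.τ ((u : E.T.C) * (E.X ^ (i : ℕ) * E.Y ^ (j : ℕ))) = 0 := by
  have hM : 0 < M := i.pos
  set S := E.symbolExt hM
  have hrel : E.Y * E.X = (E.emb.iF E.ζ) • (E.X * E.Y) := by rw [E.YX, Algebra.smul_def]
  have hq : IsPrimitiveRoot (E.emb.iF E.ζ) M := E.prim.map_of_injective E.emb.iF.injective
  have hsym : ∀ a b : E.T.C, E.T.τ (a * b) = E.T.τ (b * a) := fun a b => by
    simp only [Stg.τ, LinearMap.comp_apply]
    rw [show LinearMap.mul E.T.F E.T.C (a * b) =
        LinearMap.mul E.T.F E.T.C a * LinearMap.mul E.T.F E.T.C b from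
        LinearMap.ext fun x => mul_assoc a b x,
      show LinearMap.mul E.T.F E.T.C (b * a) =
        LinearMap.mul E.T.F E.T.C b * LinearMap.mul E.T.F E.T.C a from
        LinearMap.ext fun x => mul_assoc b a x, LinearMap.trace_mul_comm]
  have key : ∀ (m g : E.T.C) (r : E.T.F), g ≠ 0 → g * m = r • (m * g) → r ≠ 1 →
      E.T.τ m = 0 := by
    intro m g r hg hc hr
    have h1 : E.T.τ (g * m * g⁻¹) = E.T.τ m := by
      rw [hsym, ← mul_assoc, inv_mul_cancel₀ hg, one_mul]
    rw [hc, smul_mul_assoc, mul_assoc, mul_inv_cancel₀ hg, mul_one, map_smul, smul_eq_mul] at h1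
    by_contra hm
    exact hr (by simpa [hm] using h1)
  have hjX : ∀ k, E.Y ^ k * E.X = (E.emb.iF E.ζ) ^ k • (E.X * E.Y ^ k) := by
    intro k
    induction k with
    | zero => simp
    | succ k ih =>
      rw [pow_succ, mul_assoc, hrel, mul_smul_comm, ← mul_assoc, ih, smul_mul_assoc, smul_smul,
        mul_assoc, ← pow_succ, ← pow_succ']
  have hne : ∀ k : Fin M, (k : ℕ) ≠ 0 → (E.emb.iF E.ζ) ^ (k : ℕ) ≠ 1 := fun k hk =>
    hq.pow_ne_one_of_pos_of_lt hk k.isLt
  by_cases hj : (j : ℕ) = 0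
  · have hi : (i : ℕ) ≠ 0 := fun hi => h ⟨hi, hj⟩
    refine key _ E.Y ((E.emb.iF E.ζ) ^ (i : ℕ)) E.Y_ne ?_ (hne i hi)
    rw [hj, pow_zero, mul_one, ← mul_assoc, ← (E.Y_comm_Cx u).eq, mul_assoc,
      Vale.Agent.P199.mul_pow_qcomm hrel, mul_smul_comm, mul_assoc]
  · have hX : E.X * ((u : E.T.C) * (E.X ^ (i : ℕ) * E.Y ^ (j : ℕ))) =
        ((E.emb.iF E.ζ) ^ (j : ℕ))⁻¹ •
          ((u : E.T.C) * (E.X ^ (i : ℕ) * E.Y ^ (j : ℕ)) * E.X) := by
      have hq0 : (E.emb.iF E.ζ) ^ (j : ℕ) ≠ 0 := pow_ne_zero _ (hq.ne_zero hM.ne')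
      rw [mul_assoc (u : E.T.C), mul_assoc (E.X ^ (i : ℕ)), hjX, mul_smul_comm, mul_smul_comm,
        smul_smul, inv_mul_cancel₀ hq0, one_smul, ← mul_assoc E.X, ← (E.X_comm_Cx u).eq,
        mul_assoc, ← mul_assoc E.X, ← pow_succ', pow_succ, mul_assoc]
    exact key _ E.X _ E.X_ne hX (by simpa using hne j hj)

/-- The general bound: `dim K(Z) + ∑ dim layers ≤ M dim cent θ`. -/
theorem finrank_add_layers (hM : 0 < M) (E : Sym o.S M) {a b : o.S.C}
    (ha : a ∈ o.S.gen o.θ) (hb : b ∈ o.S.gen o.θ) (hb0 : b ≠ 0) (hW : o.W ≤ o.S.gen o.θ) :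
    finrank E.T.F (KZgen E a b) + ∑ n : Fin M, finrank o.S.F (o.layer a b n) ≤
      M * finrank o.S.F (o.S.cent o.θ) := by
  let S := E.symbolExt hM
  let θc : E.Cx := ⟨E.emb.iC o.θ, E.iC_mem _⟩
  let L : Subalgebra E.T.F E.Cx := Algebra.adjoin E.T.F {θc}
  let : CommRing L :=
    { L.toRing with
      mul_comm := fun x y => Subtype.ext <| by
        have hx : Commute θc (x : E.Cx) :=
          Algebra.commute_of_mem_adjoin_of_forall_mem_commute x.2
            (by rintro _ rfl; exact Commute.refl _)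
        exact (Algebra.commute_of_mem_adjoin_of_forall_mem_commute y.2
          (by rintro _ rfl; exact hx.symm)).eq }
  have : IsDomain L := NoZeroDivisors.to_isDomain _
  have : FiniteDimensional E.T.F L :=
    inferInstanceAs (FiniteDimensional E.T.F (Subalgebra.toSubmodule L))
  let : Field L := fieldOfFiniteDimensional E.T.F L
  let ι : L →ₐ[E.T.F] E.Cx := L.val
  -- elements of `gen θ` in `L`
  have hgen : ∀ u ∈ o.S.gen o.θ, ∃ l : L, (ι l : E.T.C) = E.emb.iC u := by
    intro u hu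
    change u ∈ Algebra.adjoin o.S.F ({o.θ} : Set o.S.C) at hu
    induction hu using Algebra.adjoin_induction with
    | mem z hz => exact ⟨⟨θc, Algebra.self_mem_adjoin_singleton _ _⟩, by rw [hz]; rfl⟩
    | algebraMap r =>
      exact ⟨algebraMap E.T.F L (E.emb.iF r), by rw [E.emb.compat]; rfl⟩
    | add x y _ _ hx hy =>
      obtain ⟨l, hl⟩ := hx
      obtain ⟨l', hl'⟩ := hy
      exact ⟨l + l', by rw [map_add, map_add, ← hl, ← hl']; rfl⟩
    | mul x y _ _ hx hy =>
      obtain ⟨l, hl⟩ := hx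
      obtain ⟨l', hl'⟩ := hy
      exact ⟨l * l', by rw [map_mul, map_mul, ← hl, ← hl']; rfl⟩
  obtain ⟨la, hla⟩ := hgen a ha
  obtain ⟨lb, hlb⟩ := hgen b hb
  have hlb0 : lb ≠ 0 := by
    rintro rfl
    rw [map_zero] at hlb
    exact hb0 (E.emb.iC.injective (by rw [← hlb, map_zero]; rfl))
  let W' : Submodule E.T.F L := span E.T.F {l | ∃ w ∈ o.W, (ι l : E.T.C) = E.emb.iC w}
  let τ' : E.Cx →ₗ[E.T.F] E.T.F := E.T.τ.comp E.Cx.val.toLinearMap
  -- the trace scale
  have : Nontrivial E.T.C := inferInstance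
  obtain ⟨κ, hκ, hτ⟩ := Vale.P199K.Rank.exists_trace_scale (E.Cx.val.comp ι)
  have hτ' : ∀ l, τ' (ι l) = κ * Algebra.trace E.T.F L l := fun l => (hτ l).symm ▸ rfl
  have hdim := Vale.P199K.Rank.finrank_space (a := la) (b := lb) S ι τ' W' hκ hτ' hlb0
  -- `KZ` sits inside the computed space
  have hsub : KZgen E a b ≤ Vale.P199K.Rank.space S ι la lb τ' W' := by
    rintro z ⟨⟨hzθ, hzZ⟩, hzo⟩
    rw [SetLike.mem_coe, Stg.mem_cent] at hzθ hzZ
    refine ⟨⟨fun l => ?_, ?_⟩, ?_⟩
    · show ((l : E.Cx) : E.T.C) * z = z * ((l : E.Cx) : E.T.C)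
      have h : ∀ x ∈ Algebra.adjoin E.T.F {θc}, Commute (x : E.T.C) z := by
        intro x hx
        induction hx using Algebra.adjoin_induction with
        | mem y hy => rw [Set.mem_singleton_iff.1 hy]; exact hzθ
        | algebraMap r => exact Algebra.commutes r z
        | add x y _ _ hx hy => exact hx.add_left hy
        | mul x y _ _ hx hy => exact hx.mul_left hy
      exact (h (l : E.Cx) l.2).eq
    · show _ * z = z * _
      simp only [Vale.P199K.Rank.Z, S, Sym.symbolExt, Subalgebra.coe_val, hla, hlb]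
      exact hzZ
    · rw [SetLike.mem_coe, Vale.P199K.Rank.mem_orth_iff]
      intro l hl p r
      -- reduce to a generator of `W'`
      set φ : L →ₗ[E.T.F] E.T.F := {
        toFun := fun l => τ' (S.coef (z * (S.inc (ι l) * (S.X ^ (p : ℕ) * S.Y ^ (r : ℕ))))
          ⟨0, S.M_pos⟩ ⟨0, S.M_pos⟩)
        map_add' := fun x y => by simp [add_mul, mul_add]
        map_smul' := fun c x => by simp } with hφ
      suffices hW' : W' ≤ LinearMap.ker φ from hW' hl
      rw [Submodule.span_le]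
      rintro l ⟨w, hw, hlw⟩
      have h0 : E.T.τ (z * ((ι l : E.T.C) * (E.X ^ (p : ℕ) * E.Y ^ (r : ℕ)))) = 0 := by
        rw [hlw]
        exact hzo _ (subset_span ⟨w, hw, _, subset_span ⟨(p, r), rfl⟩, rfl⟩)
      set u := z * ((ι l : E.T.C) * (E.X ^ (p : ℕ) * E.Y ^ (r : ℕ))) with hu
      rw [← S.sum_coef u, map_sum] at h0
      simp only [map_sum] at h0
      rw [Finset.sum_eq_single (⟨0, S.M_pos⟩ : Fin S.M),
        Finset.sum_eq_single (⟨0, S.M_pos⟩ : Fin S.M)] at h0
      · show τ' (S.coef u ⟨0, S.M_pos⟩ ⟨0, S.M_pos⟩) = 0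
        rw [pow_zero, pow_zero, mul_one, mul_one] at h0
        exact h0
      · intro j _ hj
        exact τ_monomial E _ fun hh => hj (Fin.ext hh.2)
      · exact fun hh => absurd (Finset.mem_univ _) hh
      · intro i _ hi
        exact Finset.sum_eq_zero fun j _ => τ_monomial E _ fun hh => hi (Fin.ext hh.1)
      · exact fun hh => absurd (Finset.mem_univ _) hh
  -- layers only grow
  have hlayer : ∀ n, finrank o.S.F (o.layer a b n) ≤
      finrank E.T.F (Vale.P199K.Rank.layer la lb W' n) := by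
    intro n
    rw [← E.finrank_ext hM]
    refine le_trans (Submodule.finrank_mono ?_)
      (Submodule.finrank_map_le (E.Cx.val.comp ι).toLinearMap _)
    rw [Sym.ext, span_le]
    rintro _ ⟨c, hc, rfl⟩
    have hgoal : o.layer a b n ≤
        { carrier := {c | E.emb.iC c ∈ (Vale.P199K.Rank.layer la lb W' n).map
            (E.Cx.val.comp ι).toLinearMap}
          add_mem' := fun {x y} hx hy => by
            simp only [Set.mem_ofPred_eq, map_add] at hx hy ⊢
            exact Submodule.add_mem _ hx hy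
          zero_mem' := ⟨0, Submodule.zero_mem _, by simp⟩
          smul_mem' := fun r x hx => by
            simp only [Set.mem_ofPred_eq, E.iC_smul_Cx] at hx ⊢
            exact Submodule.smul_mem _ _ hx } := by
      rw [Obj.layer, span_le]
      rintro _ ⟨i, hi, w, hw, rfl⟩
      obtain ⟨lw, hlw⟩ := hgen w (hW hw)
      refine ⟨la ^ i * lb ^ (n - i) * lw, ?_, ?_⟩
      · exact Finset.le_sup
          (f := fun i => W'.map (LinearMap.mulLeft E.T.F (la ^ i * lb ^ (n - i))))
          (Finset.mem_range.2 (Nat.lt_succ_of_le hi)) ⟨lw, subset_span ⟨w, hw, hlw⟩, rfl⟩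
      · simp only [map_mul, map_pow]
        rw [← hla, ← hlb, ← hlw]
        rfl
    exact hgoal hc
  -- the centraliser
  have hcent : finrank E.T.F (Centralizer.space ι) ≤ finrank o.S.F (o.S.cent o.θ) := by
    have hker : Centralizer.space ι ≤ LinearMap.ker
        (LinearMap.mulLeft E.T.F θc - LinearMap.mulRight E.T.F θc) := fun x hx => by
      have := (Centralizer.mem_space ι).1 hx ⟨θc, Algebra.self_mem_adjoin_singleton _ _⟩
      rw [LinearMap.mem_ker, LinearMap.sub_apply, sub_eq_zero]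
      exact this
    refine (Submodule.finrank_mono hker).trans ?_
    have hrange : E.ext (LinearMap.range (o.S.ad o.θ)) ≤ (LinearMap.range
        (LinearMap.mulLeft E.T.F θc - LinearMap.mulRight E.T.F θc)).map E.Cx.val.toLinearMap := by
      rw [Sym.ext, span_le]
      rintro _ ⟨_, ⟨x, rfl⟩, rfl⟩
      exact ⟨_, ⟨⟨E.emb.iC x, E.iC_mem x⟩, rfl⟩, by simp [θc, Stg.ad]⟩
    have h1 := (Submodule.finrank_mono hrange).trans (Submodule.finrank_map_le _ _)
    rw [E.finrank_ext hM] at h1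
    have h2 := LinearMap.finrank_range_add_finrank_ker (o.S.ad o.θ)
    have h3 := LinearMap.finrank_range_add_finrank_ker
      (LinearMap.mulLeft E.T.F θc - LinearMap.mulRight E.T.F θc)
    rw [E.finrank_Cx hM] at h3
    change _ + finrank o.S.F (o.S.cent o.θ) = o.S.dim at h2
    omega
  have hsum : ∑ n : Fin M, finrank o.S.F (o.layer a b n) ≤
      ∑ n : Fin M, finrank E.T.F (Vale.P199K.Rank.layer la lb W' n) :=
    Finset.sum_le_sum fun n _ => hlayer n
  have hle := Submodule.finrank_mono hsub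
  have hmul : M * finrank E.T.F (Centralizer.space ι) ≤ M * finrank o.S.F (o.S.cent o.θ) :=
    Nat.mul_le_mul_left M hcent
  change finrank E.T.F (Vale.P199K.Rank.space S ι la lb τ' W') +
    ∑ n : Fin M, finrank E.T.F (Vale.P199K.Rank.layer la lb W' n) =
    M * finrank E.T.F (Centralizer.space ι) at hdim
  omega

end Rank

/-- The rank lemma (case B). -/
theorem rank_holds : RankStmt := by
  intro o m M hW hsp hM E
  rw [Rank.KZ_eq]
  have hb0 : m.ω * m.w1 ≠ 0 := mul_ne_zero m.ω_ne m.w1_ne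
  have h := Rank.finrank_add_layers hM E (hW m.w0_mem) (hW m.w1_mem) hb0 hW
  have hlow : ∀ n : Fin M, (if (n : ℕ) = 0 then o.r else o.d0) ≤
      finrank o.S.F (o.layer (m.ω * m.w0) (m.ω * m.w1) n) := by
    intro n
    split_ifs with hn
    · rw [hn]
      exact o.r_le_finrank_layer_zero _ _
    · exact o.d0_le_finrank_layer hW m.ω_mem m.ω_ne m.w0_ne m.w0_mem m.w1_mem hsp
        (Nat.one_le_iff_ne_zero.2 hn)
  obtain ⟨k, rfl⟩ := Nat.exists_eq_add_of_le hM
  have hsum := Finset.sum_le_sum (s := Finset.univ) fun n _ => hlow n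
  have hval : ∑ n : Fin (Nat.succ 0 + k), (if (n : ℕ) = 0 then o.r else o.d0) = o.r + k * o.d0 := by
    rw [Fin.sum_univ_eq_sum_range (fun i => if i = 0 then o.r else o.d0),
      show Nat.succ 0 + k = k + 1 by omega, Finset.sum_range_succ']
    simp [add_comm]
  rw [hval] at hsum
  have hr := o.r_le_d0 hW
  rw [Obj.k0]
  have he : o.d0 * (Nat.succ 0 + k) = o.d0 + k * o.d0 := by ring
  rw [he, mul_comm (finrank o.S.F (o.S.cent o.θ))]
  omega

/-- The rank bound for a primitive ratio (case A) and existence of such a model. -/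
theorem rankA_bound {o : Obj} (hW : o.W ≤ o.S.gen o.θ) (m : Model o) {M : ℕ} (hp : m.Primitive)
    (hM : 0 < M) (E : Sym o.S M) :
    finrank E.T.F (m.KZ E) + o.d0 * M ≤
      finrank o.S.F (o.S.cent o.θ) * M + o.d0 ^ 2 := by
  rw [Rank.KZ_eq]
  have hb0 : m.ω * m.w1 ≠ 0 := mul_ne_zero m.ω_ne m.w1_ne
  have h := Rank.finrank_add_layers hM E (hW m.w0_mem) (hW m.w1_mem) hb0 hW
  set r := m.w0⁻¹ * m.w1
  have hω' : m.ω * m.w0 ≠ 0 := mul_ne_zero m.ω_ne m.w0_ne
  have hr : m.ω * m.w0 * r = m.ω * m.w1 := by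
    rw [mul_assoc, ← mul_assoc m.w0, mul_inv_cancel₀ m.w0_ne, one_mul]
  have hspan : o.L0 ≤ span o.S.F (Set.range fun i : Fin o.d0 => r ^ (i : ℕ)) := by
    have hint : IsIntegral o.S.F r := Algebra.IsIntegral.isIntegral r
    rw [← hp, Algebra.adjoin_singleton_eq_range_aeval]
    rintro _ ⟨p, rfl⟩
    have hdeg : (minpoly o.S.F r).natDegree ≤ o.d0 := by
      have hli := linearIndependent_pow (K := o.S.F) r
      have hle := Submodule.finrank_mono (R := o.S.F) (s := span o.S.F (Set.range fun i :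
          Fin (minpoly o.S.F r).natDegree => r ^ (i : ℕ))) (t := o.L0) (by
        rw [Submodule.span_le, ← hp]
        rintro _ ⟨i, rfl⟩
        exact Subalgebra.pow_mem _ (Algebra.self_mem_adjoin_singleton _ _) _)
      rwa [finrank_span_eq_card hli, Fintype.card_fin] at hle
    have hmonic := minpoly.monic hint
    show Polynomial.aeval r p ∈ _
    rw [← Polynomial.modByMonic_add_div p (minpoly o.S.F r), map_add, map_mul, minpoly.aeval,
      zero_mul, add_zero, Polynomial.aeval_eq_sum_range' (lt_of_lt_of_le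
        (Polynomial.natDegree_modByMonic_lt p hmonic (minpoly.ne_one o.S.F r)) hdeg)]
    exact Submodule.sum_mem _ fun i hi => Submodule.smul_mem _ _
      (subset_span ⟨⟨i, Finset.mem_range.1 hi⟩, rfl⟩)
  have hlow : ∀ n : Fin M, o.d0 ≤ (if o.d0 ≤ (n : ℕ) + 1 then 0 else o.d0) +
      finrank o.S.F (o.layer (m.ω * m.w0) (m.ω * m.w1) n) := by
    intro n
    split_ifs with hn
    · rw [zero_add, ← hr]
      exact o.d0_le_finrank_layer_of_powers hW m.w0_mem hω' (by rw [hr]; exact m.w1_mem) hspan hn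
    · exact Nat.le_add_right _ _
  have hsum := Finset.sum_le_sum (s := Finset.univ) fun n _ => hlow n
  rw [Finset.sum_const, Finset.card_univ, Fintype.card_fin, smul_eq_mul, Finset.sum_add_distrib]
    at hsum
  have hsmall : ∑ n : Fin M, (if o.d0 ≤ (n : ℕ) + 1 then 0 else o.d0) ≤ o.d0 ^ 2 := by
    rw [Finset.sum_ite, Finset.sum_const_zero, zero_add, Finset.sum_const, smul_eq_mul, pow_two]
    refine Nat.mul_le_mul_right _ ?_
    refine le_trans (Finset.card_le_card_of_injOn (t := Finset.range o.d0)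
      (fun n : Fin M => (n : ℕ)) ?_ ?_) (Finset.card_range _).le
    · intro n hn
      simp only [Finset.coe_filter, Finset.mem_univ, true_and, Set.mem_ofPred_eq] at hn
      simp only [Finset.coe_range, Set.mem_Iio]
      omega
    · exact fun x _ y _ hxy => Fin.ext hxy
  rw [mul_comm o.d0 M, mul_comm (finrank o.S.F (o.S.cent o.θ)) M]
  omega

end P199K
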