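import Vale.Agent.P199.Kurosh.Grow.Coord
import Vale.Agent.P199.Kurosh.Grow.Dense
import Vale.Agent.P199.Kurosh.Alg

/-! Growth of a full object along a generating point. -/

open Module Finset

namespace P199K

variable {S : Stg} {M : ℕ} {E : Sym S M}

theorem Point.eval_coeff_zero {K : ℕ} (P : Point E K) (f : NS K S.C) :
    (P.eval f).coeff 0 = E.emb.iC (f []) := by
  have h := P.eval_sub_trunc f 0 0 (by norm_num)
  rw [HahnSeries.coeff_sub, sub_eq_zero] at h
  rw [h]
  simp [NS.trunc, Sym.ι, HahnSeries.C_apply]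

/-- Constants and linear terms determine those of a product. -/
theorem NS.mul_single {K : ℕ} {C : Type} [Ring C] (f g : NS K C) (j : Fin K) :
    (f * g) [j] = f [] * g [j] + f [j] * g [] := by
  rw [NS.mul_cons, NS.mul_nil, NS.shift_apply]

/-- A nonzero right-linear functional annihilating a proper sub-bimodule may be taken central. -/
theorem exists_central_annihilator {D : Type} [DivisionRing D] {N : ℕ}
    (W : Submodule D (Fin N → D)) (hW : W ≠ ⊤)
    (hr : ∀ u ∈ W, ∀ c : D, (fun j => u j * c) ∈ W) :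
    ∃ l : Fin N → D, l ≠ 0 ∧ (∀ j c, l j * c = c * l j) ∧ ∀ u ∈ W, ∑ j, u j * l j = 0 := by
  classical
  obtain ⟨f, hf0, hfW⟩ := Submodule.exists_le_ker_of_lt_top W (lt_top_iff_ne_top.mpr hW)
  have hex : ∃ k, ∃ l : Fin N → D, l ≠ 0 ∧ (∀ u ∈ W, ∑ j, u j * l j = 0) ∧
      (Finset.univ.filter fun j => l j ≠ 0).card = k := by
    refine ⟨_, fun j => f (Pi.single j 1), ?_, fun u hu => ?_, rfl⟩
    · intro h
      apply hf0
      refine LinearMap.pi_ext' fun j => LinearMap.ext_ring ?_
      simpa using congrFun h j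
    · have e : u = ∑ j, u j • Pi.single (M := fun _ : Fin N => D) j 1 := by
        funext i; simp [Finset.sum_apply, Pi.single_apply]
      have := LinearMap.mem_ker.mp (hfW hu)
      rw [e, map_sum] at this
      simpa using this
  obtain ⟨l, hl0, hlW, hlc⟩ := Nat.find_spec hex
  obtain ⟨j0, hj0⟩ : ∃ j, l j ≠ 0 := by
    by_contra h
    push Not at h
    exact hl0 (funext h)
  set l' : Fin N → D := fun j => l j * (l j0)⁻¹ with hl'
  have hl'W : ∀ u ∈ W, ∑ j, u j * l' j = 0 := fun u hu => by
    simp only [hl', ← mul_assoc, ← Finset.sum_mul, hlW u hu, zero_mul]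
  have hl'1 : l' j0 = 1 := mul_inv_cancel₀ hj0
  refine ⟨l', fun h => by simpa [hl'1] using congrFun h j0, fun j c => ?_, hl'W⟩
  by_contra hne
  set m : Fin N → D := fun i => l' i * c - c * l' i with hm
  have hm0 : m ≠ 0 := fun h => hne (sub_eq_zero.mp (congrFun h j))
  have hmW : ∀ u ∈ W, ∑ i, u i * m i = 0 := fun u hu => by
    have h1 := hl'W _ (hr u hu c)
    simp only [hm, mul_sub, Finset.sum_sub_distrib, ← mul_assoc, ← Finset.sum_mul, hl'W u hu,
      zero_mul, h1, sub_zero]
  have hlt : (Finset.univ.filter fun i => m i ≠ 0).card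
      < (Finset.univ.filter fun i => l i ≠ 0).card := by
    refine Finset.card_lt_card (Finset.ssubset_iff_of_subset ?_ |>.mpr ⟨j0, ?_, ?_⟩)
    · intro i hi
      simp only [Finset.mem_filter, Finset.mem_univ, true_and, hm, hl'] at hi ⊢
      intro h
      simp [h] at hi
    · simpa using hj0
    · simp [hm, hl'1]
  rw [hlc] at hlt
  exact Nat.find_min hex hlt ⟨m, hm0, hmW, rfl⟩

theorem NS.shift_var {K : ℕ} {C : Type} [Ring C] (i j : Fin K) :
    NS.shift j (NS.var i : NS K C) = NS.const (if j = i then 1 else 0) := by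
  refine NS.ext fun w => ?_
  cases w with
  | nil => simp [NS.shift, NS.var]
  | cons a l => simp [NS.shift, NS.var]

theorem NS.lin_const {K : ℕ} {C B : Type} [Ring C] [Ring B] (ι : C →+* B) (y x : Fin K → B) (c : C) :
    ∀ n, NS.lin ι y x n (NS.const c : NS K C) = 0
  | 0 => rfl
  | n + 1 => by
      have hs : ∀ i : Fin K, NS.shift i (NS.const c : NS K C) = 0 := fun _ => rfl
      simp [NS.lin, hs, NS.trunc_zero_series, NS.lin_of_low ι y x n (0 : NS K C) (fun _ _ => rfl)]

theorem Point.lin_var {K : ℕ} (P : Point E K) (x : Fin K → LaurentSeries E.T.C) (i : Fin K)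
    (n : ℕ) : NS.lin E.ι P.p x (n + 1) (NS.var i) = x i := by
  simp [NS.lin, NS.shift_var, NS.lin_const, NS.trunc_const, apply_ite E.ι]

/-- A subalgebra with all constants and no derivation among its linear parts has all linear parts. -/
theorem exists_linear_of_subalgebra {U : Stg} {n : ℕ} (B : Subalgebra U.F (NS n U.C))
    (hs : ∀ c : U.C, ∃ g ∈ B, g [] = c)
    (hnd : ∀ (l : Fin n → U.F) (e : U.C),
      (∀ g ∈ B, ∑ a, l a • g [a] = e * g [] - g [] * e) → l = 0) :
    ∀ u : Fin n → U.C, ∃ g ∈ B, g [] = 0 ∧ ∀ a, g [a] = u a := by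
  classical
  choose G hG hG0 using hs
  let N : Submodule U.C (Fin n → U.C) :=
    { carrier := {u | ∃ g ∈ B, g [] = 0 ∧ ∀ a, g [a] = u a}
      zero_mem' := ⟨0, B.zero_mem, rfl, fun _ => rfl⟩
      add_mem' := by
        rintro u v ⟨g, hg, g0, g1⟩ ⟨h, hh, h0, h1⟩
        exact ⟨g + h, B.add_mem hg hh, by rw [NS.add_apply, g0, h0, add_zero],
          fun a => by rw [NS.add_apply, g1, h1, Pi.add_apply]⟩
      smul_mem' := by
        rintro c u ⟨g, hg, g0, g1⟩
        refine ⟨G c * g, B.mul_mem (hG c) hg, by rw [NS.mul_nil, g0, mul_zero], fun a => ?_⟩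
        rw [NS.mul_single, g0, hG0, g1, mul_zero, add_zero, Pi.smul_apply, smul_eq_mul] }
  intro u
  suffices htop : N = ⊤ from (htop ▸ Submodule.mem_top : u ∈ N)
  by_contra hne
  obtain ⟨l, hl0, hlc, hlN⟩ := exists_central_annihilator N hne fun v ⟨g, hg, g0, g1⟩ c =>
    ⟨g * G c, B.mul_mem hg (hG c), by rw [NS.mul_nil, g0, zero_mul], fun a => by
      rw [NS.mul_single, g0, hG0, g1, zero_mul, zero_add]⟩
  choose r hr using fun a => U.central (l a) (hlc a)
  have hd : ∀ g ∈ B, ∑ a, r a • g [a] = ∑ a, r a • G (g []) [a] := fun g hg => by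
    rw [← sub_eq_zero, ← Finset.sum_sub_distrib]
    have h0 : (fun a => g [a] - G (g []) [a]) ∈ N :=
      ⟨g - G (g []), B.sub_mem hg (hG _), by rw [NS.sub_apply, hG0, sub_self],
        fun a => NS.sub_apply _ _ _⟩
    refine (Finset.sum_congr rfl fun a _ => ?_).trans (hlN _ h0)
    rw [← smul_sub, Algebra.smul_def, hr, hlc]
  let D : U.C →ₗ[U.F] U.C :=
    { toFun := fun c => ∑ a, r a • G c [a]
      map_add' := fun c d => by
        have h := hd (G c + G d) (B.add_mem (hG c) (hG d))
        simp only [NS.add_apply, hG0, smul_add, Finset.sum_add_distrib] at h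
        exact h.symm
      map_smul' := fun s c => by
        have h := hd (s • G c) (B.smul_mem (hG c) s)
        simp only [NS.smul_apply, hG0, smul_comm (r _) s, ← Finset.smul_sum] at h
        exact h.symm }
  have hDmul : ∀ c d, D (c * d) = c * D d + D c * d := fun c d => by
    have h := hd (G c * G d) (B.mul_mem (hG c) (hG d))
    simp only [NS.mul_nil, NS.mul_single, hG0, smul_add, Finset.sum_add_distrib] at h
    refine h.symm.trans ?_
    show _ = c * (∑ a, r a • G d [a]) + (∑ a, r a • G c [a]) * d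
    rw [Finset.mul_sum, Finset.sum_mul]
    simp only [mul_smul_comm, smul_mul_assoc]
  obtain ⟨e, he⟩ := U.exists_inner D hDmul
  have hr0 := hnd r e fun g hg => (hd g hg).trans (he (g []))
  exact hl0 (funext fun a => by rw [← hr a, hr0, Pi.zero_apply, map_zero, Pi.zero_apply])

/-- The same over the Laurent stage. -/
theorem exists_linear_laurent {T : Stg} {n : ℕ}
    (B : Subalgebra (LaurentSeries T.F) (NS n (LaurentSeries T.C)))
    (hs : ∀ c : LaurentSeries T.C, ∃ g ∈ B, g [] = c)
    (hnd : ∀ (l : Fin n → LaurentSeries T.F) (e : LaurentSeries T.C),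
      (∀ g ∈ B, ∑ a, laurentMap (algebraMap T.F T.C) (l a) * g [a] = e * g [] - g [] * e) → l = 0) :
    ∀ u : Fin n → LaurentSeries T.C, ∃ g ∈ B, g [] = 0 ∧ ∀ a, g [a] = u a :=
  exists_linear_of_subalgebra (U := T.laurent) B hs fun l e he =>
    hnd l e fun g hg =>
      (Finset.sum_congr rfl fun a _ => (Algebra.smul_def _ _).symm).trans (he g hg)

variable {K n : ℕ} (P : Point E K) (q : Fin n → Fin K → LaurentSeries E.T.C)
  (hqm : ∀ a i, E.EV (q a i)) (hq0 : ∀ a i, OrdGE 0 (q a i))

/-- The substitution of a growth. -/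
noncomputable def Point.growHom : NS K S.C →+* NS n (LaurentSeries E.T.C) :=
  P.substHom (fun i a => q a i) (fun i a => hq0 a i) (fun i a k => hqm a i k)

theorem Point.growHom_nil (f : NS K S.C) : P.growHom q hqm hq0 f [] = P.eval f :=
  P.substHom_nil _ _ _ f

theorem Point.growHom_single (f : NS K S.C) (a : Fin n) :
    P.growHom q hqm hq0 f [a] = P.D f (q a) :=
  P.substHom_one _ _ _ f a

theorem Point.growHom_const (c : S.C) :
    P.growHom q hqm hq0 (NS.const c) = Point.constι n E c := by
  refine sub_eq_zero.mp ((wordFilt n E.T.C).sep fun k => ?_)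
  have h := P.substFun_sub_trunc (fun i a => q a i) (fun i a => hq0 a i) (NS.const c) k
  rw [NS.trunc_const] at h
  exact (wordFilt n E.T.C).anti (Nat.le_succ k) h

theorem Point.growHom_scalar (a : S.F) :
    P.growHom q hqm hq0 (algebraMap S.F (NS K S.C) a)
      = algebraMap (LaurentSeries E.T.F) (NS n (LaurentSeries E.T.C))
          ((HahnSeries.C : E.T.F →+* LaurentSeries E.T.F).comp E.emb.iF a) := by
  rw [NS.algebraMap_eq, P.growHom_const, NS.algebraMap_eq]
  show NS.const (E.ι (algebraMap S.F S.C a)) = _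
  congr 1
  rw [laurent_algebraMap]
  ext k
  rw [laurentMap_coeff]
  simp only [Sym.ι, RingHom.comp_apply, HahnSeries.C_apply, HahnSeries.coeff_single, E.emb.compat]
  split_ifs <;> simp

theorem Point.growHom_var (i : Fin K) (a : Fin n) : P.growHom q hqm hq0 (NS.var i) [a] = q a i := by
  rw [P.growHom_single]
  refine (P.D_unique (hq0 a) _ _ fun k => ?_).symm
  match k with
  | 0 =>
      rw [show NS.lin E.ι P.p (q a) 0 (NS.var i) = 0 from rfl, sub_zero]
      exact hq0 a i
  | k + 1 =>
      rw [Point.lin_var, sub_self]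
      exact OrdGE.zero

include hq0 in
/-- The derivative along an integral direction is a scaled combination of those along the
transversal and a commutator. -/
theorem Point.D_decomp (f : NS K S.C) {x : Fin K → LaurentSeries E.T.C} (hx0 : ∀ i, OrdGE 0 (x i))
    {c : Fin n → LaurentSeries E.T.F} {e : LaurentSeries E.T.C} (hc0 : ∀ a, OrdGE 0 (c a))
    (he : E.EV e) (hxe : ∀ i, x i = ∑ a, E.lm (c a) * q a i + (e * P.p i - P.p i * e)) :
    ∃ (s : LaurentSeries E.T.F) (e' : LaurentSeries E.T.C), s ≠ 0 ∧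
      E.lm s * P.D f x
        = ∑ a, E.lm (s * c a) * P.D f (q a) + (P.eval f * e' - e' * P.eval f) := by
  classical
  obtain ⟨m, hm⟩ := OrdGE.exists_bound e
  set d : ℕ := (-m).toNat with hd
  set s : LaurentSeries E.T.F := HahnSeries.single (d : ℤ) 1 with hs
  have hs0 : OrdGE 0 (E.lm s) := E.lm_ordGE (OrdGE.single (by omega) 1)
  have hes : OrdGE 0 (E.lm s * e) :=
    ((E.lm_ordGE (OrdGE.single (le_refl (d : ℤ)) 1)).mul hm).mono (by omega)
  set y : Fin K → LaurentSeries E.T.C := fun i => ∑ a, E.lm (s * c a) * q a i with hy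
  set g : Fin K → LaurentSeries E.T.C :=
    fun i => (E.lm s * e) * P.p i - P.p i * (E.lm s * e) with hg
  have hp0 : ∀ i, OrdGE 0 (P.p i) := fun i => (P.small i).mono (by norm_num)
  have hg0 : ∀ i, OrdGE 0 (g i) := fun i =>
    OrdGE.sub (by simpa using hes.mul (hp0 i)) (by simpa using (hp0 i).mul hes)
  have hsc : ∀ a, OrdGE 0 (E.lm (s * c a)) := fun a => by
    rw [map_mul]; simpa using hs0.mul (E.lm_ordGE (hc0 a))
  have hy0 : ∀ i, OrdGE 0 (y i) := fun i =>
    OrdGE.sum _ _ fun a _ => by simpa using (hsc a).mul (hq0 a i)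
  have hxy : (fun i => E.lm s * x i) = y + g := by
    funext i
    simp only [hy, hg, Pi.add_apply, hxe i, mul_add, Finset.mul_sum, map_mul, mul_assoc, mul_sub]
    rw [← mul_assoc (P.p i), ← E.lm_comm s (P.p i), mul_assoc]
  have hDy : P.D f y = ∑ a, E.lm (s * c a) * P.D f (q a) := by
    suffices h : ∀ t : Finset (Fin n),
        P.D f (fun i => ∑ a ∈ t, E.lm (s * c a) * q a i)
          = ∑ a ∈ t, E.lm (s * c a) * P.D f (q a) from h Finset.univ
    intro t
    induction t using Finset.induction with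
    | empty =>
        simp only [Finset.sum_empty]
        have h := P.D_smul hg0 (0 : LaurentSeries E.T.C) OrdGE.zero (fun z => by simp) f
        simpa using h
    | insert a t ha ih =>
        simp only [Finset.sum_insert ha]
        rw [← ih, ← P.D_smul (hq0 a) _ (hsc a) (E.lm_comm _) f]
        exact P.D_add (fun i => by simpa using (hsc a).mul (hq0 a i))
          (fun i => OrdGE.sum _ _ fun b _ => by simpa using (hsc b).mul (hq0 b i)) f
  refine ⟨s, -(E.lm s * e), by simp [hs], ?_⟩
  rw [← P.D_smul hx0 _ hs0 (E.lm_comm s) f, hxy, P.D_add hy0 hg0, hDy]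
  congr 1
  refine (P.D_gauge _ hes ((Sym.EV.lm s).mul he) f).trans ?_
  noncomm_ring

theorem Point.eval_linearIndependent {k : ℕ} {w : Fin k → NS K S.C}
    (hw : LinearIndependent S.F (fun a => w a [])) (c : Fin k → LaurentSeries E.T.F)
    (hc : ∑ a, E.lm (c a) * P.eval (w a) = 0) : ∀ a, c a = 0 := by
  have hind := E.iC_linearIndependent _ hw
  refine eq_zero_of_indep (k := E.T.F) (ι := Unit) (fun a _ => P.eval (w a))
    (fun a _ => P.eval_ordGE _) ?_ c (fun _ => hc)
  refine Fintype.linearIndependent_iff.mpr fun d hd => ?_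
  refine Fintype.linearIndependent_iff.mp hind d ?_
  have h := congrFun hd ()
  simpa [Finset.sum_apply, P.eval_coeff_zero] using h

theorem Point.growHom_linearIndependent {k : ℕ} {w : Fin k → NS K S.C}
    (hw : LinearIndependent S.F (fun a => w a [])) :
    LinearIndependent (LaurentSeries E.T.F) (fun a => P.growHom q hqm hq0 (w a) []) := by
  refine Fintype.linearIndependent_iff.mpr fun c hc => P.eval_linearIndependent hw c ?_
  refine Eq.trans ?_ hc
  refine Finset.sum_congr rfl fun a _ => ?_
  rw [P.growHom_nil, Algebra.smul_def]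
  rfl

/-- Tangent vectors of the child. -/
theorem Point.grow_tangent (f : NS K S.C) {x : Fin K → LaurentSeries E.T.C}
    (hx0 : ∀ i, OrdGE 0 (x i)) {c : Fin n → LaurentSeries E.T.F} {e : LaurentSeries E.T.C}
    (hc0 : ∀ a, OrdGE 0 (c a)) (he : E.EV e)
    (hxe : ∀ i, x i = ∑ a, E.lm (c a) * q a i + (e * P.p i - P.p i * e)) :
    ∃ (c' : Fin n → LaurentSeries E.T.F) (e' : LaurentSeries E.T.C),
      P.D f x = ∑ a, c' a • P.growHom q hqm hq0 f [a]
        + (P.growHom q hqm hq0 f [] * e' - e' * P.growHom q hqm hq0 f []) := by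
  simp only [P.growHom_single, P.growHom_nil, Algebra.smul_def, laurent_algebraMap]
  obtain ⟨s, e', hs, hkey⟩ := P.D_decomp q hq0 f hx0 hc0 he hxe
  refine ⟨c, E.lm s⁻¹ * e', ?_⟩
  have h := congrArg (fun z => E.lm s⁻¹ * z) hkey
  simp only [← mul_assoc, ← map_mul, inv_mul_cancel₀ hs, map_one, one_mul, mul_add, Finset.mul_sum,
    mul_sub] at h
  show _ = ∑ a, E.lm (c a) * P.D f (q a) + _
  rw [h]
  congr 2
  rw [E.lm_comm, mul_assoc]

/-- Constant and linear parts of a series. -/
def constLin (n : ℕ) (T : Stg) :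
    NS n (LaurentSeries T.C) →ₗ[LaurentSeries T.F] (Fin (n + 1) → LaurentSeries T.C) where
  toFun g := Fin.cons (g []) (fun a => g [a])
  map_add' g h := by funext i; refine Fin.cases ?_ (fun a => ?_) i <;> simp
  map_smul' r g := by funext i; refine Fin.cases ?_ (fun a => ?_) i <;> simp [NS.smul_apply]

theorem constLin_eq {T : Stg} {g g' : NS n (LaurentSeries T.C)}
    (h : constLin n T g = constLin n T g') : g [] = g' [] ∧ ∀ a, g [a] = g' [a] := by
  refine ⟨?_, fun a => ?_⟩
  · simpa [constLin] using congrFun h 0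
  · simpa [constLin] using congrFun h a.succ

/-- Series sharing constant and linear parts with a member of a subalgebra. -/
def shareLin {T : Stg} (A : Subalgebra (LaurentSeries T.F) (NS n (LaurentSeries T.C))) :
    Subalgebra (LaurentSeries T.F) (NS n (LaurentSeries T.C)) where
  carrier := {g : NS n (LaurentSeries T.C) |
    constLin n T g ∈ (Subalgebra.toSubmodule A).map (constLin n T)}
  add_mem' := fun {g g'} hg hg' => by
    show constLin n T (g + g') ∈ (Subalgebra.toSubmodule A).map (constLin n T)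
    rw [map_add]; exact Submodule.add_mem _ hg hg'
  mul_mem' := fun {g g'} hg hg' => by
    obtain ⟨u, hu, hue⟩ := hg
    obtain ⟨u', hu', hue'⟩ := hg'
    refine ⟨u * u', A.mul_mem hu hu', ?_⟩
    obtain ⟨a0, a1⟩ := constLin_eq hue
    obtain ⟨b0, b1⟩ := constLin_eq hue'
    funext i
    refine Fin.cases ?_ (fun a => ?_) i
    · simp [constLin, a0, b0]
    · simp [constLin, NS.mul_single, a0, b0, a1, b1]
  algebraMap_mem' := fun r => Submodule.mem_map_of_mem (A.algebraMap_mem r)

/-- The image of the tracked pair is full after substitution along a transversal. -/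
theorem growFull {o : Obj} {M' : ℕ} {E' : Sym o.S M'} (hF : o.Full) (P : Point E' o.K)
    (hP : P.Generates) (q : Fin n → Fin o.K → LaurentSeries E'.T.C)
    (hqm : ∀ a i, E'.EV (q a i)) (hq0 : ∀ a i, OrdGE 0 (q a i))
    (hdis : ∀ (c : Fin n → LaurentSeries E'.T.F) (e : LaurentSeries E'.T.C), E'.EV e →
        (∀ i, ∑ a, E'.lm (c a) * q a i = e * P.p i - P.p i * e) → ∀ a, c a = 0) :
    Obj.Full ⟨E'.T.laurent, n, fun j => P.growHom q hqm hq0 (o.y j), P.growHom q hqm hq0 o.f⟩ := by
  set σ := P.growHom q hqm hq0 with hσ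
  set A := Algebra.adjoin (LaurentSeries E'.T.F) (Set.range fun j => σ (o.y j)) with hA
  have hmemA : ∀ g ∈ Algebra.adjoin o.S.F (Set.range o.y), σ g ∈ A := by
    intro g hg
    induction hg using Algebra.adjoin_induction with
    | mem x hx =>
        obtain ⟨j, rfl⟩ := hx
        exact Algebra.subset_adjoin ⟨j, rfl⟩
    | algebraMap a => rw [hσ, P.growHom_scalar]; exact A.algebraMap_mem _
    | add x y _ _ hx hy => rw [map_add]; exact A.add_mem hx hy
    | mul x y _ _ hx hy => rw [map_mul]; exact A.mul_mem hx hy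
  have hσB : ∀ h, σ h ∈ shareLin A := by
    intro h
    show constLin n E'.T (σ h) ∈ (Subalgebra.toSubmodule A).map (constLin n E'.T)
    refine Stg.laurent_closed E'.T _ _ fun k => ?_
    obtain ⟨g, hg, hgw⟩ := hF.approx k h
    refine ⟨constLin n E'.T (σ g), Submodule.mem_map_of_mem (hmemA g hg), fun i => ?_⟩
    have hlow : ∀ w : List (Fin o.K), w.length ≤ k → (h - g) w = 0 := fun w hw => by
      rw [NS.sub_apply, hgw w hw, sub_self]
    rw [← Pi.sub_apply, ← map_sub, ← map_sub]
    refine Fin.cases ?_ (fun a => ?_) i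
    · show OrdGE (k : ℤ) (σ (h - g) [])
      rw [hσ, P.growHom_nil]
      have h1 := P.eval_sub_trunc (h - g) k
      rw [NS.trunc_of_low E'.ι P.p k _ hlow, sub_zero] at h1
      exact h1.mono (by omega)
    · show OrdGE (k : ℤ) (σ (h - g) [a])
      rw [hσ, P.growHom_single]
      have h1 := P.D_sub_lin (hq0 a) (h - g) k
      rwa [NS.lin_of_low E'.ι P.p (q a) k _ hlow, sub_zero] at h1
  have hsurj : ∀ c : LaurentSeries E'.T.C, ∃ g ∈ shareLin A, g [] = c := by
    let ev : NS n (LaurentSeries E'.T.C) →ₐ[LaurentSeries E'.T.F] LaurentSeries E'.T.C :=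
      { (NS.ev0 : NS n (LaurentSeries E'.T.C) →+* LaurentSeries E'.T.C) with
        commutes' := fun r => rfl }
    have htop : (shareLin A).map ev = ⊤ := by
      rw [eq_top_iff, ← hP, Algebra.adjoin_le_iff]
      rintro _ (⟨c, rfl⟩ | ⟨i, rfl⟩)
      · exact ⟨σ (NS.const c), hσB _, by
          show σ (NS.const c) [] = E'.ι c
          rw [hσ, P.growHom_nil, P.eval_const]⟩
      · exact ⟨σ (NS.var i), hσB _, by
          show σ (NS.var i) [] = P.p i
          rw [hσ, P.growHom_nil, P.eval_var]⟩
    intro c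
    obtain ⟨g, hg, hge⟩ := (htop ▸ Algebra.mem_top : c ∈ (shareLin A).map ev)
    exact ⟨g, hg, hge⟩
  have hlin := exists_linear_laurent (T := E'.T) (shareLin A) hsurj
    fun l e he => by
      have heE : E'.EV e := fun k => (E'.mem_E_iff _).mpr fun c => by
        have h := he (σ (NS.const c)) (hσB _)
        have hz : ∀ a, σ (NS.const c) [a] = 0 := fun a => by rw [hσ, P.growHom_const]; rfl
        simp only [hz, mul_zero, Finset.sum_const_zero] at h
        simp only [hσ, P.growHom_nil, P.eval_const] at h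
        have h2 := congrArg (fun z : LaurentSeries E'.T.C => z.coeff k) (sub_eq_zero.mp h.symm)
        simpa [Sym.ι, HahnSeries.coeff_mul_single_zero, HahnSeries.coeff_single_zero_mul] using h2
      funext a
      refine hdis l e heE (fun i => ?_) a
      have h := he (σ (NS.var i)) (hσB _)
      simp only [hσ, P.growHom_nil, P.eval_var, P.growHom_var] at h
      exact h
  have key : ∀ (c : LaurentSeries E'.T.C) (u : Fin n → LaurentSeries E'.T.C),
      ∃ g ∈ A, g [] = c ∧ ∀ a, g [a] = u a := by
    intro c u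
    obtain ⟨h, hh, h0⟩ := hsurj c
    obtain ⟨g, hg, g0, g1⟩ := hlin fun a => u a - h [a]
    obtain ⟨g', hg', hge⟩ := (shareLin A).add_mem hh hg
    obtain ⟨e0, e1⟩ := constLin_eq hge
    refine ⟨g', hg', e0.trans ?_, fun a => (e1 a).trans ?_⟩
    · rw [NS.add_apply, h0, g0, add_zero]
    · rw [NS.add_apply, g1]; abel
  exact fun c u => key c u

theorem Obj.mem_T (o : Obj) (c : Fin o.K → o.S.F) (e : o.S.C) :
    ∑ a, c a • o.f [a] + (o.f [] * e - e * o.f []) ∈ o.T :=
  Submodule.add_mem _ (Submodule.mem_sup_left ⟨c, rfl⟩) (Submodule.mem_sup_right ⟨e, rfl⟩)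

/-- Growth along a generating point. -/
theorem exists_growth {o : Obj} {M' : ℕ} {E' : Sym o.S M'} (hF : o.Full) (hK : 2 ≤ o.K)
    (P : Point E' o.K) (hP : P.Generates) : Nonempty (Growth o E' P) := by
  obtain ⟨n, q, hn, hqm, hq0, hdis, hsplit⟩ := P.exists_transversal hK
  refine ⟨{
    K := n
    f := P.growHom q hqm hq0 o.f
    y := fun j => P.growHom q hqm hq0 (o.y j)
    two_le := hn
    mor := {
      iF := (HahnSeries.C : E'.T.F →+* LaurentSeries E'.T.F).comp E'.emb.iF
      σ := P.growHom q hqm hq0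
      σ_scalar := P.growHom_scalar q hqm hq0
      σ_f := rfl
      σ_y := fun j => rfl
      indep := ?indep }
    full := growFull hF P hP q hqm hq0 hdis
    base := P.growHom_nil q hqm hq0 o.f
    tangent := ?tangent
    q := q
    q_mem := hqm
    q_int := hq0
    lin := fun a k => by
      rw [P.deriv_eq (hq0 a) (hqm a)]
      exact congrArg (fun z : LaurentSeries E'.T.C => z.coeff k)
        (P.growHom_single q hqm hq0 o.f a)
    quad := fun a c k hk => by
      show (P.substFun (fun i a => q a i) o.f [a, c]).coeff k = 0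
      rw [Point.substFun, lsLim_coeff, if_pos hk]
    split := hsplit }⟩
  case indep => exact fun k w hw => P.growHom_linearIndependent q hqm hq0 hw
  case tangent =>
    intro x v hx hx0 hv
    have e0 : v = P.D o.f x := HahnSeries.ext (funext fun k => by
      rw [hv, P.deriv_eq hx0 hx])
    obtain ⟨c, e, hc0, he, hxe⟩ := hsplit x hx hx0
    obtain ⟨c', e', hkey⟩ := P.grow_tangent q hqm hq0 o.f hx0 hc0 he hxe
    rw [e0, hkey]
    exact Obj.mem_T ⟨E'.T.laurent, n, fun j => P.growHom q hqm hq0 (o.y j),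
      P.growHom q hqm hq0 o.f⟩ c' e'

/-- Growths exist along generating points. -/
theorem growExists_holds : GrowExistsStmt := fun _ _ hF hK _ _ P hP => exists_growth hF hK P hP

end P199K
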