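import Mathlib
import Vale.Agent.P199.Kurosh.Stmts

/-! From the module statement to the wording of the problem. -/

namespace P199K

theorem kurosh_wording (h : KuroshStmt) :
    ∃ (D : Type) (_ : DivisionRing D),
      (∀ x : D, IsAlgebraic (Subring.center D) x) ∧
      (∃ s : Finset D, Algebra.adjoin (Subring.center D) (s : Set D) = ⊤ ∧
        ¬ Module.Finite (Subring.center D) D) ∧
      ∃ (k : Type) (_ : Field k) (_ : Algebra k D), Algebra.IsAlgebraic k D ∧
        Algebra.FiniteType k D ∧ ¬ FiniteDimensional k D := by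
  classical
  obtain ⟨D, hD, k, hk, hA, a, b, halg, hgen, hinf, hcalg, hcinf⟩ := h
  refine ⟨D, hD, fun x => hcalg.isAlgebraic x, ⟨{a, b}, ?_, hcinf⟩, k, hk, hA, halg, ?_, hinf⟩
  · rw [eq_top_iff]
    intro x _
    have hx : x ∈ Algebra.adjoin k ({a, b} : Set D) := hgen ▸ Algebra.mem_top
    refine Algebra.adjoin_induction (p := fun y _ =>
      y ∈ Algebra.adjoin (Subring.center D) ((({a, b} : Finset D) : Finset D) : Set D))
      ?_ ?_ ?_ ?_ hx
    · intro y hy
      exact Algebra.subset_adjoin (by simpa using hy)
    · intro r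
      exact (Algebra.adjoin (Subring.center D) _).algebraMap_mem
        (⟨algebraMap k D r, Subring.mem_center_iff.2 fun g => (Algebra.commutes r g).symm⟩ :
          Subring.center D)
    · intro x y _ _ hx hy
      exact add_mem hx hy
    · intro x y _ _ hx hy
      exact mul_mem hx hy
  · exact ⟨⟨{a, b}, by simpa using hgen⟩⟩

end P199K
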