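import Vale.Agent.P199.Kurosh.LimitKit
import Vale.Agent.P199.Kurosh.Alg
import Vale.Agent.P199.QBinom

/-!
The limit module: along an approaching point, the constant terms of the cokernel of the child lie in
`KZ`, the degree of the base value jumps by `M`, and the child of a minimal state is minimal.
-/

open Module Polynomial

namespace P199K.Lim

open Vale.Agent.P199

section Inverse

theorem exists_inverse {S : Stg} {h : LaurentSeries S.C} (h0 : OrdGE 0 h) (h1 : h.coeff 0 = 1) :
    ∃ h' : LaurentSeries S.C, h * h' = 1 ∧ h' * h = 1 ∧ OrdGE 0 h' ∧ h'.coeff 0 = 1 := by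
  have hne : (h : S.laurent.C) ≠ 0 := fun e => by
    have e' : h = (0 : LaurentSeries S.C) := e
    rw [e', HahnSeries.coeff_zero] at h1
    exact zero_ne_one h1
  let hL : S.laurent.C := h
  let h' : LaurentSeries S.C := (hL⁻¹ : S.laurent.C)
  have hne' : hL ≠ 0 := hne
  have e1' : hL * hL⁻¹ = 1 := mul_inv_cancel₀ hne'
  have e2' : hL⁻¹ * hL = 1 := inv_mul_cancel₀ hne'
  have e1 : h * h' = 1 := e1'
  have e2 : h' * h = 1 := e2'
  have hi : OrdGE 0 h' := by
    by_contra hc
    have hn : h' ≠ 0 := fun e => hc (by rw [e]; exact ordGE_zero 0)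
    have hk : h'.order < 0 := by
      by_contra hk
      exact hc fun m hm => HahnSeries.coeff_eq_zero_of_lt_order (by omega)
    have h3 := (OrdGE.mul (a := h'.order) (b := 0) (x := h')
      (fun m hm => HahnSeries.coeff_eq_zero_of_lt_order hm) h0).2
    rw [e2, add_zero, h1, mul_one, HahnSeries.coeff_one, if_neg hk.ne] at h3
    exact hn (HahnSeries.coeff_order_eq_zero.1 h3.symm)
  refine ⟨h', e1, e2, hi, ?_⟩
  have h3 := (OrdGE.mul₀ hi h0).2
  rw [e2, h1, mul_one, HahnSeries.coeff_one, if_pos rfl] at h3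
  exact h3.symm

end Inverse

section Monomials

variable {S : Stg} {M : ℕ} (E : Sym S M)

/-- The monomial basis of a symbol extension. -/
noncomputable def monBasis : Basis (Fin S.dim × Fin M × Fin M) E.T.F E.T.C :=
  basisOfTopLeSpanOfCardEqFinrank
    (fun p => E.emb.iC (S.bas p.1) * E.X ^ (p.2.1 : ℕ) * E.Y ^ (p.2.2 : ℕ))
    (by
      rw [← E.span, Submodule.span_le]
      rintro _ ⟨⟨c, r, s⟩, rfl⟩
      simp only
      rw [← S.bas.sum_repr c, map_sum, Finset.sum_mul, Finset.sum_mul]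
      refine Submodule.sum_mem _ fun i _ => ?_
      rw [Algebra.smul_def, map_mul, E.emb.compat, ← Algebra.smul_def, smul_mul_assoc,
        smul_mul_assoc]
      exact Submodule.smul_mem _ _ (Submodule.subset_span ⟨(i, r, s), rfl⟩))
    (by
      rw [Fintype.card_prod, Fintype.card_prod, Fintype.card_fin, Fintype.card_fin, ← sq]
      exact E.dim_eq.symm)

theorem monBasis_apply (p) :
    monBasis E p = E.emb.iC (S.bas p.1) * E.X ^ (p.2.1 : ℕ) * E.Y ^ (p.2.2 : ℕ) := by
  simp [monBasis]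

/-- A functional of the coefficients applied to one monomial slot. -/
noncomputable def slot (φ : S.C →ₗ[S.F] S.F) (r s : Fin M) : E.T.C →ₗ[E.T.F] E.T.F :=
  ∑ c, E.emb.iF (φ (S.bas c)) • (monBasis E).coord (c, r, s)

theorem slot_apply (φ : S.C →ₗ[S.F] S.F) (r s r' s' : Fin M) (x : S.C) :
    slot E φ r s (E.emb.iC x * E.X ^ (r' : ℕ) * E.Y ^ (s' : ℕ)) =
      if r' = r ∧ s' = s then E.emb.iF (φ x) else 0 := by
  conv_lhs => rw [← S.bas.sum_repr x]
  simp only [map_sum, Finset.sum_mul]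
  have hb : ∀ i, E.emb.iC (S.bas.repr x i • S.bas i) * E.X ^ (r' : ℕ) * E.Y ^ (s' : ℕ) =
      E.emb.iF (S.bas.repr x i) • monBasis E (i, r', s') := fun i => by
    rw [monBasis_apply, Algebra.smul_def, map_mul, E.emb.compat, ← Algebra.smul_def, smul_mul_assoc,
      smul_mul_assoc]
  simp only [hb, map_smul, slot, LinearMap.sum_apply, LinearMap.smul_apply, Basis.coord_apply,
    Basis.repr_self]
  by_cases h : r' = r ∧ s' = s
  · rw [if_pos h]
    obtain ⟨rfl, rfl⟩ := h
    conv_rhs => rw [← S.bas.sum_repr x]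
    simp only [map_sum, map_smul, smul_eq_mul, map_mul]
    refine Finset.sum_congr rfl fun i _ => ?_
    rw [Finset.sum_eq_single i]
    · simp
    · intro c _ hc
      simp [Ne.symm hc]
    · simp
  · rw [if_neg h]
    refine Finset.sum_eq_zero fun i _ => ?_
    rw [Finset.sum_eq_zero, smul_zero]
    intro c _
    rw [Finsupp.single_eq_of_ne, smul_zero]
    simp only [ne_eq, Prod.mk.injEq]
    tauto

/-- Left inverses of an independent family. -/
theorem exists_dual_family {ι : Type} [Fintype ι] [DecidableEq ι] {x : ι → S.C}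
    (h : LinearIndependent S.F x) :
    ∃ φ : ι → S.C →ₗ[S.F] S.F, ∀ i j, φ i (x j) = if i = j then 1 else 0 := by
  obtain ⟨g, hg⟩ := LinearMap.exists_leftInverse_of_injective (Fintype.linearCombination S.F x)
    (LinearMap.ker_eq_bot.2 h.fintypeLinearCombination_injective)
  refine ⟨fun i => (LinearMap.proj i).comp g, fun i j => ?_⟩
  have h1 := LinearMap.congr_fun hg (Pi.single j 1)
  rw [LinearMap.comp_apply, Fintype.linearCombination_apply_single, one_smul,
    LinearMap.id_apply] at h1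
  simp [h1, Pi.single_apply]

/-- `θ^i (αX + βY)^j` are independent for `i < deg θ`, `j < M`. -/
theorem indep_family {θ α β : S.C} (hαβ : Commute α β) (hα : α ≠ 0) :
    LinearIndependent E.T.F fun p : Fin (minpoly S.F θ).natDegree × Fin M =>
      E.emb.iC θ ^ (p.1 : ℕ) * (E.emb.iC α * E.X + E.emb.iC β * E.Y) ^ (p.2 : ℕ) := by
  classical
  have hi : ∀ j : ℕ, LinearIndependent S.F
      fun i : Fin (minpoly S.F θ).natDegree => θ ^ (i : ℕ) * α ^ j := fun j =>
    (linearIndependent_pow θ).map' (LinearMap.mulRight S.F (α ^ j))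
      (LinearMap.ker_eq_bot.2 fun a b hab => mul_right_cancel₀ (pow_ne_zero j hα) hab)
  choose φ hφ using fun j : Fin M => exists_dual_family (hi j)
  have hM : ∀ j : Fin M, 0 < M := fun j => lt_of_le_of_lt (Nat.zero_le _) j.2
  refine Fintype.linearIndependent_iff.2 fun g hg p₀ => ?_
  have hq : E.Y * E.X = E.emb.iF E.ζ • (E.X * E.Y) := by rw [E.YX, Algebra.smul_def]
  have key : ∀ p : Fin (minpoly S.F θ).natDegree × Fin M,
      slot E (φ p₀.2 p₀.1) p₀.2 ⟨0, hM p₀.2⟩
        (E.emb.iC θ ^ (p.1 : ℕ) * (E.emb.iC α * E.X + E.emb.iC β * E.Y) ^ (p.2 : ℕ)) =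
      if p = p₀ then 1 else 0 := by
    rintro ⟨i, j⟩
    simp only
    rw [qbinom_theorem hq (hαβ.map E.emb.iC) (E.X_comm α).symm (E.Y_comm α).symm
      (E.X_comm β).symm (E.Y_comm β).symm, Finset.mul_sum, map_sum]
    rw [Finset.sum_eq_single (j : ℕ)]
    · rw [qbin_self, one_smul, Nat.sub_self, pow_zero, mul_one, ← mul_assoc, ← map_pow, ← map_pow,
        ← map_mul, ← mul_assoc]
      rw [show (E.Y ^ 0 : E.T.C) = E.Y ^ ((⟨0, hM p₀.2⟩ : Fin M) : ℕ) from rfl, slot_apply]
      by_cases hj : j = p₀.2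
      · subst hj
        rw [if_pos ⟨rfl, rfl⟩, hφ]
        by_cases h' : p₀.1 = i
        · rw [if_pos h', map_one, if_pos (Prod.ext h'.symm rfl : (i, p₀.2) = p₀)]
        · rw [if_neg h', map_zero, if_neg]
          intro e
          exact h' (congrArg Prod.fst e).symm
      · rw [if_neg (fun e => hj e.1), if_neg]
        intro e
        exact hj (congrArg Prod.snd e)
    · intro k hk hkj
      have hk' : k < j := by
        have := Finset.mem_range.1 hk
        omega
      rw [mul_smul_comm, map_smul, ← map_pow, ← map_pow, ← map_pow, ← mul_assoc, ← map_mul,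
        ← map_mul, ← mul_assoc, show E.Y ^ ((j : ℕ) - k) = E.Y ^
          ((⟨(j : ℕ) - k, by omega⟩ : Fin M) : ℕ) from rfl,
        show E.X ^ k = E.X ^ ((⟨k, by omega⟩ : Fin M) : ℕ) from rfl, slot_apply, if_neg, smul_zero]
      rintro ⟨-, e⟩
      have := congrArg Fin.val e
      simp only at this
      omega
    · intro h
      exact absurd (Finset.mem_range.2 (Nat.lt_succ_self _)) h
  have := congrArg (slot E (φ p₀.2 p₀.1) p₀.2 ⟨0, hM p₀.2⟩) hg
  simp only [map_sum, map_smul, key, smul_eq_mul, mul_ite, mul_one, mul_zero,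
    Finset.sum_ite_eq', Finset.mem_univ, if_true, map_zero] at this
  exact this

theorem one_mem_E (hM : 0 < M) : (1 : E.T.C) ∈ E.E :=
  Submodule.subset_span ⟨(⟨0, hM⟩, ⟨0, hM⟩), by simp⟩

theorem E_commute {e : E.T.C} (he : e ∈ E.E) (c : S.C) : Commute (E.emb.iC c) e := by
  induction he using Submodule.span_induction with
  | mem x hx =>
      obtain ⟨p, rfl⟩ := hx
      exact ((show Commute (E.emb.iC c) E.X from (E.X_comm c).symm).pow_right _).mul_right
        ((show Commute (E.emb.iC c) E.Y from (E.Y_comm c).symm).pow_right _)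
  | zero => exact Commute.zero_right _
  | add a b _ _ ha hb => exact ha.add_right hb
  | smul r a _ ha => exact ha.smul_right r

end Monomials

section Along

variable {o : Obj} {M : ℕ} {E : Sym o.S M} {m : Model o} {P : Point E o.K}

theorem W_le_cent : o.W ≤ o.S.cent o.θ := inf_le_right

theorem Z_eq : m.Z E = E.emb.iC (m.ω * m.w0) * E.X + E.emb.iC (m.ω * m.w1) * E.Y := by
  simp only [Model.Z, map_mul, mul_add, mul_assoc]

theorem Z_commute : Commute (E.emb.iC o.θ) (m.Z E) := by
  have h0 : Commute o.θ (m.ω * m.w0) := (mem_cent _).1 (W_le_cent m.w0_mem)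
  have h1 : Commute o.θ (m.ω * m.w1) := (mem_cent _).1 (W_le_cent m.w1_mem)
  rw [Z_eq]
  exact ((h0.map E.emb.iC).mul_right (E.X_comm _).symm).add_right
    ((h1.map E.emb.iC).mul_right (E.Y_comm _).symm)

variable (A : Approach m E P)

/-- The inverse of the conjugating series. -/
noncomputable def hinv : LaurentSeries E.T.C := (exists_inverse A.h_int A.h_lead).choose

theorem hinv_spec : A.h * hinv A = 1 ∧ hinv A * A.h = 1 ∧ OrdGE 0 (hinv A) ∧
    (hinv A).coeff 0 = 1 := (exists_inverse A.h_int A.h_lead).choose_spec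

/-- Conjugation by the series of the approach, as a linear map. -/
noncomputable def conj : LaurentSeries E.T.C →ₗ[LaurentSeries E.T.F] LaurentSeries E.T.C :=
  (LinearMap.mulRight _ A.h).comp (LinearMap.mulLeft _ (hinv A))

theorem conj_apply (x : LaurentSeries E.T.C) : conj A x = hinv A * x * A.h := rfl

theorem conj_mul (x y : LaurentSeries E.T.C) : conj A (x * y) = conj A x * conj A y := by
  simp only [conj_apply, mul_assoc]
  rw [← mul_assoc A.h (hinv A), (hinv_spec A).1, one_mul]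

theorem conj_one : conj A 1 = 1 := by rw [conj_apply, mul_one, (hinv_spec A).2.1]

theorem conj_pow (x : LaurentSeries E.T.C) : ∀ k : ℕ, conj A (x ^ k) = conj A x ^ k
  | 0 => by rw [pow_zero, pow_zero, conj_one]
  | k + 1 => by rw [pow_succ, pow_succ, conj_mul, conj_pow x k]

theorem conj_algebraMap (c : LaurentSeries E.T.F) :
    conj A (algebraMap _ (LaurentSeries E.T.C) c) = algebraMap _ _ c := by
  rw [conj_apply, ← Algebra.commutes, mul_assoc, (hinv_spec A).2.1, mul_one]

theorem conj_lead {x : LaurentSeries E.T.C} (hx : OrdGE 0 x) :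
    OrdGE 0 (conj A x) ∧ (conj A x).coeff 0 = x.coeff 0 := by
  have h1 := OrdGE.mul₀ (hinv_spec A).2.2.1 hx
  have h2 := OrdGE.mul₀ h1.1 A.h_int
  exact ⟨h2.1, by rw [conj_apply, h2.2, h1.2, (hinv_spec A).2.2.2, A.h_lead, one_mul, mul_one]⟩

theorem conj_ordGE_iff {x : LaurentSeries E.T.C} (hx : OrdGE 0 (conj A x)) :
    OrdGE 0 x ∧ x.coeff 0 = (conj A x).coeff 0 := by
  have e : x = A.h * conj A x * hinv A := by
    rw [conj_apply]
    simp only [← mul_assoc]
    rw [(hinv_spec A).1, one_mul, mul_assoc, (hinv_spec A).1, mul_one]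
  have h1 := OrdGE.mul₀ A.h_int hx
  have h2 := OrdGE.mul₀ h1.1 (hinv_spec A).2.2.1
  constructor
  · rw [e]; exact h2.1
  · conv_lhs => rw [e, h2.2, h1.2, (hinv_spec A).2.2.2, A.h_lead, one_mul, mul_one]

/-- The conjugated value is `θ + s^n a` to order `n`. -/
theorem conj_eval : Jet (A.n : ℤ) (conj A (P.eval o.f)) (E.emb.iC o.θ) A.a := by
  set B : LaurentSeries E.T.C := E.ι o.θ + HahnSeries.single (A.n : ℤ) A.a
  set R : LaurentSeries E.T.C := P.eval o.f * A.h - A.h * B with hR
  have e : conj A (P.eval o.f) = B + hinv A * R := by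
    rw [conj_apply, hR, mul_sub, ← mul_assoc, ← mul_assoc (hinv A) A.h, (hinv_spec A).2.1, one_mul]
    abel
  have hR' := OrdGE.mul (hinv_spec A).2.2.1 A.value
  rw [zero_add] at hR'
  have e2 : conj A (P.eval o.f) - HahnSeries.C (E.emb.iC o.θ) =
      HahnSeries.single (A.n : ℤ) A.a + hinv A * R := by
    rw [e]
    show E.ι o.θ + _ + _ - _ = _
    rw [Sym.ι, RingHom.comp_apply]
    abel
  refine ⟨e2 ▸ OrdGE.add (ordGE_single _ _) (OrdGE.mono hR'.1 (by omega)), ?_⟩
  rw [e, HahnSeries.coeff_add, hR'.1 _ (by omega), add_zero]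
  show (E.ι o.θ + _).coeff _ = _
  rw [HahnSeries.coeff_add, HahnSeries.coeff_single_same, Sym.ι, RingHom.comp_apply,
    HahnSeries.C_apply, HahnSeries.coeff_single_of_ne (by have := A.pos; omega), zero_add]

/-- Scalars of the base inside Laurent series. -/
noncomputable def sF (E : Sym o.S M) : o.S.F →+* LaurentSeries E.T.F :=
  (HahnSeries.C : E.T.F →+* LaurentSeries E.T.F).comp E.emb.iF

theorem algebraMap_sF (c : o.S.F) :
    algebraMap _ (LaurentSeries E.T.C) (sF E c) =
      HahnSeries.C (E.emb.iC (algebraMap o.S.F o.S.C c)) := by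
  rw [E.emb.compat, sF, RingHom.comp_apply, laurent_algebraMap]
  exact HahnSeries.map_C _ _

/-- A polynomial in the value, to order `n`. -/
theorem conj_aeval (Q : Polynomial o.S.F) :
    Jet (A.n : ℤ) (conj A (aeval (P.eval o.f) (Q.map (sF E)))) (E.emb.iC (aeval o.θ Q))
      (E.emb.iC (aeval o.θ (derivative Q)) * m.Z E +
        (E.emb.iC (aeval o.θ Q) * A.b - A.b * E.emb.iC (aeval o.θ Q))) := by
  have hn : (0 : ℤ) < A.n := by exact_mod_cast A.pos
  induction Q using Polynomial.induction_on with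
  | C c =>
    have hc : E.emb.iC (algebraMap o.S.F o.S.C c) * A.b =
        A.b * E.emb.iC (algebraMap o.S.F o.S.C c) := by
      rw [E.emb.compat]; exact Algebra.commutes _ _
    simp only [Polynomial.map_C, aeval_C, derivative_C, map_zero, zero_mul, hc, sub_self, add_zero]
    rw [conj_algebraMap, algebraMap_sF]
    exact Jet.const hn _
  | add p q hp hq =>
    have := Jet.add hp hq
    simp only [Polynomial.map_add, map_add, add_mul, mul_add] at this ⊢
    convert this using 1
    abel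
  | monomial k r ih =>
    rw [pow_succ, ← mul_assoc]
    generalize Polynomial.C r * Polynomial.X ^ k = q at ih ⊢
    have hz : m.Z E * E.emb.iC o.θ = E.emb.iC o.θ * m.Z E := Z_commute.eq.symm
    have := Jet.mul hn ih (conj_eval A)
    rw [← conj_mul] at this
    simp only [Polynomial.map_mul, Polynomial.map_X, map_mul, aeval_X, derivative_mul,
      derivative_X, mul_one, map_add, add_mul] at this ⊢
    convert this using 1
    rw [A.a_eq]
    simp only [mul_add, sub_mul, mul_sub, mul_assoc, hz]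
    abel

variable (G : Growth o E P)

/-- The cokernel of the child, as a subspace of Laurent series. -/
noncomputable def KcL : Submodule (LaurentSeries E.T.F) (LaurentSeries E.T.C) := G.child.Kc

theorem child_commute {z : LaurentSeries E.T.C}
    (hz : (z : G.child.S.C) ∈ G.child.S.cent G.child.θ) : P.eval o.f * z = z * P.eval o.f := by
  have h := (mem_cent _).1 hz
  rw [show G.child.θ = P.eval o.f from G.base] at h
  exact h

include A in
/-- Constant terms of elements commuting with the value commute with `θ` and with `Z`. -/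
theorem lead_commute {z : LaurentSeries E.T.C} (hc : P.eval o.f * z = z * P.eval o.f)
    (hz : OrdGE 0 z) :
    E.emb.iC o.θ * z.coeff 0 = z.coeff 0 * E.emb.iC o.θ ∧
      m.Z E * z.coeff 0 = z.coeff 0 * m.Z E := by
  set u := E.emb.iC o.θ
  set z₀ := z.coeff 0
  set w := conj A z
  set t := conj A (P.eval o.f)
  obtain ⟨hw, hw0⟩ := conj_lead A hz
  have ht := conj_eval A
  have hn : (0 : ℤ) < A.n := by exact_mod_cast A.pos
  have htw : t * w = w * t := by rw [← conj_mul, hc, conj_mul]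
  have h0 : (t * w).coeff 0 = (w * t).coeff 0 := by rw [htw]
  rw [(OrdGE.mul₀ (ht.ordGE hn).1 hw).2, (OrdGE.mul₀ hw (ht.ordGE hn).1).2, hw0,
    (ht.ordGE hn).2] at h0
  refine ⟨h0, ?_⟩
  have hsub : ∀ x : LaurentSeries E.T.C, x = (x - HahnSeries.C u) + HahnSeries.C u :=
    fun x => (sub_add_cancel _ _).symm
  have hcn : (t - HahnSeries.C u).coeff (A.n : ℤ) = A.a := by
    rw [HahnSeries.coeff_sub, HahnSeries.C_apply, HahnSeries.coeff_single_of_ne hn.ne', sub_zero,
      ht.2]
  have h1 : (t * w).coeff (A.n : ℤ) = A.a * z₀ + u * w.coeff A.n := by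
    conv_lhs => rw [hsub t, add_mul, HahnSeries.coeff_add]
    have := (OrdGE.mul ht.1 hw).2
    rw [add_zero] at this
    rw [this, hcn, hw0, HahnSeries.C_apply, HahnSeries.coeff_single_zero_mul]
  have h2 : (w * t).coeff (A.n : ℤ) = z₀ * A.a + w.coeff A.n * u := by
    conv_lhs => rw [hsub t, mul_add, HahnSeries.coeff_add]
    have := (OrdGE.mul hw ht.1).2
    rw [zero_add] at this
    rw [this, hcn, hw0, HahnSeries.C_apply, HahnSeries.coeff_mul_single_zero]
  have h3 : A.a * z₀ + u * w.coeff A.n = z₀ * A.a + w.coeff A.n * u := by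
    rw [← h1, ← h2, htw]
  set Z := m.Z E
  have hZ : u * Z = Z * u := Z_commute.eq
  have ha : A.a = Z + (u * A.b - A.b * u) := A.a_eq
  replace h0 : u * z₀ = z₀ * u := h0
  have hmem : Z * z₀ - z₀ * Z ∈ LinearMap.range (E.T.ad u) ⊓ E.T.cent u := by
    refine ⟨⟨z₀ * A.b - A.b * z₀ - w.coeff A.n, ?_⟩, ?_⟩
    · have e : A.a * z₀ - z₀ * A.a = w.coeff A.n * u - u * w.coeff A.n := by
        rw [sub_eq_sub_iff_add_eq_add, h3, add_comm]
      rw [ha] at e
      rw [ad_apply, ← sub_eq_zero, ← neg_eq_zero]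
      have hu : ∀ y, u * (z₀ * y) = z₀ * (u * y) := fun y => by rw [← mul_assoc, h0, mul_assoc]
      rw [← sub_eq_zero] at e
      rw [← e]
      simp only [add_mul, mul_add, sub_mul, mul_sub, mul_assoc, hu, h0]
      abel
    · refine (mem_cent _).2 ?_
      have hu : ∀ y, u * (z₀ * y) = z₀ * (u * y) := fun y => by rw [← mul_assoc, h0, mul_assoc]
      have hu' : ∀ y, u * (Z * y) = Z * (u * y) := fun y => by rw [← mul_assoc, hZ, mul_assoc]
      simp only [mul_sub, sub_mul, mul_assoc, hu, hu', h0, hZ]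
  rw [range_inf_cent, Submodule.mem_bot, sub_eq_zero] at hmem
  exact hmem

theorem deriv_low {k : ℤ} (hk : k ≤ 0) (f : NS o.K o.S.C) (x : Fin o.K → LaurentSeries E.T.C) :
    P.deriv f x k = ∑ i, (E.ι (f [i]) * x i).coeff k := by
  have h : k.toNat = 0 := by omega
  rw [Point.deriv, h, Finset.sum_range_succ, Finset.sum_range_succ, Finset.sum_range_zero]
  simp only [Finset.univ_eq_empty, Finset.sum_empty, Finset.sum_const_zero, zero_add]
  rw [← (Equiv.funUnique (Fin 1) (Fin o.K)).symm.sum_comp]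
  refine Finset.sum_congr rfl fun i _ => ?_
  rw [Fin.sum_univ_one]
  simp [NS.wordProd]

/-- The constant term of an integral element of the cokernel is orthogonal to `W ⊗ E`. -/
theorem lead_orth {z : LaurentSeries E.T.C} (hz : (z : G.child.S.C) ∈ G.child.Kc) (hz0 : OrdGE 0 z)
    (hu : E.emb.iC o.θ * z.coeff 0 = z.coeff 0 * E.emb.iC o.θ) :
    z.coeff 0 ∈ E.T.orth
      (Submodule.span E.T.F {z | ∃ w ∈ o.W, ∃ e ∈ E.E, z = E.emb.iC w * e}) := by
  refine Stg.mem_orth_span.2 ?_
  rintro _ ⟨w, hw, e, he, rfl⟩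
  obtain ⟨_, ⟨x, rfl⟩, _, ⟨c, rfl⟩, rfl⟩ := Submodule.mem_sup.1 hw.1
  rw [map_add, add_mul, mul_add, map_add]
  have h2 : E.T.τ (z.coeff 0 * (E.emb.iC (o.S.ad o.θ c) * e)) = 0 := by
    have : E.emb.iC (o.S.ad o.θ c) * e =
        E.emb.iC o.θ * (E.emb.iC c * e) - E.emb.iC c * e * E.emb.iC o.θ := by
      rw [ad_apply, map_sub, map_mul, map_mul, sub_mul, mul_assoc, mul_assoc,
        mul_assoc (E.emb.iC c) e, (E_commute E he o.θ).eq]
    rw [this, τ_ad, hu, sub_self, zero_mul, map_zero]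
  let ξ : Fin o.K → LaurentSeries E.T.C := fun i => HahnSeries.C (E.emb.iF (x i) • e)
  have hξE : ∀ i n, (ξ i).coeff n ∈ E.E := fun i n => by
    rcases eq_or_ne n 0 with rfl | hn
    · simp only [ξ, HahnSeries.C_apply, HahnSeries.coeff_single_same]
      exact E.E.smul_mem _ he
    · simp only [ξ, HahnSeries.C_apply, HahnSeries.coeff_single_of_ne hn]
      exact E.E.zero_mem
  have hneg : ∀ k : ℤ, k < 0 → P.deriv o.f ξ k = 0 := fun k hk => by
    rw [deriv_low hk.le]
    refine Finset.sum_eq_zero fun i _ => ?_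
    exact (OrdGE.mul₀ (ordGE_C _) (ordGE_C _)).1 k hk
  let v : LaurentSeries E.T.C := HahnSeries.ofSuppBddBelow (fun k : ℤ => P.deriv o.f ξ k)
    ⟨0, fun k hk => by
      by_contra h
      exact hk (hneg k (not_le.1 h))⟩
  have hv0 : OrdGE 0 v := fun k hk => hneg k hk
  have hv : v.coeff 0 = E.emb.iC (o.Df x) * e := by
    show P.deriv o.f ξ 0 = _
    rw [deriv_low le_rfl]
    show _ = E.emb.iC (∑ i, x i • o.f [i]) * e
    rw [map_sum, Finset.sum_mul]
    refine Finset.sum_congr rfl fun i _ => ?_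
    simp only [ξ, Sym.ι, RingHom.comp_apply]
    rw [← map_mul, HahnSeries.C_apply, HahnSeries.coeff_single_same]
    rw [Algebra.smul_def (x i), map_mul, E.emb.compat, ← Algebra.smul_def, smul_mul_assoc,
      mul_smul_comm]
  have hT := G.tangent ξ v hξE (fun i => ordGE_C _) fun k => rfl
  have hτ : E.T.laurent.τ (z * v : LaurentSeries E.T.C) = 0 := hz v hT
  have h1 := τ_laurent_coeff E.T (z * v) 0
  rw [(OrdGE.mul₀ hz0 hv0).2, hv, hτ] at h1
  rw [h2, add_zero, ← h1]
  rfl

include A in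
/-- Constant terms of the cokernel of the child lie in `KZ`. -/
theorem lead_Kc_le : lead (S := E.T) (KcL G) ≤ m.KZ E := by
  rintro _ ⟨z, hz, hz0, rfl⟩
  obtain ⟨hu, hZ⟩ := lead_commute A (child_commute G (Kc_le_cent G.child hz)) hz0
  exact ⟨⟨(mem_cent _).2 hu, (mem_cent _).2 hZ⟩, lead_orth G hz hz0 hu⟩

include A in
theorem finrank_Kc_le : finrank G.child.S.F G.child.Kc ≤ finrank E.T.F (m.KZ E) :=
  (finrank_le_lead (S := E.T) (KcL G)).trans (Submodule.finrank_mono (lead_Kc_le A G))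

theorem eval_mem_gen (Q : Polynomial (LaurentSeries E.T.F)) :
    ((aeval (P.eval o.f) Q : LaurentSeries E.T.C) : G.child.S.C) ∈ G.child.S.gen G.child.θ := by
  rw [show G.child.θ = P.eval o.f from G.base]
  exact (mem_gen_iff E.T.laurent).2 ⟨Q, rfl⟩

include A in
/-- The degree jumps by a factor `M`. -/
theorem degree_le (hW : o.W ≤ o.S.gen o.θ) : o.d * M ≤ G.child.d := by
  set p := minpoly o.S.F o.θ
  set p' := aeval o.θ (derivative p)
  have hp' : p' ≠ 0 := aeval_derivative_ne o.S o.θ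
  have hgp : p' ∈ o.S.gen o.θ := (mem_gen_iff _).2 ⟨_, rfl⟩
  have hα : p' * (m.ω * m.w0) ≠ 0 := mul_ne_zero hp' (mul_ne_zero m.ω_ne m.w0_ne)
  have hαg : p' * (m.ω * m.w0) ∈ o.S.gen o.θ := Stg.mul_mem_gen hgp (hW m.w0_mem)
  have hβg : p' * (m.ω * m.w1) ∈ o.S.gen o.θ := Stg.mul_mem_gen hgp (hW m.w1_mem)
  have hind := indep_family E (θ := o.θ) (gen_comm _ hαg hβg) hα
  have hZ : E.emb.iC (p' * (m.ω * m.w0)) * E.X + E.emb.iC (p' * (m.ω * m.w1)) * E.Y =
      E.emb.iC p' * m.Z E := by
    simp only [Z_eq, map_mul, mul_add, mul_assoc]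
  rw [hZ] at hind
  set t := P.eval o.f
  set q := aeval t (p.map (sF E)) with hq
  set c : LaurentSeries E.T.F := HahnSeries.single (-(A.n : ℤ)) 1 with hc
  have hn : (0 : ℤ) < A.n := by exact_mod_cast A.pos
  have hJ : Jet (A.n : ℤ) (conj A q) 0 (E.emb.iC p' * m.Z E) := by
    simpa [q, p, p', minpoly.aeval] using conj_aeval A p
  have hcq : OrdGE 0 (c • conj A q) ∧ (c • conj A q).coeff 0 = E.emb.iC p' * m.Z E := by
    constructor
    · intro k hk
      rw [show k = (k + A.n) + -(A.n : ℤ) by ring, hc, coeff_smul_single]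
      have := hJ.1 (k + A.n) (by omega)
      simpa using this
    · rw [show (0 : ℤ) = (A.n : ℤ) + -(A.n : ℤ) by ring, hc, coeff_smul_single, hJ.2]
  have ht := (conj_eval A).ordGE hn
  let v : Fin p.natDegree × Fin M → LaurentSeries E.T.C := fun k =>
    t ^ (k.1 : ℕ) * (c • q) ^ (k.2 : ℕ)
  have hv : ∀ k, OrdGE 0 (conj A (v k)) ∧ (conj A (v k)).coeff 0 =
      E.emb.iC o.θ ^ (k.1 : ℕ) * (E.emb.iC p' * m.Z E) ^ (k.2 : ℕ) := by
    intro k
    have h1 := OrdGE.pow₀ ht.1 (k.1 : ℕ)
    have h2 := OrdGE.pow₀ hcq.1 (k.2 : ℕ)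
    have h3 := OrdGE.mul₀ h1.1 h2.1
    have e : conj A (v k) = conj A t ^ (k.1 : ℕ) * (c • conj A q) ^ (k.2 : ℕ) := by
      rw [conj_mul, conj_pow, conj_pow, map_smul]
    rw [e]
    exact ⟨h3.1, by rw [h3.2, h1.2, h2.2, ht.2, hcq.2]⟩
  have hli : LinearIndependent (LaurentSeries E.T.F) v := by
    refine LinearIndependent.of_comp (conj A) ?_
    refine linearIndependent_of_lead (S := E.T) _ (fun k => (hv k).1) ?_
    simpa only [Function.comp_apply, (hv _).2] using hind
  let V : Submodule (LaurentSeries E.T.F) (LaurentSeries E.T.C) := G.child.S.gen G.child.θ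
  have hmem : ∀ k, v k ∈ V := by
    intro k
    have : v k = aeval t (Polynomial.X ^ (k.1 : ℕ) *
        (Polynomial.C c * p.map (sF E)) ^ (k.2 : ℕ)) := by
      simp [v, q, Algebra.smul_def]
    rw [this]
    exact eval_mem_gen G _
  have hcard := (LinearIndependent.of_comp V.subtype
    (v := fun k => (⟨v k, hmem k⟩ : V)) hli).fintype_card_le_finrank
  rw [Fintype.card_prod, Fintype.card_fin, Fintype.card_fin] at hcard
  rw [Obj.d, finrank_gen]
  exact hcard

include A in
theorem child_W_ne (hW : o.W ≤ o.S.gen o.θ) (hne : o.W ≠ ⊥) (hM : 0 < M) : G.child.W ≠ ⊥ := by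
  intro h
  obtain ⟨w, hw, hw0⟩ := o.W.ne_bot_iff.1 hne
  obtain ⟨Q, hQ⟩ := (mem_gen_iff _).1 (Stg.inv_mem_gen (hW hw))
  have hn : (0 : ℤ) < A.n := by exact_mod_cast A.pos
  set z := aeval (P.eval o.f) (Q.map (sF E))
  have hJ := (conj_aeval A Q).ordGE hn
  obtain ⟨hz0, hzc⟩ := conj_ordGE_iff A hJ.1
  rw [hJ.2, hQ] at hzc
  have hz : z ∈ KcL G := by
    show (z : G.child.S.C) ∈ G.child.Kc
    rw [Kc_eq_cent_of_W G.child h]
    exact gen_le_cent _ _ (eval_mem_gen G _)
  have hK : z.coeff 0 ∈ m.KZ E := lead_Kc_le A G ⟨z, hz, hz0, rfl⟩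
  have := hK.2 _ (Submodule.subset_span ⟨w, hw, 1, one_mem_E E hM, rfl⟩)
  rw [hzc, mul_one, ← map_mul, inv_mul_cancel₀ hw0, map_one] at this
  exact τ_one_ne _ this

theorem child_dim : G.child.S.dim = o.S.dim * M ^ 2 := (laurent_dim E.T).trans E.dim_eq

end Along

section Main

variable {root o : Obj} {M : ℕ} {E : Sym o.S M} {m : Model o} {P : Point E o.K}

theorem child_deg_max (hs : ∀ s : Obj, s.State root → s.d ^ 2 * o.S.dim ≤ o.d ^ 2 * s.S.dim)
    (G : Growth o E P) (hd : G.child.d = o.d * M) (s : Obj) (h : s.State root) :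
    s.d ^ 2 * G.child.S.dim ≤ G.child.d ^ 2 * s.S.dim := by
  rw [child_dim G, hd]
  calc s.d ^ 2 * (o.S.dim * M ^ 2) = s.d ^ 2 * o.S.dim * M ^ 2 := by ring
    _ ≤ o.d ^ 2 * s.S.dim * M ^ 2 := Nat.mul_le_mul_right _ (hs s h)
    _ = (o.d * M) ^ 2 * s.S.dim := by ring

theorem limit_up_facts (hst : o.State root)
    (hs : ∀ s : Obj, s.State root → s.d ^ 2 * o.S.dim ≤ o.d ^ 2 * s.S.dim)
    (hW : o.W ≤ o.S.gen o.θ) (hM : 0 < M) (A : Approach m E P) (G : Growth o E P) :
    G.child.State root ∧ G.child.d = o.d * M := by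
  have hdesc : root.Desc G.child :=
    hst.1.trans ⟨G.full, G.two_le, ⟨G.mor⟩⟩
  have hst' : G.child.State root := ⟨hdesc, child_W_ne A G hW hst.2 hM⟩
  refine ⟨hst', le_antisymm ?_ (degree_le A G hW)⟩
  have h := hs _ hst'
  rw [child_dim G] at h
  have h1 : G.child.d ^ 2 * o.S.dim ≤ (o.d * M) ^ 2 * o.S.dim := by
    calc G.child.d ^ 2 * o.S.dim ≤ o.d ^ 2 * (o.S.dim * M ^ 2) := h
      _ = _ := by ring
  exact (pow_le_pow_iff_left₀ (Nat.zero_le _) (Nat.zero_le _) two_ne_zero).1
    (Nat.le_of_mul_le_mul_right h1 (Stg.dim_pos _))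

/-- The general facts along an approaching point, at a state of maximal degree. -/
theorem limit_up_holds (hWLe : WLeStmt) : LimitUpStmt := by
  intro root o hst hs m M hdM hM E P A G
  have hW := hWLe root o hst hs
  obtain ⟨h1, h2⟩ := limit_up_facts hst hs hW (by omega) A G
  exact ⟨h1, h2, finrank_Kc_le A G⟩

theorem limit_arith {ρ ρ' d0 d0' M c d : ℕ} (hd : d = ρ * d0) (hd' : d * M = ρ' * d0')
    (hle : d0' ≤ d0 * M) (hge : d0 * M ≤ d0' + c) (hc : c < d0) (hM : d < M) (hd0 : 0 < d) :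
    d0' = d0 * M := by
  subst hd
  by_contra hne
  have hlt : d0' < d0 * M := lt_of_le_of_ne hle hne
  have hρ0 : 0 < ρ := Nat.pos_of_mul_pos_right hd0
  have h0 : 0 < d0 := Nat.pos_of_mul_pos_left hd0
  have hρ : ρ < ρ' := by
    by_contra h
    have := Nat.mul_le_mul (not_lt.1 h) hlt
    nlinarith
  have hρM : ρ + 1 ≤ M := by nlinarith
  nlinarith [Nat.mul_le_mul_right d0' (Nat.succ_le_of_lt hρ)]

/-- **LIMIT.** -/
theorem limit_holds (hR : RankStmt) (hWLe : WLeStmt) : LimitStmt := by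
  intro root o hmin m M hsp hdM hM5 E P A G
  have hM : 0 < M := by omega
  have hW := hWLe root o hmin.state hmin.deg
  obtain ⟨hst, hd⟩ := limit_up_facts hmin.state hmin.deg hW hM A G
  have hdeg := child_deg_max hmin.deg G hd
  have hW' := hWLe root _ hst hdeg
  obtain ⟨ρ', hρ'⟩ := d0_dvd_d _ hW'
  obtain ⟨ρ, hρ⟩ := d0_dvd_d o hW
  have hdpos := d_pos o
  have hdim := child_dim G
  have heq : G.child.d ^ 2 * o.S.dim = o.d ^ 2 * G.child.S.dim := by rw [hd, hdim]; ring
  -- dimensions of the centralisers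
  have hc1 : o.d * finrank o.S.F (o.S.cent o.θ) = o.S.dim :=
    Stg.finrank_gen_mul_finrank_cent o.θ
  have hc2 : G.child.d * finrank G.child.S.F (G.child.S.cent G.child.θ) = G.child.S.dim :=
    Stg.finrank_gen_mul_finrank_cent G.child.θ
  have hcent : finrank G.child.S.F (G.child.S.cent G.child.θ) =
      finrank o.S.F (o.S.cent o.θ) * M := by
    rw [hd, hdim, ← hc1] at hc2
    refine Nat.eq_of_mul_eq_mul_left (Nat.mul_pos hdpos hM) (hc2.trans ?_)
    ring
  have hKc := finrank_Kc_add G.child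
  have hKc' : finrank G.child.S.F G.child.Kc ≤ o.k0 M := (finrank_Kc_le A G).trans (hR o m M hW hsp hM E)
  have hsmall := hmin.small
  have hr := r_le_d0 o
  have hr' := r_le_d0 G.child
  have hd0le : o.d0 * M ≤ finrank o.S.F (o.S.cent o.θ) * M :=
    Nat.mul_le_mul_right _
      ((Submodule.finrank_mono ((L0_le_gen o hW).trans (gen_le_cent _ _))))
  rw [Obj.k0] at hKc'
  have hratio : G.child.d0 ≤ o.d0 * M := by
    have := hmin.ratio _ hst heq
    rw [hd] at this
    exact Nat.le_of_mul_le_mul_right (this.trans (le_of_eq (by ring))) hdpos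
  have hd0 : G.child.d0 = o.d0 * M :=
    limit_arith (ρ := ρ) (ρ' := ρ') (d := o.d) (c := o.d0 - o.r) (by rw [hρ, mul_comm])
      (by rw [← hd, hρ', mul_comm]) hratio (by omega) (by omega) hdM hdpos
  have hM1 : o.d0 ≤ o.d0 * M := Nat.le_mul_of_pos_right _ hM
  have hcor : o.d0 - o.r ≤ G.child.d0 - G.child.r :=
    hmin.corank _ hst heq (by rw [hd0, hd]; ring) (by omega)
  have hminc : Obj.Minimal root G.child := by
    have hMM : 0 < M ^ 2 := pow_pos hM 2
    have key : ∀ s : Obj, s.d ^ 2 * G.child.S.dim = G.child.d ^ 2 * s.S.dim →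
        s.d ^ 2 * o.S.dim = o.d ^ 2 * s.S.dim := fun s h => by
      rw [hdim, hd] at h
      exact Nat.eq_of_mul_eq_mul_right hMM (by linarith)
    refine ⟨hst, hdeg, fun s hs he => ?_, by omega, fun s hs he he' hsm => ?_⟩
    · rw [hd, hd0]
      calc s.d0 * (o.d * M) = s.d0 * o.d * M := by ring
        _ ≤ o.d0 * s.d * M := Nat.mul_le_mul_right _ (hmin.ratio s hs (key s he))
        _ = o.d0 * M * s.d := by ring
    · have h2 : s.d0 * o.d = o.d0 * s.d := by
        rw [hd, hd0] at he'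
        exact Nat.eq_of_mul_eq_mul_right hM (by linarith)
      have := hmin.corank s hs (key s he) h2 hsm
      omega
  have hk : finrank G.child.S.F G.child.Kc = o.k0 M := by rw [Obj.k0]; omega
  refine ⟨hminc, hk, ?_⟩
  have hKL : finrank (LaurentSeries E.T.F) (KcL G) = o.k0 M := hk
  have hlead : lead (S := E.T) (KcL G) = m.KZ E :=
    Submodule.eq_of_le_of_finrank_le (lead_Kc_le A G)
      ((hR o m M hW hsp hM E).trans (hKL.symm.le.trans (finrank_le_lead _)))
  intro z hz
  rw [← hlead] at hz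
  obtain ⟨z', h1, h2, h3⟩ := hz
  exact ⟨z', h1, h2, h3⟩

end Main

end P199K.Lim
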