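import Vale.Agent.P199.Kurosh.Stmts

/-!
Linear algebra of a stage and of its Laurent stage, as needed for the limit of the cokernels.
-/

open Module

namespace P199K.Lim

section Stage

variable (S : Stg)

theorem τ_apply (x : S.C) : S.τ x = LinearMap.trace S.F S.C (LinearMap.mulLeft S.F x) := rfl

theorem τ_mul_comm (a b : S.C) : S.τ (a * b) = S.τ (b * a) := by
  simp only [τ_apply, LinearMap.mulLeft_mul]
  exact LinearMap.trace_mul_comm S.F (LinearMap.mulLeft S.F a) (LinearMap.mulLeft S.F b)

theorem τ_one : S.τ 1 = (S.dim : S.F) := by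
  rw [τ_apply, LinearMap.mulLeft_one]
  exact LinearMap.trace_id S.F S.C

theorem dim_pos : 0 < S.dim := Module.finrank_pos

theorem τ_one_ne : S.τ 1 ≠ 0 := by
  rw [τ_one]; exact Nat.cast_ne_zero.2 (dim_pos S).ne'

theorem τ_nondeg {z : S.C} (h : ∀ v, S.τ (z * v) = 0) : z = 0 := by
  by_contra hz
  exact τ_one_ne S (by simpa [mul_inv_cancel₀ hz] using h z⁻¹)

theorem mem_orth {V : Submodule S.F S.C} {z : S.C} : z ∈ S.orth V ↔ ∀ v ∈ V, S.τ (z * v) = 0 :=
  Iff.rfl

@[simp] theorem ad_apply (θ x : S.C) : S.ad θ x = θ * x - x * θ := rfl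

theorem mem_cent {θ x : S.C} : x ∈ S.cent θ ↔ θ * x = x * θ := by
  rw [Stg.cent, LinearMap.mem_ker, ad_apply, sub_eq_zero]

/-- The pairing as a map to the dual space. -/
noncomputable def pairing : S.C →ₗ[S.F] Dual S.F S.C where
  toFun z := S.τ.comp (LinearMap.mulLeft S.F z)
  map_add' a b := by ext v; simp [add_mul]
  map_smul' r a := by ext v; simp

theorem pairing_bijective : Function.Bijective (pairing S) := by
  have hinj : Function.Injective (pairing S) := (injective_iff_map_eq_zero _).2 fun z hz =>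
    τ_nondeg S fun v => LinearMap.congr_fun hz v
  exact ⟨hinj, (LinearMap.injective_iff_surjective_of_finrank_eq_finrank
    Subspace.dual_finrank_eq.symm).1 hinj⟩

theorem finrank_orth_add (V : Submodule S.F S.C) :
    finrank S.F (S.orth V) + finrank S.F V = S.dim := by
  let e := LinearEquiv.ofBijective (pairing S) (pairing_bijective S)
  have he : S.orth V = V.dualAnnihilator.map (e.symm : Dual S.F S.C →ₗ[S.F] S.C) := by
    ext z
    rw [Submodule.mem_map_equiv, LinearEquiv.symm_symm, mem_orth, Submodule.mem_dualAnnihilator]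
    rfl
  rw [he, LinearEquiv.finrank_map_eq, add_comm]
  exact Subspace.finrank_add_finrank_dualAnnihilator_eq V

theorem orth_antitone {U V : Submodule S.F S.C} (h : U ≤ V) : S.orth V ≤ S.orth U :=
  fun _ hz v hv => hz v (h hv)

theorem τ_ad (z θ v : S.C) : S.τ (z * (θ * v - v * θ)) = S.τ ((z * θ - θ * z) * v) := by
  rw [mul_sub, sub_mul, map_sub, map_sub, mul_assoc, ← mul_assoc z v θ,
    τ_mul_comm S (z * v) θ, mul_assoc θ z v]

theorem orth_range_ad (θ : S.C) : S.orth (LinearMap.range (S.ad θ)) = S.cent θ := by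
  ext z
  rw [mem_orth, mem_cent]
  constructor
  · intro h
    refine (sub_eq_zero.1 (τ_nondeg S (z := z * θ - θ * z) fun v => ?_)).symm
    rw [← τ_ad]
    exact h _ ⟨v, rfl⟩
  · rintro h _ ⟨v, rfl⟩
    rw [ad_apply, τ_ad, h, sub_self, zero_mul, map_zero]

theorem isIntegral (θ : S.C) : IsIntegral S.F θ := Algebra.IsIntegral.isIntegral θ

theorem finrank_gen (θ : S.C) : finrank S.F (S.gen θ) = (minpoly S.F θ).natDegree := by
  have hli : LinearIndependent S.F fun i : Fin (minpoly S.F θ).natDegree => θ ^ (i : ℕ) :=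
    linearIndependent_pow θ
  have e : S.gen θ = Submodule.span S.F (Set.range fun i : Fin (minpoly S.F θ).natDegree =>
      θ ^ (i : ℕ)) := by
    refine le_antisymm (fun x hx => ?_) (Submodule.span_le.2 ?_)
    · obtain ⟨p, rfl⟩ : ∃ q : Polynomial S.F, Polynomial.aeval θ q = x := by
        rwa [Stg.gen, Subalgebra.mem_toSubmodule, Algebra.adjoin_singleton_eq_range_aeval,
          AlgHom.mem_range] at hx
      have hm := minpoly.monic (isIntegral S θ)
      rw [← Polynomial.aeval_modByMonic_eq_self_of_root (minpoly.aeval S.F θ)]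
      rcases eq_or_ne (p %ₘ minpoly S.F θ) 0 with h | h
      · simp [h]
      rw [Polynomial.aeval_eq_sum_range' (Polynomial.natDegree_lt_natDegree h
        (Polynomial.degree_modByMonic_lt _ hm))]
      exact Submodule.sum_mem _ fun k hk => Submodule.smul_mem _ _
        (Submodule.subset_span ⟨⟨k, Finset.mem_range.1 hk⟩, rfl⟩)
    · rintro _ ⟨i, rfl⟩
      exact Subalgebra.pow_mem _ (Algebra.self_mem_adjoin_singleton S.F θ) _
  rw [e, finrank_span_eq_card hli, Fintype.card_fin]

theorem aeval_derivative_ne (θ : S.C) :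
    Polynomial.aeval θ (Polynomial.derivative (minpoly S.F θ)) ≠ 0 := by
  intro h
  have h1 := minpoly.natDegree_pos (isIntegral S θ)
  have h2 : Polynomial.derivative (minpoly S.F θ) ≠ 0 := fun e => by
    have := Polynomial.derivative_eq_zero.1 e
    omega
  have h3 := Polynomial.natDegree_le_of_dvd (minpoly.dvd S.F θ h) h2
  have h4 := Polynomial.natDegree_derivative_lt h1.ne'
  omega

theorem mem_gen_iff {θ x : S.C} :
    x ∈ S.gen θ ↔ ∃ q : Polynomial S.F, Polynomial.aeval θ q = x := by
  rw [Stg.gen, Subalgebra.mem_toSubmodule, Algebra.adjoin_singleton_eq_range_aeval,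
    AlgHom.mem_range]

theorem gen_comm {θ a b : S.C} (ha : a ∈ S.gen θ) (hb : b ∈ S.gen θ) : Commute a b := by
  obtain ⟨p, rfl⟩ := (mem_gen_iff S).1 ha
  obtain ⟨q, rfl⟩ := (mem_gen_iff S).1 hb
  exact (Commute.all p q).map (Polynomial.aeval θ)

theorem inv_mem {A : Subalgebra S.F S.C} {a : S.C} (ha : a ∈ A) : a⁻¹ ∈ A := by
  rcases eq_or_ne a 0 with rfl | h
  · simp [A.zero_mem]
  · obtain ⟨⟨b, hb⟩, e⟩ := (LinearMap.injective_iff_surjective (f := LinearMap.mulLeft S.F (⟨a, ha⟩ : A))).1
      (fun x y hxy => Subtype.ext (mul_left_cancel₀ h (congrArg Subtype.val hxy :))) 1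
    have hab : a * b = 1 := congrArg Subtype.val e
    rwa [← eq_inv_of_mul_eq_one_right hab]

theorem gen_le_cent (θ : S.C) : S.gen θ ≤ S.cent θ := fun _ hx =>
  (mem_cent S).2 (gen_comm S ((mem_gen_iff S).2 ⟨Polynomial.X, Polynomial.aeval_X θ⟩) hx).eq

theorem range_inf_cent (θ : S.C) : LinearMap.range (S.ad θ) ⊓ S.cent θ = ⊥ := by
  rw [eq_bot_iff]
  rintro _ ⟨⟨y, rfl⟩, hc⟩
  have hc' := (mem_cent S).1 hc
  rw [Submodule.mem_bot, ad_apply] at *
  set P := minpoly S.F θ
  -- `0 = P θ y - y P θ = P' θ (θ y - y θ)`.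
  have key : ∀ n : ℕ, θ ^ n * y - y * θ ^ n = (n : S.C) * θ ^ (n - 1) * (θ * y - y * θ) := by
    intro n
    induction n with
    | zero => simp
    | succ n ih =>
      have hcn : Commute (θ * y - y * θ) (θ ^ n) := (Commute.pow_left hc' n).symm
      rcases n with _ | n
      · simp
      · calc θ ^ (n + 1 + 1) * y - y * θ ^ (n + 1 + 1)
            = θ * (θ ^ (n + 1) * y - y * θ ^ (n + 1)) + (θ * y - y * θ) * θ ^ (n + 1) := by
              simp only [pow_succ' θ (n + 1)]; noncomm_ring
          _ = _ := by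
              rw [ih, hcn.eq, add_tsub_cancel_right, add_tsub_cancel_right, ← mul_assoc, ← mul_assoc,
                ← Nat.cast_comm, mul_assoc (↑(n + 1) : S.C) θ, ← pow_succ']
              push_cast
              noncomm_ring
  have hq : ∀ q : Polynomial S.F, Polynomial.aeval θ q * y - y * Polynomial.aeval θ q =
      Polynomial.aeval θ (Polynomial.derivative q) * (θ * y - y * θ) := by
    intro q
    induction q using Polynomial.induction_on' with
    | add p q hp hq => rw [map_add, map_add, map_add, add_mul, add_mul, ← hp, ← hq, mul_add]; abel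
    | monomial n a =>
      rw [Polynomial.derivative_monomial, Polynomial.aeval_monomial, Polynomial.aeval_monomial,
        map_mul, map_natCast, mul_assoc, Algebra.left_comm y, ← mul_sub, key, mul_assoc,
        mul_assoc, mul_assoc]
  have h0 := hq P
  rw [minpoly.aeval, zero_mul, mul_zero, sub_zero] at h0
  exact (mul_eq_zero.1 h0.symm).resolve_left (aeval_derivative_ne S θ)

theorem finrank_range_ad_add (θ : S.C) :
    finrank S.F (LinearMap.range (S.ad θ)) + finrank S.F (S.cent θ) = S.dim :=
  LinearMap.finrank_range_add_finrank_ker _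

theorem range_sup_cent (θ : S.C) : LinearMap.range (S.ad θ) ⊔ S.cent θ = ⊤ := by
  apply Submodule.eq_top_of_finrank_eq
  have := Submodule.finrank_sup_add_finrank_inf_eq (LinearMap.range (S.ad θ)) (S.cent θ)
  rw [range_inf_cent, finrank_bot, add_zero, finrank_range_ad_add] at this
  exact this

end Stage

section Object

variable (o : Obj)

theorem T_eq : o.T = LinearMap.range (o.S.ad o.θ) ⊔ o.W := by
  have h : LinearMap.range (o.S.ad o.θ) ≤ o.T := le_sup_right
  rw [Obj.W, inf_comm, ← sup_inf_assoc_of_le _ h, range_sup_cent, top_inf_eq]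

theorem finrank_Kc_add : finrank o.S.F o.Kc + o.r = finrank o.S.F (o.S.cent o.θ) := by
  have h1 := finrank_orth_add o.S o.T
  have h2 := Submodule.finrank_sup_add_finrank_inf_eq (LinearMap.range (o.S.ad o.θ)) o.W
  have h3 : LinearMap.range (o.S.ad o.θ) ⊓ o.W = ⊥ :=
    le_bot_iff.1 ((inf_le_inf_left _ inf_le_right).trans (range_inf_cent o.S o.θ).le)
  rw [← T_eq, h3, finrank_bot, add_zero] at h2
  have h4 := finrank_range_ad_add o.S o.θ
  rw [Obj.Kc, Obj.r]
  omega

theorem Kc_le_cent : o.Kc ≤ o.S.cent o.θ :=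
  (orth_antitone o.S le_sup_right).trans (orth_range_ad o.S o.θ).le

theorem Kc_eq_cent_of_W (h : o.W = ⊥) : o.Kc = o.S.cent o.θ := by
  rw [Obj.Kc, T_eq, h, sup_bot_eq, orth_range_ad]

theorem r_le_d0 : o.r ≤ o.d0 := by
  rcases eq_or_ne o.W ⊥ with h | h
  · rw [Obj.r, h, finrank_bot]; exact Nat.zero_le _
  obtain ⟨b, hb, hb0⟩ := o.W.ne_bot_iff.1 h
  have : o.W ≤ o.L0.map (LinearMap.mulRight o.S.F b) := fun a ha =>
    ⟨a * b⁻¹, Algebra.subset_adjoin ⟨a, ha, b, hb, hb0, rfl⟩, by simp [hb0]⟩
  exact (Submodule.finrank_mono this).trans (Submodule.finrank_map_le _ _)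

theorem L0_le_gen (h : o.W ≤ o.S.gen o.θ) : o.L0 ≤ o.S.gen o.θ := by
  refine fun x hx => Algebra.adjoin_le (S := Algebra.adjoin o.S.F ({o.θ} : Set o.S.C)) ?_ hx
  rintro x ⟨a, ha, b, hb, -, rfl⟩
  exact Subalgebra.mul_mem _ (h ha) (inv_mem o.S (h hb))

theorem d0_dvd_d (h : o.W ≤ o.S.gen o.θ) : o.d0 ∣ o.d := by
  set A := Algebra.adjoin o.S.F {x : o.S.C | ∃ a ∈ o.W, ∃ b ∈ o.W, b ≠ 0 ∧ x = a * b⁻¹}
  set B := Algebra.adjoin o.S.F ({o.θ} : Set o.S.C)
  have hAB : A ≤ B := L0_le_gen o h
  let V : Submodule A o.S.C :=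
    { carrier := B
      add_mem' := fun ha hb => B.add_mem ha hb
      zero_mem' := B.zero_mem
      smul_mem' := fun a x hx => B.mul_mem (hAB a.2) hx }
  let : DivisionRing A := divisionRingOfFiniteDimensional o.S.F A
  have e : finrank o.S.F o.L0 * finrank A V = finrank o.S.F (o.S.gen o.θ) :=
    Module.finrank_mul_finrank o.S.F A V
  exact ⟨_, e.symm⟩

theorem d_pos : 0 < o.d := by
  rw [Obj.d, finrank_gen]
  exact minpoly.natDegree_pos (isIntegral o.S o.θ)

end Object

section Series

theorem ordGE_zero {R : Type} [Zero R] (k : ℤ) : OrdGE k (0 : LaurentSeries R) := fun _ _ => rfl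

variable {R : Type} [Ring R]

theorem OrdGE.mono {a b : ℤ} {x : LaurentSeries R} (hx : OrdGE b x) (h : a ≤ b) : OrdGE a x :=
  fun m hm => hx m (by omega)

theorem OrdGE.add {a : ℤ} {x y : LaurentSeries R} (hx : OrdGE a x) (hy : OrdGE a y) :
    OrdGE a (x + y) := fun m hm => by rw [HahnSeries.coeff_add, hx m hm, hy m hm, add_zero]

theorem OrdGE.sum {a : ℤ} {α : Type*} {s : Finset α} {f : α → LaurentSeries R}
    (h : ∀ i ∈ s, OrdGE a (f i)) : OrdGE a (∑ i ∈ s, f i) := fun m hm => by
  rw [HahnSeries.coeff_sum]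
  exact Finset.sum_eq_zero fun i hi => h i hi m hm

theorem ordGE_single (k : ℤ) (c : R) : OrdGE k (HahnSeries.single k c) := fun _ hm =>
  HahnSeries.coeff_single_of_ne (ne_of_lt hm)

theorem ordGE_C (c : R) : OrdGE 0 (HahnSeries.C c : LaurentSeries R) := fun _ hm =>
  HahnSeries.coeff_single_of_ne (ne_of_lt hm)

theorem OrdGE.mul {a b : ℤ} {x y : LaurentSeries R} (hx : OrdGE a x) (hy : OrdGE b y) :
    OrdGE (a + b) (x * y) ∧ (x * y).coeff (a + b) = x.coeff a * y.coeff b := by
  constructor
  · intro m hm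
    rw [HahnSeries.coeff_mul]
    refine Finset.sum_eq_zero fun p hp => ?_
    obtain ⟨-, -, h3⟩ := Finset.mem_antidiagonal.1 hp
    rcases lt_or_ge p.1 a with h | h
    · rw [hx _ h, zero_mul]
    · rw [hy _ (by omega), mul_zero]
  · rw [HahnSeries.coeff_mul]
    refine Finset.sum_eq_single (a, b) (fun p hp hne => ?_) fun h => ?_
    · obtain ⟨-, -, h3⟩ := Finset.mem_antidiagonal.1 hp
      rcases lt_or_ge p.1 a with h | h
      · rw [hx _ h, zero_mul]
      · rcases eq_or_lt_of_le h with h' | h'
        · exact absurd (Prod.ext h'.symm (by omega)) hne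
        · rw [hy _ (by omega), mul_zero]
    · by_contra hne
      exact h (Finset.mem_antidiagonal.2
        ⟨left_ne_zero_of_mul hne, right_ne_zero_of_mul hne, rfl⟩)

/-- Zero-th order product. -/
theorem OrdGE.mul₀ {x y : LaurentSeries R} (hx : OrdGE 0 x) (hy : OrdGE 0 y) :
    OrdGE 0 (x * y) ∧ (x * y).coeff 0 = x.coeff 0 * y.coeff 0 := by
  simpa using OrdGE.mul hx hy

theorem OrdGE.pow₀ {x : LaurentSeries R} (hx : OrdGE 0 x) :
    ∀ n : ℕ, OrdGE 0 (x ^ n) ∧ (x ^ n).coeff 0 = x.coeff 0 ^ n
  | 0 => ⟨by simpa using ordGE_C (1 : R), by simp⟩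
  | n + 1 => by
    have h := OrdGE.pow₀ hx n
    rw [pow_succ, pow_succ]
    exact ⟨(OrdGE.mul₀ h.1 hx).1, by rw [(OrdGE.mul₀ h.1 hx).2, h.2]⟩

/-- Agreement with the constant `u` below order `n`, and coefficient `u₁` at order `n`. -/
def Jet (n : ℤ) (x : LaurentSeries R) (u u₁ : R) : Prop :=
  OrdGE n (x - HahnSeries.C u) ∧ x.coeff n = u₁

theorem Jet.ordGE {n : ℤ} (hn : 0 < n) {x : LaurentSeries R} {u u₁ : R} (h : Jet n x u u₁) :
    OrdGE 0 x ∧ x.coeff 0 = u := by
  constructor
  · intro m hm
    have := h.1 m (by omega)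
    rwa [HahnSeries.coeff_sub, ordGE_C u m hm, sub_zero] at this
  · have := h.1 0 hn
    rwa [HahnSeries.coeff_sub, HahnSeries.C_apply, HahnSeries.coeff_single_same, sub_eq_zero] at this

theorem Jet.mul {n : ℤ} (hn : 0 < n) {x y : LaurentSeries R} {u u₁ v v₁ : R} (hx : Jet n x u u₁)
    (hy : Jet n y v v₁) : Jet n (x * y) (u * v) (u₁ * v + u * v₁) := by
  have e : x * y - HahnSeries.C (u * v) =
      (x - HahnSeries.C u) * y + HahnSeries.C u * (y - HahnSeries.C v) := by
    rw [map_mul, sub_mul, mul_sub]; abel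
  have h1 := OrdGE.mul hx.1 (hy.ordGE hn).1
  have h2 := OrdGE.mul (ordGE_C u) hy.1
  simp only [add_zero, zero_add] at h1 h2
  refine ⟨e ▸ OrdGE.add h1.1 h2.1, ?_⟩
  have hc : ∀ w : R, (HahnSeries.C w : LaurentSeries R).coeff n = 0 := fun w =>
    HahnSeries.coeff_single_of_ne hn.ne'
  have := congrArg (fun z : LaurentSeries R => z.coeff n) e
  rw [HahnSeries.coeff_sub, HahnSeries.coeff_add, h1.2, h2.2, hc, sub_zero,
    HahnSeries.coeff_sub, HahnSeries.coeff_sub, hc, hc, sub_zero, sub_zero, hx.2, hy.2,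
    (hy.ordGE hn).2, HahnSeries.C_apply, HahnSeries.coeff_single_same] at this
  exact this

theorem Jet.add {n : ℤ} {x y : LaurentSeries R} {u u₁ v v₁ : R} (hx : Jet n x u u₁)
    (hy : Jet n y v v₁) : Jet n (x + y) (u + v) (u₁ + v₁) := by
  refine ⟨?_, by rw [HahnSeries.coeff_add, hx.2, hy.2]⟩
  have e : x + y - HahnSeries.C (u + v) = (x - HahnSeries.C u) + (y - HahnSeries.C v) := by
    rw [map_add]; abel
  exact e ▸ OrdGE.add hx.1 hy.1

theorem Jet.const {n : ℤ} (hn : 0 < n) (u : R) : Jet n (HahnSeries.C u : LaurentSeries R) u 0 := by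
  refine ⟨?_, HahnSeries.coeff_single_of_ne hn.ne'⟩
  rw [sub_self]
  exact ordGE_zero n

theorem Jet.zero {n : ℤ} (hn : 0 < n) : Jet n (0 : LaurentSeries R) (0 : R) 0 := by
  simpa using Jet.const hn (0 : R)

end Series

section Laurent

variable {S : Stg}

theorem laurent_smul (a : LaurentSeries S.F) (x : LaurentSeries S.C) :
    a • x = laurentMap (algebraMap S.F S.C) a * x := rfl

theorem ordGE_map {a : LaurentSeries S.F} {k : ℤ} (ha : OrdGE k a) :
    OrdGE k (laurentMap (algebraMap S.F S.C) a) := fun m hm => by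
  rw [laurentMap_coeff, ha m hm, map_zero]

theorem ordGE_smul {a : LaurentSeries S.F} {x : LaurentSeries S.C} (ha : OrdGE 0 a)
    (hx : OrdGE 0 x) : OrdGE 0 (a • x) ∧ (a • x).coeff 0 = a.coeff 0 • x.coeff 0 := by
  have := OrdGE.mul₀ (ordGE_map (S := S) ha) hx
  rw [laurent_smul, Algebra.smul_def, ← laurentMap_coeff]
  exact this

/-- Constant terms of the integral elements of a subspace over Laurent series. -/
noncomputable def lead (V : Submodule (LaurentSeries S.F) (LaurentSeries S.C)) :
    Submodule S.F S.C where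
  carrier := {e | ∃ v ∈ V, OrdGE 0 v ∧ v.coeff 0 = e}
  zero_mem' := ⟨0, V.zero_mem, ordGE_zero 0, by simp⟩
  add_mem' := by
    rintro a b ⟨v, hv, hv', rfl⟩ ⟨w, hw, hw', rfl⟩
    exact ⟨v + w, V.add_mem hv hw, OrdGE.add hv' hw', by simp⟩
  smul_mem' := by
    rintro c a ⟨v, hv, hv', rfl⟩
    have h := ordGE_smul (S := S) (ordGE_C c) hv'
    exact ⟨_, V.smul_mem _ hv, h.1, by rw [h.2, HahnSeries.C_apply, HahnSeries.coeff_single_same]⟩

theorem mem_lead {V : Submodule (LaurentSeries S.F) (LaurentSeries S.C)} {e : S.C} :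
    e ∈ lead V ↔ ∃ v ∈ V, OrdGE 0 v ∧ v.coeff 0 = e := Iff.rfl

theorem coeff_smul_single (k m : ℤ) (x : LaurentSeries S.C) :
    (HahnSeries.single k (1 : S.F) • x).coeff (m + k) = x.coeff m := by
  have : laurentMap (algebraMap S.F S.C) (HahnSeries.single k (1 : S.F)) =
      HahnSeries.single k (1 : S.C) := by
    ext j
    rw [laurentMap_coeff]
    by_cases h : j = k
    · subst h; simp
    · simp [HahnSeries.coeff_single_of_ne h]
  rw [laurent_smul, this, HahnSeries.coeff_single_mul_add, one_mul]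

/-- A nonzero series has a scalar multiple with nonzero constant term and no negative powers. -/
theorem exists_normalised {v : LaurentSeries S.C} (hv : v ≠ 0) :
    ∃ c : LaurentSeries S.F, OrdGE 0 (c • v) ∧ (c • v).coeff 0 ≠ 0 := by
  refine ⟨HahnSeries.single (-v.order) 1, fun m hm => ?_, ?_⟩
  · rw [show m = (m + v.order) + -v.order by ring, coeff_smul_single]
    exact HahnSeries.coeff_eq_zero_of_lt_order (by omega)
  · rw [show (0 : ℤ) = v.order + -v.order by ring, coeff_smul_single]
    exact fun h => hv (HahnSeries.coeff_order_eq_zero.1 h)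

/-- Independent constant terms force independence. -/
theorem linearIndependent_of_lead {ι : Type*} [Fintype ι] (v : ι → LaurentSeries S.C)
    (hv : ∀ i, OrdGE 0 (v i)) (hi : LinearIndependent S.F fun i => (v i).coeff 0) :
    LinearIndependent (LaurentSeries S.F) v := by
  classical
  rw [Fintype.linearIndependent_iff]
  intro g hg
  by_contra hne
  push Not at hne
  obtain ⟨i₀, hi₀⟩ := hne
  obtain ⟨j, hj, hmin⟩ := (Finset.univ.filter fun i => g i ≠ 0).exists_min_image
    (fun i => (g i).order) ⟨i₀, by simp [hi₀]⟩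
  set c : LaurentSeries S.F := HahnSeries.single (-(g j).order) 1 with hc
  have hcg : ∀ i, OrdGE 0 (c * g i) := fun i m hm => by
    rw [hc, show m = (m + (g j).order) + -(g j).order by ring, HahnSeries.coeff_single_mul_add,
      one_mul]
    by_cases h : g i = 0
    · simp [h]
    · exact HahnSeries.coeff_eq_zero_of_lt_order (by have := hmin i (by simp [h]); omega)
  have hsum : ∑ i, (c * g i) • v i = 0 := by
    simp only [mul_smul, ← Finset.smul_sum, hg, smul_zero]
  have h0 := congrArg (fun x : LaurentSeries S.C => x.coeff 0) hsum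
  simp only [HahnSeries.coeff_sum, fun i => (ordGE_smul (S := S) (hcg i) (hv i)).2,
    HahnSeries.coeff_zero] at h0
  have := Fintype.linearIndependent_iff.1 hi _ h0 j
  rw [hc, show (0 : ℤ) = (g j).order + -(g j).order by ring, HahnSeries.coeff_single_mul_add,
    one_mul] at this
  exact (Finset.mem_filter.1 hj).2 (HahnSeries.coeff_order_eq_zero.1 this)

/-- The constant terms form a space of the same dimension or larger. -/
theorem finrank_le_lead (V : Submodule (LaurentSeries S.F) (LaurentSeries S.C)) :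
    finrank (LaurentSeries S.F) V ≤ finrank S.F (lead V) := by
  induction hk : finrank (LaurentSeries S.F) V using Nat.strong_induction_on generalizing V with
  | _ k ih =>
    rcases Nat.eq_zero_or_pos k with rfl | hpos
    · exact Nat.zero_le _
    have hne : V ≠ ⊥ := by
      rintro rfl
      rw [finrank_bot] at hk
      omega
    obtain ⟨v, hv, hv0⟩ := V.ne_bot_iff.1 hne
    obtain ⟨c, hint, hlead⟩ := exists_normalised hv0
    obtain ⟨φ, hφ⟩ := Module.Projective.exists_dual_ne_zero S.F hlead
    let Φ : LaurentSeries S.C →ₗ[LaurentSeries S.F] LaurentSeries S.F :=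
      { toFun := fun x => x.map φ
        map_add' := fun x y => by ext; simp
        map_smul' := fun a x => by
          ext m
          simp only [laurent_smul, smul_eq_mul, RingHom.id_apply]
          rw [HahnSeries.map_coeff,
            HahnSeries.coeff_mul_left' a.isPWO_support (fun p hp h => hp (by
              rw [laurentMap_coeff, h, map_zero])),
            HahnSeries.coeff_mul_right' x.isPWO_support (fun p hp h => hp (by
              rw [HahnSeries.map_coeff, h, map_zero])), map_sum]
          refine Finset.sum_congr rfl fun p _ => ?_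
          rw [laurentMap_coeff, ← Algebra.smul_def, map_smul, smul_eq_mul, HahnSeries.map_coeff] }
    have hΦ : ∀ x : LaurentSeries S.C, (Φ x).coeff 0 = φ (x.coeff 0) := fun x => rfl
    set W : Submodule (LaurentSeries S.F) (LaurentSeries S.C) := V ⊓ LinearMap.ker Φ
    have hmem : (c • v).coeff 0 ∈ lead V := ⟨_, V.smul_mem c hv, hint, rfl⟩
    have hcv : c • v ∉ W := fun h => hφ (by
      have h0 : Φ (c • v) = 0 := h.2
      rw [← hΦ, h0, HahnSeries.coeff_zero])
    have hWlt : W < V :=
      lt_of_le_of_ne inf_le_left fun h => hcv (h ▸ V.smul_mem c hv)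
    have hWdim : k ≤ finrank (LaurentSeries S.F) W + 1 := by
      have h1 := Submodule.finrank_sup_add_finrank_inf_eq V (LinearMap.ker Φ)
      have h2 := Submodule.finrank_le (V ⊔ LinearMap.ker Φ)
      have h3 := LinearMap.finrank_range_add_finrank_ker Φ
      have h4 := Submodule.finrank_le (LinearMap.range Φ)
      rw [Module.finrank_self] at h4
      change finrank _ V = k at hk
      change k ≤ finrank _ ↥(V ⊓ LinearMap.ker Φ) + 1
      omega
    have hW := ih _ (hk ▸ Submodule.finrank_lt_finrank_of_lt hWlt) W rfl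
    have hlt : lead W < lead V := by
      refine lt_of_le_of_ne (fun _ ⟨w, hw, r⟩ => ⟨w, hw.1, r⟩) fun h => ?_
      obtain ⟨w, hw, -, hwe⟩ := h ▸ hmem
      refine hφ ?_
      have h0 : Φ w = 0 := hw.2
      rw [← hwe, ← hΦ, h0, HahnSeries.coeff_zero]
    have := Submodule.finrank_lt_finrank_of_lt hlt
    omega

/-- Constants of a basis form a basis. -/
theorem laurent_dim (S : Stg) : S.laurent.dim = S.dim := by
  refine le_antisymm ?_ ?_
  · have h := finrank_le_lead (S := S) (⊤ : Submodule (LaurentSeries S.F) (LaurentSeries S.C))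
    rw [finrank_top] at h
    exact h.trans (Submodule.finrank_le _)
  · have hli := linearIndependent_of_lead (S := S)
      (fun i => HahnSeries.C (Module.finBasis S.F S.C i)) (fun i => ordGE_C _)
      (by simpa [HahnSeries.C_apply] using (Module.finBasis S.F S.C).linearIndependent)
    have := hli.fintype_card_le_finrank
    rwa [Fintype.card_fin] at this

/-- The trace form of the Laurent stage is computed coefficientwise. -/
theorem τ_laurent_coeff (S : Stg) (x : LaurentSeries S.C) (m : ℤ) :
    HahnSeries.coeff (S.laurent.τ x : LaurentSeries S.F) m = S.τ (x.coeff m) := by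
  classical
  let b := Module.finBasis S.F S.C
  have hli := linearIndependent_of_lead (S := S)
    (fun i => HahnSeries.C (b i)) (fun i => ordGE_C _)
    (by simpa [HahnSeries.C_apply] using b.linearIndependent)
  let B : Basis (Fin (finrank S.F S.C)) (LaurentSeries S.F) (LaurentSeries S.C) :=
    Basis.mk hli (by
      intro x _
      rw [laurent_span S x]
      refine Submodule.sum_mem _ fun i _ => ?_
      rw [← Algebra.smul_def]
      exact Submodule.smul_mem _ _ (Submodule.subset_span ⟨i, rfl⟩))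
  have hB : ∀ i, B i = HahnSeries.C (b i) := fun i => Basis.mk_apply _ _ i
  have hrepr : ∀ y : LaurentSeries S.C, ∀ i, B.repr y i = y.map (b.coord i) := by
    intro y i
    have : y = ∑ j, (y.map (b.coord j)) • B j := by
      conv_lhs => rw [laurent_span S y]
      exact Finset.sum_congr rfl fun j _ => by rw [hB, Algebra.smul_def]
    conv_lhs => rw [this, B.repr_sum_self]
  change HahnSeries.coeff
    (LinearMap.trace (LaurentSeries S.F) (LaurentSeries S.C)
      (LinearMap.mulLeft (LaurentSeries S.F) x)) m = _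
  rw [τ_apply, LinearMap.trace_eq_matrix_trace _ B, LinearMap.trace_eq_matrix_trace _ b,
    Matrix.trace, Matrix.trace, HahnSeries.coeff_sum]
  refine Finset.sum_congr rfl fun i _ => ?_
  rw [Matrix.diag_apply, Matrix.diag_apply, LinearMap.toMatrix_apply, LinearMap.toMatrix_apply,
    hrepr, hB, LinearMap.mulLeft_apply, LinearMap.mulLeft_apply, HahnSeries.map_coeff,
    HahnSeries.C_apply, HahnSeries.coeff_mul_single_zero]
  rfl

end Laurent

end P199K.Lim
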