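import Mathlib

/-!
# P199: generic pairs in a subspace of a field extension (PAIR)

If `S`, `P`, `W` are subspaces of a field `K` with `dim W > dim S + dim P` then some `r ∈ W` has
`S ⊓ r P = 0`; `r` may also avoid a given proper part of `W`.
-/

namespace Vale.P199K

namespace Pair

open Module Submodule

variable {F V : Type*} [Field F] [AddCommGroup V] [Module F V]

/-- Independence survives some nonzero perturbation. -/
lemma exists_perturb [Infinite F] {ι : Type*} [Finite ι] {v : ι → V}
    (hv : LinearIndependent F v) (g : ι → V) :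
    ∃ ε : F, ε ≠ 0 ∧ LinearIndependent F (fun i => v i + ε • g i) := by
  classical
  have := Fintype.ofFinite ι
  obtain ⟨φ, hφ⟩ := LinearMap.exists_leftInverse_of_injective
    (Finsupp.linearCombination F v)
    (LinearMap.ker_eq_bot.2 (linearIndependent_iff_injective_finsuppLinearCombination.1 hv))
  let G : Matrix ι ι F := Matrix.of fun i j => φ (g i) j
  let P : Polynomial F :=
    (1 + (Polynomial.X : Polynomial F) • G.map Polynomial.C : Matrix ι ι (Polynomial F)).det
  have hP : ∀ ε : F, P.eval ε = (1 + ε • G).det := fun ε => by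
    rw [← Polynomial.coe_evalRingHom, RingHom.map_det]
    congr 1
    ext i j
    by_cases h : i = j <;> simp [h, G] <;> ring
  have hP0 : Polynomial.X * P ≠ 0 := mul_ne_zero Polynomial.X_ne_zero fun h => by
    have := hP 0
    simp [h] at this
  obtain ⟨ε, hε⟩ := Polynomial.exists_eval_ne_zero_of_natDegree_lt_card (Polynomial.X * P) hP0
    (lt_of_lt_of_le (Cardinal.natCast_lt_aleph0 (n := (Polynomial.X * P).natDegree))
      (Cardinal.aleph0_le_mk F))
  rw [Polynomial.eval_mul, Polynomial.eval_X, mul_ne_zero_iff, hP] at hε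
  refine ⟨ε, hε.1, ?_⟩
  let L : V →ₗ[F] ι → F := Finsupp.lcoeFun.comp φ
  refine LinearIndependent.of_comp L ?_
  have hrow : (L ∘ fun i => v i + ε • g i) = (1 + ε • G).row := by
    funext i j
    have h1 : φ (v i) = Finsupp.single i 1 := by
      have := LinearMap.congr_fun hφ (Finsupp.single i 1)
      simpa using this
    simp [L, G, Matrix.row, h1, Matrix.one_apply, Finsupp.single_apply]
  rw [hrow]
  exact Matrix.linearIndependent_rows_of_det_ne_zero hε.2

variable {K : Type*} [Field K] [Algebra F K]

/-- `r P`. -/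
abbrev smulSpace (r : K) (P : Submodule F K) : Submodule F K := P.map (LinearMap.mulLeft F r)

/-- Key lemma: at a maximising `r`, a coincidence spreads to all directions. -/
theorem exists_forall_eq_zero [Infinite F] [FiniteDimensional F K] (S P W : Submodule F K)
    (h : finrank F S + finrank F P < finrank F W) :
    ∃ r ∈ W, ∀ a ∈ P, r * a ∈ S → a = 0 := by
  classical
  let A : Set ℕ := {k | ∃ r ∈ W, finrank F ↥(S ⊔ smulSpace r P) = k}
  have hA : BddAbove A := ⟨finrank F K, by rintro _ ⟨r, -, rfl⟩; exact Submodule.finrank_le _⟩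
  obtain ⟨r, hr, hk⟩ := Nat.sSup_mem (s := A) ⟨_, 0, W.zero_mem, rfl⟩ hA
  have hmax : ∀ r' ∈ W, finrank F ↥(S ⊔ smulSpace r' P) ≤ finrank F ↥(S ⊔ smulSpace r P) := by
    intro r' hr'
    rw [hk]
    exact le_csSup hA ⟨r', hr', rfl⟩
  refine ⟨r, hr, fun a haP hxS => ?_⟩
  by_contra ha
  set T := S ⊔ smulSpace r P with hT
  -- every `s a` lies in `T`
  have key : ∀ s ∈ W, s * a ∈ T := by
    intro s hs
    by_contra hsa
    obtain ⟨b, hb, hbspan, hbli⟩ :=
      exists_linearIndependent F ((S : Set K) ∪ (smulSpace r P : Set K))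
    rw [Submodule.span_union, Submodule.span_eq, Submodule.span_eq] at hbspan
    have : Finite b := hbli.setFinite.to_subtype
    have := Fintype.ofFinite b
    have hcard : finrank F T = Fintype.card b := by
      rw [hT, ← hbspan]
      exact finrank_span_set_eq_card hbli ▸ (Set.toFinset_card b)
    have hex : ∀ x : b, ∃ y : K, ∀ ε : F,
        (x : K) + ε • y ∈ S ⊔ smulSpace (r + ε • s) P := by
      rintro ⟨x, hx⟩
      rcases hb hx with hxs | ⟨p, hp, rfl⟩
      · exact ⟨0, fun ε => by simpa using Submodule.mem_sup_left hxs⟩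
      · refine ⟨s * p, fun ε => Submodule.mem_sup_right ⟨p, hp, ?_⟩⟩
        simp [add_mul]
    choose g hg using hex
    let v : Option b → K := fun o => o.elim (s * a) (↑)
    let g' : Option b → K := fun o => o.elim 0 g
    have hv : LinearIndependent F v := by
      rw [linearIndependent_option]
      refine ⟨hbli, ?_⟩
      simpa [v, Function.comp_def, hbspan] using hsa
    obtain ⟨ε, hε, hli⟩ := exists_perturb hv g'
    have hmem : ∀ o, v o + ε • g' o ∈ S ⊔ smulSpace (r + ε • s) P := by
      rintro (_ | x)
      · have h1 : (r + ε • s) * a - r * a ∈ S ⊔ smulSpace (r + ε • s) P :=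
          Submodule.sub_mem _ (Submodule.mem_sup_right ⟨a, haP, rfl⟩)
            (Submodule.mem_sup_left hxS)
        rw [add_mul, add_sub_cancel_left, smul_mul_assoc] at h1
        simpa [v, g'] using (Submodule.smul_mem_iff _ hε).1 h1
      · exact hg x ε
    have hle : finrank F ↥(span F (Set.range fun o => v o + ε • g' o)) ≤
        finrank F ↥(S ⊔ smulSpace (r + ε • s) P) := Submodule.finrank_mono <| by
      rw [Submodule.span_le]
      rintro _ ⟨o, rfl⟩
      exact hmem o
    rw [finrank_span_eq_card hli, Fintype.card_option, ← hcard] at hle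
    have := hle.trans (hmax _ (W.add_mem hr (W.smul_mem ε hs)))
    omega
  -- so `W a ⊆ T`
  have hWa : finrank F W ≤ finrank F T := by
    have hinj : Function.Injective (LinearMap.mulLeft F a) := fun x y hxy =>
      mul_left_cancel₀ ha (by simpa using hxy)
    rw [(Submodule.equivMapOfInjective _ hinj W).finrank_eq]
    refine Submodule.finrank_mono ?_
    rintro _ ⟨s, hs, rfl⟩
    simpa [mul_comm] using key s hs
  have h1 : finrank F T ≤ finrank F S + finrank F (smulSpace r P) := by
    rw [hT]
    exact le_of_le_of_eq (Nat.le_add_right _ _) (Submodule.finrank_sup_add_finrank_inf_eq _ _)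
  have h2 : finrank F (smulSpace r P) ≤ finrank F P := Submodule.finrank_map_le _ P
  omega

/-- The same, avoiding a subspace `U` that does not contain `W`. -/
theorem exists_notMem_forall_eq_zero [Infinite F] [FiniteDimensional F K]
    (S P W U : Submodule F K) (h : finrank F S + finrank F P < finrank F W) (hU : ¬ W ≤ U) :
    ∃ r ∈ W, r ∉ U ∧ ∀ a ∈ P, r * a ∈ S → a = 0 := by
  obtain ⟨r, hr, hgood⟩ := exists_forall_eq_zero S P W h
  by_cases hrU : r ∉ U
  · exact ⟨r, hr, hrU, hgood⟩
  rw [not_not] at hrU
  obtain ⟨s, hs, hsU⟩ := SetLike.not_le_iff_exists.1 hU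
  let b := Module.finBasis F P
  let v : Fin (finrank F P) → K ⧸ S := fun j => S.mkQ (r * b j)
  have hv : LinearIndependent F v := by
    have hker : LinearMap.ker ((S.mkQ.comp (LinearMap.mulLeft F r)).comp P.subtype) = ⊥ := by
      rw [Submodule.eq_bot_iff]
      rintro ⟨a, ha⟩ hx
      have : r * a ∈ S := by simpa using hx
      exact Subtype.ext (hgood a ha this)
    exact b.linearIndependent.map' _ hker
  obtain ⟨ε, hε, hli⟩ := exists_perturb hv fun j => S.mkQ (s * b j)
  refine ⟨r + ε • s, W.add_mem hr (W.smul_mem ε hs), fun hmem => hsU ?_, fun a ha haS => ?_⟩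
  · have := U.sub_mem hmem hrU
    rw [add_sub_cancel_left] at this
    exact (U.smul_mem_iff hε).1 this
  · let f : P →ₗ[F] K ⧸ S := (S.mkQ.comp (LinearMap.mulLeft F (r + ε • s))).comp P.subtype
    have hf : ∀ j, f (b j) = v j + ε • S.mkQ (s * b j) := fun j => by
      simp [f, v, add_mul, Submodule.Quotient.mk_add, Submodule.Quotient.mk_smul]
    have hinj : Function.Injective f := by
      rw [← LinearMap.ker_eq_bot, Submodule.eq_bot_iff]
      intro x hx
      rw [LinearMap.mem_ker, ← b.sum_repr x, map_sum] at hx
      simp only [map_smul, hf] at hx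
      have h0 := Fintype.linearIndependent_iff.1 hli _ hx
      exact b.repr.injective (Finsupp.ext fun j => by simp [h0 j])
    have h0 : f ⟨a, ha⟩ = f 0 := by
      rw [map_zero]
      simpa [f] using haS
    exact congrArg Subtype.val (hinj h0)

/-- A subspace generating a separable extension contains a primitive element. -/
theorem exists_primitive [Infinite F] [FiniteDimensional F K] [Algebra.IsSeparable F K]
    (W : Submodule F K) (hgen : IntermediateField.adjoin F (W : Set K) = ⊤) :
    ∃ r ∈ W, IntermediateField.adjoin F {r} = ⊤ := by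
  have : Finite (IntermediateField F K) :=
    (Field.exists_primitive_element_iff_finite_intermediateField F K).1
      ⟨inferInstance, Field.exists_primitive_element F K⟩
  let p : {E : IntermediateField F K // E ≠ ⊤} → Submodule F W := fun E =>
    E.1.toSubalgebra.toSubmodule.comap W.subtype
  have hp : ∀ E, p E ≠ ⊤ := by
    rintro ⟨E, hE⟩ h
    refine hE (top_le_iff.1 (hgen ▸ IntermediateField.adjoin_le_iff.2 fun x hx => ?_))
    have : (⟨x, hx⟩ : W) ∈ p ⟨E, hE⟩ := h ▸ Submodule.mem_top
    exact this
  obtain ⟨⟨r, hr⟩, hx⟩ := Submodule.exists_forall_notMem_of_forall_ne_top p hp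
  refine ⟨r, hr, ?_⟩
  by_contra hne
  exact hx ⟨_, hne⟩ (IntermediateField.mem_adjoin_simple_self F r)

end Pair

end Vale.P199K
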