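import Mathlib
import Vale.Agent.P199.Kurosh.Stmts
import Vale.Agent.P199.Kurosh.Rank
import Vale.Agent.P199.Kurosh.Alg
import Vale.Agent.P199.Kurosh.Pair

/-!
# P199: existence of test models

A spanning model when the corank is small, and a primitive model always.
-/

open Module Submodule

namespace P199K

namespace Obj

variable {o : Obj}

lemma L0alg_comm (hW : o.W ≤ o.S.gen o.θ) :
    ∀ x ∈ o.L0alg, ∀ y ∈ o.L0alg, x * y = y * x := fun _ hx _ hy =>
  Stg.gen_comm (o.L0_le_gen hW hx) (o.L0_le_gen hW hy)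

/-- `ω⁻¹ W` inside the ratio algebra. -/
def Wrat (o : Obj) (ω : o.S.C) : Submodule o.S.F o.L0alg :=
  o.W.comap ((LinearMap.mulLeft o.S.F ω).comp o.L0alg.val.toLinearMap)

lemma mem_Wrat {ω : o.S.C} {x : o.L0alg} : x ∈ o.Wrat ω ↔ ω * (x : o.S.C) ∈ o.W := Iff.rfl

lemma finrank_Wrat (hW : o.W ≤ o.S.gen o.θ) {ω : o.S.C} (hω : ω ∈ o.W) (h0 : ω ≠ 0) :
    finrank o.S.F (o.Wrat ω) = o.r := by
  have hinj : Function.Injective
      ((LinearMap.mulLeft o.S.F ω).comp o.L0alg.val.toLinearMap) := fun x y hxy =>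
    Subtype.ext (mul_left_cancel₀ h0 hxy)
  rw [(Submodule.equivMapOfInjective _ hinj (o.Wrat ω)).finrank_eq, Obj.r, Obj.Wrat,
    Submodule.map_comap_eq_of_le]
  intro w hw
  exact ⟨⟨ω⁻¹ * w, o.inv_mul_mem_L0 hW hω h0 hw⟩, by simp [h0]⟩

/-- A spanning model with independent ratios exists as soon as the corank is small and `W` is
not a line. -/
theorem exists_model_spans_indep (hne : o.W ≠ ⊥) (hW : o.W ≤ o.S.gen o.θ)
    (hc : 3 * (o.d0 - o.r) < o.d0) (hr1 : 1 < o.r) :
    ∃ m : Model o, m.Spans ∧ LinearIndependent o.S.F ![m.w0, m.w1] := by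
  obtain ⟨ω, hω, h0⟩ := Submodule.exists_mem_ne_zero_of_ne_bot hne
  let _ : Field o.L0alg := Stg.fieldOfComm o.L0alg (L0alg_comm hW)
  have hWr := finrank_Wrat hW hω h0
  have hr := o.r_le_d0 hW
  have hd : finrank o.S.F o.L0alg = o.d0 := rfl
  set B := Algebra.traceForm o.S.F o.L0alg
  have hB : B.Nondegenerate := traceForm_nondegenerate _ _
  set P : Submodule o.S.F o.L0alg := B.orthogonal (o.Wrat ω)
  have hP : finrank o.S.F P = o.d0 - o.r := by
    rw [LinearMap.BilinForm.finrank_orthogonal hB, hd, hWr]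
  have hWne : ¬ o.Wrat ω ≤ span o.S.F {(1 : o.L0alg)} := fun h => by
    have h2 := Submodule.finrank_mono h
    rw [hWr, finrank_span_singleton one_ne_zero] at h2
    omega
  obtain ⟨r, hrW, hrU, hgood⟩ := Vale.P199K.Pair.exists_notMem_forall_eq_zero P P (o.Wrat ω)
    (span o.S.F {(1 : o.L0alg)}) (by omega) hWne
  have hr0 : r ≠ 0 := fun h => hrU (h ▸ Submodule.zero_mem _)
  set V := o.Wrat ω ⊔ (o.Wrat ω).map (LinearMap.mulLeft o.S.F r) with hV
  have hVbot : B.orthogonal V = ⊥ := by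
    rw [Submodule.eq_bot_iff]
    intro y hy
    have h1 : y ∈ P := fun w hw => hy w (Submodule.mem_sup_left hw)
    refine hgood y h1 fun w hw => ?_
    have h2 := hy (r * w) (Submodule.mem_sup_right ⟨w, hw, rfl⟩)
    simp only [B, Algebra.traceForm_apply] at h2 ⊢
    rw [← h2]
    congr 1
    ring
  have hVtop : V = ⊤ := by
    have := LinearMap.BilinForm.finrank_orthogonal hB V
    rw [hVbot, finrank_bot] at this
    refine Submodule.eq_top_of_finrank_eq ?_
    have h2 := Submodule.finrank_le V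
    omega
  refine ⟨⟨ω, 1, r, hω, h0, one_ne_zero, fun h => hr0 (Subtype.ext h), by rwa [mul_one], hrW⟩,
    fun x hx => ?_, ?_⟩
  swap
  · refine (LinearIndependent.pair_iff' (one_ne_zero (α := o.S.C))).2 fun a ha => hrU ?_
    exact Submodule.mem_span_singleton.2 ⟨a, Subtype.ext ha⟩
  have hxV : (⟨x, hx⟩ : o.L0alg) ∈ V := hVtop ▸ Submodule.mem_top
  obtain ⟨a, ha, _, ⟨b, hb, rfl⟩, hab⟩ := Submodule.mem_sup.1 hxV
  refine ⟨a, b, ha, hb, ?_⟩
  rw [one_mul]
  exact (congrArg Subtype.val hab).symm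

/-- A spanning model exists as soon as the corank is small and `W` is not a line. -/
theorem exists_model_spans (hne : o.W ≠ ⊥) (hW : o.W ≤ o.S.gen o.θ)
    (hc : 3 * (o.d0 - o.r) < o.d0) (hr1 : 1 < o.r) : ∃ m : Model o, m.Spans :=
  (exists_model_spans_indep hne hW hc hr1).imp fun _ h => h.1

/-- A primitive model exists. -/
theorem exists_model_primitive (hne : o.W ≠ ⊥) (hW : o.W ≤ o.S.gen o.θ) :
    ∃ m : Model o, m.Primitive := by
  obtain ⟨ω, hω, h0⟩ := Submodule.exists_mem_ne_zero_of_ne_bot hne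
  let _ : Field o.L0alg := Stg.fieldOfComm o.L0alg (L0alg_comm hW)
  have hgen : IntermediateField.adjoin o.S.F (o.Wrat ω : Set o.L0alg) = ⊤ := by
    rw [eq_top_iff]
    rintro ⟨x, hx⟩ -
    set K := IntermediateField.adjoin o.S.F (o.Wrat ω : Set o.L0alg)
    suffices hle : o.L0alg ≤ K.toSubalgebra.map o.L0alg.val by
      obtain ⟨y, hy, hxy⟩ := hle hx
      rwa [show (⟨x, hx⟩ : o.L0alg) = y from Subtype.ext hxy.symm]
    refine Algebra.adjoin_le ?_
    rintro _ ⟨a, ha, b, hb, hb0, rfl⟩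
    have hK : ∀ {u}, u ∈ o.W → ∃ k ∈ K, ((k : o.L0alg) : o.S.C) = ω⁻¹ * u := fun {u} hu =>
      ⟨⟨ω⁻¹ * u, o.inv_mul_mem_L0 hW hω h0 hu⟩, IntermediateField.subset_adjoin _ _
        (by show ω * (ω⁻¹ * u) ∈ o.W; rwa [← mul_assoc, mul_inv_cancel₀ h0, one_mul]), rfl⟩
    obtain ⟨ka, hka, ea⟩ := hK ha
    obtain ⟨kb, hkb, eb⟩ := hK hb
    refine ⟨ka * kb⁻¹, K.mul_mem hka (K.inv_mem hkb), ?_⟩
    have hkb0 : kb ≠ 0 := by
      intro h
      rw [h, ZeroMemClass.coe_zero, eq_comm, mul_eq_zero, inv_eq_zero] at eb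
      exact eb.elim h0 hb0
    have hinv : ((kb⁻¹ : o.L0alg) : o.S.C) = ((kb : o.S.C))⁻¹ := by
      refine (inv_eq_of_mul_eq_one_right ?_).symm
      exact congrArg Subtype.val (mul_inv_cancel₀ hkb0)
    show ((ka * kb⁻¹ : o.L0alg) : o.S.C) = a * b⁻¹
    rw [MulMemClass.coe_mul, hinv, ea, eb, mul_inv_rev, inv_inv,
      Stg.gen_comm (Stg.gen_inv (hW hb)) (hW hω), ← mul_assoc, Stg.gen_comm (Stg.gen_inv (hW hω))
        (hW ha), mul_assoc a, inv_mul_cancel₀ h0, mul_one]
  obtain ⟨r, hrW, hr⟩ := Vale.P199K.Pair.exists_primitive (o.Wrat ω) hgen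
  obtain ⟨r, hrW, hr0, hr⟩ : ∃ r ∈ o.Wrat ω, r ≠ 0 ∧
      IntermediateField.adjoin o.S.F {r} = ⊤ := by
    by_cases h : r = 0
    · refine ⟨1, by rw [mem_Wrat]; simpa using hω, one_ne_zero, ?_⟩
      rw [h, IntermediateField.adjoin_zero] at hr
      rw [IntermediateField.adjoin_one, hr]
    · exact ⟨r, hrW, h, hr⟩
  refine ⟨⟨ω, 1, r, hω, h0, one_ne_zero, fun h => hr0 (Subtype.ext h), by rwa [mul_one], hrW⟩, ?_⟩
  have h2 : Algebra.adjoin o.S.F ({r} : Set o.L0alg) = ⊤ := by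
    rw [← IntermediateField.adjoin_simple_toSubalgebra_of_isAlgebraic
      (Algebra.IsAlgebraic.isAlgebraic r), hr, IntermediateField.top_toSubalgebra]
  have h3 := congrArg (Subalgebra.map o.L0alg.val) h2
  rw [AlgHom.map_adjoin, Set.image_singleton, Algebra.map_top, Subalgebra.range_val] at h3
  rw [Model.Primitive, inv_one, one_mul]
  exact congrArg Subalgebra.toSubmodule h3

end Obj

/-- Case A of the rank lemma. -/
theorem rankA_holds : RankAStmt := fun _ hne hW =>
  ⟨Obj.exists_model_primitive hne hW, fun m _ hp hM E => rankA_bound hW m hp hM E⟩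

/-- The minimal state has a spanning model with independent ratios, given the field lemma. -/
theorem minimal_indep_of (h : WLeStmt) (root o : Obj) (ho : Obj.Minimal root o) :
    o.W ≤ o.S.gen o.θ ∧ ∃ m : Model o, m.Spans ∧ LinearIndependent o.S.F ![m.w0, m.w1] := by
  have hW := h root o ho.state ho.deg
  have := ho.small
  exact ⟨hW, Obj.exists_model_spans_indep ho.state.2 hW (by omega) (by omega)⟩

/-- The minimal state has a spanning model, given the field lemma. -/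
theorem minimal_of (h : WLeStmt) : MinimalStmt := fun root o ho => by
  obtain ⟨hW, m, hm, -⟩ := minimal_indep_of h root o ho
  exact ⟨hW, m, hm⟩

end P199K
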