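import Mathlib
import Vale.Agent.P199.Kurosh.Stmts
import Vale.Agent.P199.Kurosh.SymKit

/-! Perturbations of high order make a point generating. -/

open Module Finset

namespace P199K

namespace Sym

variable {S : Stg} {M : ℕ} (E : Sym S M)

/-- Constants of a basis form a basis of the Laurent stage. -/
theorem laurent_linearIndependent {ι : Type} [Fintype ι] (b : Basis ι E.T.F E.T.C) :
    LinearIndependent (LaurentSeries E.T.F) (fun i => (HahnSeries.C (b i) : LaurentSeries E.T.C)) := by
  rw [Fintype.linearIndependent_iff]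
  intro a ha i
  ext n
  have := congrArg (fun z : LaurentSeries E.T.C => z.coeff n) ha
  simp only [HahnSeries.coeff_sum, Algebra.smul_def, laurent_algebraMap, HahnSeries.C_apply,
    HahnSeries.coeff_mul_single_zero, laurentMap_coeff, HahnSeries.coeff_zero] at this
  simp only [← Algebra.smul_def] at this
  simpa using Fintype.linearIndependent_iff.1 b.linearIndependent (fun j => (a j).coeff n) this i

theorem laurent_span_top {ι : Type} [Fintype ι] (b : Basis ι E.T.F E.T.C) :
    ⊤ ≤ Submodule.span (LaurentSeries E.T.F)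
      (Set.range fun i => (HahnSeries.C (b i) : LaurentSeries E.T.C)) := by
  intro x _
  rw [laurent_span E.T x]
  refine Submodule.sum_mem _ fun k _ => ?_
  rw [← Algebra.smul_def]
  refine Submodule.smul_mem _ _ ?_
  conv in (Module.finBasis _ _ k) => rw [← b.sum_repr (Module.finBasis E.T.F E.T.C k)]
  rw [map_sum]
  refine Submodule.sum_mem _ fun i _ => ?_
  have h : (HahnSeries.C (b.repr (Module.finBasis E.T.F E.T.C k) i • b i) : LaurentSeries E.T.C) =
      (HahnSeries.C (b.repr (Module.finBasis E.T.F E.T.C k) i) : LaurentSeries E.T.F) •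
        (HahnSeries.C (b i) : LaurentSeries E.T.C) := by
    rw [Algebra.smul_def, Algebra.smul_def, laurent_algebraMap, map_mul]
    congr 1
    exact (HahnSeries.map_C _ (algebraMap E.T.F E.T.C)).symm
  rw [h]
  exact Submodule.smul_mem _ _ (Submodule.subset_span ⟨i, rfl⟩)

/-- The monomial basis of the Laurent stage. -/
noncomputable def laurentBasis :
    Basis (Fin (finrank S.F S.C) × Fin M × Fin M) (LaurentSeries E.T.F) (LaurentSeries E.T.C) :=
  Basis.mk (E.laurent_linearIndependent E.basis) (E.laurent_span_top E.basis)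

end Sym

/-- A family depending polynomially on a central scalar that is a basis at zero spans for some scalar in
any infinite set. -/
theorem exists_spanning_eval {L A ι : Type} [Field L] [Ring A] [Algebra L A] [Fintype ι] [DecidableEq ι]
    (B : Basis ι L A) (Q : ι → Polynomial A) (h0 : ∀ i, (Q i).eval (algebraMap L A 0) = B i)
    (Z : Set L) (hZ : Z.Infinite) :
    ∃ ε ∈ Z, Submodule.span L (Set.range fun i => (Q i).eval (algebraMap L A ε)) = ⊤ := by
  classical
  let P : Matrix ι ι (Polynomial L) := fun k i =>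
    ∑ n ∈ (Q i).support, Polynomial.C (B.repr ((Q i).coeff n) k) * Polynomial.X ^ n
  have hP : ∀ ε : L, (P.map (Polynomial.eval ε)) =
      B.toMatrix (fun i => (Q i).eval (algebraMap L A ε)) := by
    intro ε
    ext k i
    rw [Matrix.map_apply, Basis.toMatrix_apply, Polynomial.eval_eq_sum (p := Q i), Polynomial.sum,
      map_sum, Finsupp.finsetSum_apply]
    simp only [P, Polynomial.eval_finsetSum, Polynomial.eval_mul, Polynomial.eval_C, Polynomial.eval_pow,
      Polynomial.eval_X]
    refine Finset.sum_congr rfl fun n _ => ?_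
    rw [← map_pow, ← Algebra.commutes, ← Algebra.smul_def, map_smul, Finsupp.smul_apply, smul_eq_mul,
      mul_comm]
  have hdet : ∀ ε : L, P.det.eval ε = B.det (fun i => (Q i).eval (algebraMap L A ε)) := by
    intro ε
    rw [Basis.det_apply, ← hP]
    exact (Polynomial.evalRingHom ε).map_det P
  have hne : P.det ≠ 0 := fun h => by
    have := hdet 0
    rw [h, Polynomial.eval_zero, show (fun i => (Q i).eval (algebraMap L A 0)) = B from funext h0,
      Basis.det_self] at this
    exact zero_ne_one this
  obtain ⟨ε, hε, hroot⟩ := (hZ.sdiff (Polynomial.finite_setOf_isRoot hne)).nonempty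
  refine ⟨ε, hε, (B.is_basis_iff_det.2 ?_).2⟩
  rw [← hdet]
  exact isUnit_iff_ne_zero.2 hroot

/-- Module `Perturb`. -/
theorem perturb_holds : PerturbStmt := by
  classical
  intro o M N _ hK _ E P
  set N' := max N 1 with hN'
  let i0 : Fin o.K := ⟨0, by omega⟩
  let i1 : Fin o.K := ⟨1, by omega⟩
  have h01 : i1 ≠ i0 := fun e => by simpa [i0, i1] using congrArg Fin.val e
  let X' : LaurentSeries E.T.C := HahnSeries.C E.X
  let Y' : LaurentSeries E.T.C := HahnSeries.C E.Y
  let Q : Fin (finrank o.S.F o.S.C) × Fin M × Fin M → Polynomial (LaurentSeries E.T.C) := fun p =>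
    Polynomial.C (E.ι (Sym.baseBasis o.S p.1)) *
      (Polynomial.C X' + Polynomial.C (P.p i0) * Polynomial.X) ^ (p.2.1 : ℕ) *
      (Polynomial.C Y' + Polynomial.C (P.p i1) * Polynomial.X) ^ (p.2.2 : ℕ)
  have hev : ∀ (ε : LaurentSeries E.T.F) p,
      (Q p).eval (algebraMap _ (LaurentSeries E.T.C) ε) =
      E.ι (Sym.baseBasis o.S p.1) *
        (X' + P.p i0 * algebraMap _ (LaurentSeries E.T.C) ε) ^ (p.2.1 : ℕ) *
        (Y' + P.p i1 * algebraMap _ (LaurentSeries E.T.C) ε) ^ (p.2.2 : ℕ) := by
    intro ε p
    let φ := Polynomial.eval₂RingHom' (RingHom.id (LaurentSeries E.T.C))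
      (algebraMap (LaurentSeries E.T.F) (LaurentSeries E.T.C) ε)
      (fun a => (Algebra.commutes ε a).symm)
    have hC : ∀ a, φ (Polynomial.C a) = a := fun a => Polynomial.eval₂_C _ _
    have hX : φ Polynomial.X = algebraMap _ _ ε := Polynomial.eval₂_X _ _
    show φ (Q p) = _
    simp only [Q, map_mul, map_pow, map_add, hC, hX]
  have h0 : ∀ p, (Q p).eval (algebraMap (LaurentSeries E.T.F) (LaurentSeries E.T.C) 0) = E.laurentBasis p := by
    intro p
    rw [hev, Sym.laurentBasis, Basis.mk_apply, E.basis_apply]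
    simp only [map_zero, mul_zero, add_zero, X', Y', Sym.mono, map_mul, map_pow]
    rfl
  let scal : ℕ → LaurentSeries E.T.F := fun k =>
    HahnSeries.single (-(N' : ℤ)) ((k + 1 : ℕ) : E.T.F)⁻¹
  have hscal : Function.Injective scal := fun a b e => by
    have := congrArg (fun z : LaurentSeries E.T.F => z.coeff (-(N' : ℤ))) e
    simpa [scal] using this
  obtain ⟨_, ⟨k, rfl⟩, hspan⟩ := exists_spanning_eval E.laurentBasis Q h0 _
    (Set.infinite_range_of_injective hscal)
  set lam : E.T.F := ((k + 1 : ℕ) : E.T.F) with hlam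
  have hlam0 : lam ≠ 0 := Nat.cast_ne_zero.2 (Nat.succ_ne_zero k)
  let μ : LaurentSeries E.T.F := HahnSeries.single (N' : ℤ) lam
  have hμ : μ * scal k = 1 := by
    simp only [μ, scal, HahnSeries.single_mul_single, add_neg_cancel, ← hlam, mul_inv_cancel₀ hlam0]
    rfl
  let e : Fin o.K → E.T.C := fun i => if i = i0 then E.X else if i = i1 then E.Y else 0
  have he : ∀ i, lam • e i ∈ E.E := fun i => Submodule.smul_mem _ _ (by
    simp only [e]
    split
    · exact E.X_mem_E
    · split
      · exact E.Y_mem_E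
      · exact zero_mem _)
  have hsmul : ∀ c : E.T.C, μ • (HahnSeries.C c : LaurentSeries E.T.C) =
      HahnSeries.single (N' : ℤ) (lam • c) := fun c => by
    rw [Algebra.smul_def, laurent_algebraMap, HahnSeries.C_apply]
    show (HahnSeries.single (N' : ℤ) lam).map (algebraMap E.T.F E.T.C) * _ = _
    have hmap : (HahnSeries.single (N' : ℤ) lam).map (algebraMap E.T.F E.T.C) =
        HahnSeries.single (N' : ℤ) (algebraMap E.T.F E.T.C lam) := by
      ext n
      by_cases hn : n = (N' : ℤ) <;> simp [HahnSeries.coeff_single_of_ne, hn]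
    rw [hmap, HahnSeries.single_mul_single, add_zero, Algebra.smul_def]
  refine ⟨⟨fun i => P.p i + HahnSeries.single (N' : ℤ) (lam • e i), fun i m hm => ?_,
    fun i n => ?_⟩, ?_, fun i m hm => ?_⟩
  · rw [HahnSeries.coeff_add, P.small i m hm, zero_add, HahnSeries.coeff_single_of_ne (by omega)]
  · rw [HahnSeries.coeff_add]
    refine Submodule.add_mem _ (P.mem i n) ?_
    by_cases hn : n = (N' : ℤ)
    · subst hn; simpa using he i
    · simp [HahnSeries.coeff_single_of_ne hn]
  · rw [Point.Generates, ← top_le_iff]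
    set A := Algebra.adjoin (LaurentSeries E.T.F) (Set.range (fun c : o.S.C => E.ι c) ∪
      Set.range (fun i => P.p i + HahnSeries.single (N' : ℤ) (lam • e i)))
    have hA : ∀ i, HahnSeries.C (e i) + P.p i * algebraMap _ (LaurentSeries E.T.C) (scal k) ∈ A := by
      intro i
      have h1 : scal k • (P.p i + HahnSeries.single (N' : ℤ) (lam • e i)) ∈ A :=
        A.smul_mem (Algebra.subset_adjoin (Or.inr ⟨i, rfl⟩)) _
      rwa [smul_add, ← hsmul, smul_smul, mul_comm (scal k), hμ, one_smul, add_comm, Algebra.smul_def,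
        Algebra.commutes] at h1
    have hX : X' + P.p i0 * algebraMap _ (LaurentSeries E.T.C) (scal k) ∈ A := by
      simpa [e, X'] using hA i0
    have hY : Y' + P.p i1 * algebraMap _ (LaurentSeries E.T.C) (scal k) ∈ A := by
      simpa [e, h01, Y'] using hA i1
    intro x _
    have hx : x ∈ Submodule.span (LaurentSeries E.T.F) (Set.range fun p =>
        (Q p).eval (algebraMap _ (LaurentSeries E.T.C) (scal k))) := hspan ▸ Submodule.mem_top
    refine (Submodule.span_le (p := Subalgebra.toSubmodule A)).2 ?_ hx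
    rintro _ ⟨p, rfl⟩
    simp only [SetLike.mem_coe, Subalgebra.mem_toSubmodule, hev]
    exact A.mul_mem (A.mul_mem (Algebra.subset_adjoin (Or.inl ⟨_, rfl⟩)) (A.pow_mem hX _))
      (A.pow_mem hY _)
  · have : m < (N' : ℤ) := lt_of_lt_of_le hm (by exact_mod_cast le_max_left N 1)
    simp [HahnSeries.coeff_single_of_ne this.ne]

end P199K
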