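import Mathlib
import Vale.Agent.P199.Kurosh.Stmts

/-! Substituting scalar series without constant term gives a descendant. -/

open Module

namespace P199K

namespace Subst

section

variable {K L : ℕ} {C : Type} [Ring C]

theorem mul_zero_short {b : ℕ} (f g : NS L C) (hg : ∀ v, v.length < b → g v = 0)
    (w : List (Fin L)) (hw : w.length < b) : (f * g) w = 0 := by
  induction w generalizing f with
  | nil => simp [hg [] hw]
  | cons i w ih =>
    rw [NS.mul_cons, hg _ hw, mul_zero, zero_add]
    exact ih _ (Nat.lt_of_succ_lt (by simpa using hw))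

theorem mul_congr_short {f g g' : NS L C} (hf : f [] = 0) (w : List (Fin L))
    (h : ∀ v : List (Fin L), v.length < w.length → g v = g' v) : (f * g) w = (f * g') w := by
  cases w with
  | nil => simp [hf]
  | cons i w =>
    rw [NS.mul_cons, NS.mul_cons, hf, zero_mul, zero_mul, zero_add, zero_add, ← sub_eq_zero,
      ← NS.sub_apply, ← mul_sub]
    exact mul_zero_short (b := w.length + 1) _ _
      (fun v hv => by simp [h v (by simpa using hv)]) w w.length.lt_succ_self

/-- Evaluation at a word as an additive map. -/
def coef (w : List (Fin L)) : NS L C →+ C where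
  toFun f := f w
  map_zero' := rfl
  map_add' _ _ := rfl

theorem sum_apply {α : Type} (s : Finset α) (F : α → NS L C) (w : List (Fin L)) :
    (∑ a ∈ s, F a) w = ∑ a ∈ s, F a w :=
  map_sum (coef w) F s

theorem wordProd_zero (y : Fin K → NS L C) (hy : ∀ i, y i [] = 0) (v : List (Fin K))
    (w : List (Fin L)) (h : w.length < v.length) : NS.wordProd y v w = 0 := by
  induction v generalizing w with
  | nil => simp at h
  | cons i v ih =>
    show (y i * NS.wordProd y v) w = 0
    rw [mul_congr_short (g' := 0) (hy i) w fun u hu => by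
      rw [NS.zero_apply]
      exact ih u (by simp only [List.length_cons] at h; omega)]
    simp

/-- Truncated substitution. -/
noncomputable def trunc (y : Fin K → NS L C) (f : NS K C) (n : ℕ) : NS L C :=
  evalTrunc (fun c : C => (NS.const c : NS L C)) y f n

theorem trunc_succ (y : Fin K → NS L C)
    (hy : ∀ (i : Fin K) (c : C), (NS.const c : NS L C) * y i = y i * NS.const c)
    (f : NS K C) (n : ℕ) :
    trunc y f (n + 1) = NS.const (f []) + ∑ i, y i * trunc y (NS.shift i f) n := by
  simp only [trunc, evalTrunc]
  rw [Finset.sum_range_succ' _ (n + 1), add_comm]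
  congr 1
  · simp [NS.wordProd]
  · simp only [Finset.mul_sum]
    rw [Finset.sum_comm]
    refine Finset.sum_congr rfl fun l _ => ?_
    rw [← (Fin.consEquiv fun _ : Fin (l + 1) => Fin K).sum_comp, Fintype.sum_prod_type]
    refine Finset.sum_congr rfl fun i _ => Finset.sum_congr rfl fun v _ => ?_
    have hl : List.ofFn ((Fin.consEquiv fun _ : Fin (l + 1) => Fin K) (i, v)) = i :: List.ofFn v := by
      simp
    rw [hl, NS.shift_apply]
    show (NS.const (f (i :: List.ofFn v)) : NS L C) * (y i * NS.wordProd y (List.ofFn v)) = _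
    rw [← mul_assoc, hy, mul_assoc]

/-- Substitution of series without constant term. -/
noncomputable def comp (y : Fin K → NS L C) (f : NS K C) : NS L C :=
  fun w => trunc y f w.length w

theorem trunc_eq_comp (y : Fin K → NS L C) (hy : ∀ i, y i [] = 0) (f : NS K C) (n : ℕ)
    (w : List (Fin L)) (h : w.length ≤ n) : trunc y f n w = comp y f w := by
  induction n, h using Nat.le_induction with
  | base => rfl
  | succ n hn ih =>
    rw [← ih]
    simp only [trunc, evalTrunc]
    rw [Finset.sum_range_succ _ (n + 1), NS.add_apply, sum_apply Finset.univ, add_eq_left]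
    refine Finset.sum_eq_zero fun v _ => ?_
    rw [NS.const_mul, wordProd_zero y hy _ w (by rw [List.length_ofFn]; omega), mul_zero]

variable (y : Fin K → NS L C) (hy0 : ∀ i, y i [] = 0)
  (hy : ∀ (i : Fin K) (c : C), (NS.const c : NS L C) * y i = y i * NS.const c)

include hy0 hy in
theorem comp_eq (f : NS K C) :
    comp y f = NS.const (f []) + ∑ i, y i * comp y (NS.shift i f) := by
  refine NS.ext fun w => ?_
  rw [← trunc_eq_comp y hy0 f (w.length + 1) w (Nat.le_succ _), trunc_succ y hy, NS.add_apply,
    NS.add_apply, sum_apply, sum_apply]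
  exact congrArg _ (Finset.sum_congr rfl fun i _ => mul_congr_short (hy0 i) w fun v hv =>
    trunc_eq_comp y hy0 _ _ v hv.le)

include hy0 hy in
theorem comp_nil (f : NS K C) : comp y f [] = f [] := by
  rw [comp_eq y hy0 hy f, NS.add_apply, sum_apply]
  simp [hy0]

include hy0 hy in
theorem comp_single (f : NS K C) (s : Fin L) : comp y f [s] = ∑ i, y i [s] * f [i] := by
  rw [comp_eq y hy0 hy f, NS.add_apply, sum_apply, NS.const_cons, zero_add]
  refine Finset.sum_congr rfl fun i _ => ?_
  rw [NS.mul_cons, hy0, zero_mul, zero_add, NS.mul_nil, NS.shift_apply, comp_nil y hy0 hy]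
  rfl

theorem trunc_add (f g : NS K C) (n : ℕ) : trunc y (f + g) n = trunc y f n + trunc y g n := by
  simp only [trunc, evalTrunc, ← Finset.sum_add_distrib]
  refine Finset.sum_congr rfl fun l _ => Finset.sum_congr rfl fun v _ => ?_
  rw [← add_mul, NS.add_apply]
  exact congrArg (· * _) ((NS.constHom : C →+* NS L C).map_add _ _)

theorem comp_add (f g : NS K C) : comp y (f + g) = comp y f + comp y g :=
  NS.ext fun w => by simp [comp, trunc_add]

theorem trunc_const_mul (c : C) (g : NS K C) (n : ℕ) :
    trunc y ((NS.const c : NS K C) * g) n = (NS.const c : NS L C) * trunc y g n := by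
  simp only [trunc, evalTrunc, Finset.mul_sum]
  refine Finset.sum_congr rfl fun l _ => Finset.sum_congr rfl fun v _ => ?_
  rw [← mul_assoc, NS.const_mul]
  exact congrArg (· * _) ((NS.constHom : C →+* NS L C).map_mul _ _)

theorem comp_const_mul (c : C) (g : NS K C) :
    comp y ((NS.const c : NS K C) * g) = (NS.const c : NS L C) * comp y g :=
  NS.ext fun w => by rw [NS.const_mul]; simp [comp, trunc_const_mul, NS.const_mul]

theorem comp_zero : comp y (0 : NS K C) = 0 := by
  simpa using comp_add y 0 0

include hy0 hy in
theorem comp_const (c : C) : comp y (NS.const c) = NS.const c := by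
  rw [comp_eq y hy0 hy (NS.const c)]
  have : ∀ i : Fin K, NS.shift i (NS.const c : NS K C) = 0 := fun i => rfl
  simp [this, comp_zero]

include hy0 hy in
theorem comp_mul (f g : NS K C) : comp y (f * g) = comp y f * comp y g := by
  suffices h : ∀ n, ∀ f g : NS K C, ∀ w : List (Fin L), w.length < n →
      comp y (f * g) w = (comp y f * comp y g) w from
    NS.ext fun w => h _ f g w w.length.lt_succ_self
  intro n
  induction n with
  | zero => exact fun _ _ w h => absurd h (Nat.not_lt_zero _)
  | succ n ih =>
    intro f g w hw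
    have e : comp y f * comp y g = NS.const (f [] * g []) +
        ∑ i, y i * ((NS.const (f []) : NS L C) * comp y (NS.shift i g) +
          comp y (NS.shift i f) * comp y g) := by
      conv_lhs => rw [comp_eq y hy0 hy f, add_mul, Finset.sum_mul]
      conv_lhs => arg 1; rw [comp_eq y hy0 hy g, mul_add, Finset.mul_sum]
      rw [add_assoc, ← Finset.sum_add_distrib]
      congr 1
      · exact ((NS.constHom : C →+* NS L C).map_mul _ _).symm
      · exact Finset.sum_congr rfl fun i _ => by rw [mul_add, ← mul_assoc, hy, mul_assoc, mul_assoc]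
    rw [e, comp_eq y hy0 hy (f * g), NS.add_apply, NS.add_apply, sum_apply, sum_apply, NS.mul_nil]
    refine congrArg _ (Finset.sum_congr rfl fun i _ => mul_congr_short (hy0 i) w fun v hv => ?_)
    rw [NS.shift_mul, comp_add, comp_const_mul, NS.add_apply, NS.add_apply,
      ih _ _ v (by omega)]

/-- Substitution as a ring homomorphism. -/
noncomputable def compHom : NS K C →+* NS L C where
  toFun := comp y
  map_one' := by rw [NS.one_def, comp_const y hy0 hy, ← NS.one_def]
  map_mul' := comp_mul y hy0 hy
  map_zero' := comp_zero y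
  map_add' := comp_add y

end

end Subst

/-- The substitution module. -/
theorem subst_holds : SubstStmt := by
  classical
  intro o ho Y hY0 hli
  set y' : Fin o.K → NS 2 o.S.C := fun i => fun u => algebraMap o.S.F o.S.C (Y i u) with hy'
  have h0 : ∀ i, y' i [] = 0 := fun i => by simp [hy', hY0]
  have hc : ∀ (i : Fin o.K) (c : o.S.C),
      (NS.const c : NS 2 o.S.C) * y' i = y' i * NS.const c := fun i c =>
    NS.ext fun w => by
      rw [NS.const_mul, NS.mul_const]
      exact (Algebra.commutes (Y i w) c).symm
  let σ := Subst.compHom y' h0 hc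
  have hσ : ∀ g, σ g [] = g [] := Subst.comp_nil y' h0 hc
  have hσ1 : ∀ g s, σ g [s] = ∑ i, Y i [s] • g [i] := fun g s =>
    (Subst.comp_single y' h0 hc g s).trans
      (Finset.sum_congr rfl fun i _ => (Algebra.smul_def _ _).symm)
  let σa : NS o.K o.S.C →ₐ[o.S.F] NS 2 o.S.C :=
    { σ with commutes' := fun a => Subst.comp_const y' h0 hc _ }
  refine ⟨fun j => σ (o.y j), ?_, le_rfl, ⟨{
      iF := RingHom.id _
      σ := σ
      σ_scalar := fun a => Subst.comp_const y' h0 hc _
      σ_f := rfl
      σ_y := fun j => rfl
      indep := fun n w hw => by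
        have : (fun i => σ (w i) []) = fun i => w i [] := funext fun i => hσ (w i)
        show LinearIndependent o.S.F fun i => σ (w i) []
        rw [this]
        exact hw }⟩⟩
  intro c l
  change Fin 2 → o.S.C at l
  let T : (Fin o.K → o.S.F) →ₗ[o.S.F] (Fin 2 → o.S.F) :=
    { toFun := fun x s => ∑ i, Y i [s] * x i
      map_add' := fun x z => funext fun s => by simp [mul_add, Finset.sum_add_distrib]
      map_smul' := fun r x => funext fun s => by
        simp [Finset.mul_sum, mul_left_comm] }
  have hT : LinearMap.range T = ⊤ := by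
    by_contra hne
    obtain ⟨φ, hφ, hle⟩ := Submodule.exists_le_ker_of_lt_top _ (lt_top_iff_ne_top.2 hne)
    have key : ∀ i, ∑ s : Fin 2, φ (Pi.single s 1) * Y i [s] = 0 := fun i => by
      have h := LinearMap.mem_ker.1 (hle ⟨Pi.single i 1, rfl⟩)
      rw [LinearMap.pi_apply_eq_sum_univ] at h
      rw [← h]
      refine Finset.sum_congr rfl fun s _ => ?_
      rw [smul_eq_mul, mul_comm]
      congr 1
      · simp [T, Pi.single_apply]
      · congr 1
        funext t
        simp [Pi.single_apply, eq_comm]
    refine hφ ((Pi.basisFun o.S.F (Fin 2)).ext fun s => ?_)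
    have := Fintype.linearIndependent_iff.1 hli (fun s => φ (Pi.single s 1))
      (funext fun i => by simpa using key i) s
    simpa using this
  choose x hx using fun s : Fin 2 =>
    (show Pi.single s (1 : o.S.F) ∈ LinearMap.range T by rw [hT]; trivial)
  obtain ⟨g, hg, hg0, hg1⟩ := ho c (fun i => ∑ s, x s i • l s)
  refine ⟨σ g, ?_, (hσ g).trans hg0, fun (t : Fin 2) => (hσ1 g t).trans ?_⟩
  · have : Algebra.adjoin o.S.F (Set.range fun j => σ (o.y j)) =
        (Algebra.adjoin o.S.F (Set.range o.y)).map σa := by
      rw [AlgHom.map_adjoin, ← Set.range_comp]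
      rfl
    show σ g ∈ Algebra.adjoin o.S.F (Set.range fun j => σ (o.y j))
    rw [this]
    exact ⟨g, hg, rfl⟩
  · simp only [hg1, Finset.smul_sum, smul_smul]
    rw [Finset.sum_comm]
    simp only [← Finset.sum_smul]
    have hx' : ∀ s, ∑ i, Y i [t] * x s i = (Pi.single s (1 : o.S.F) : Fin 2 → o.S.F) t :=
      fun s => congrFun (hx s) t
    simp only [hx']
    simp [Pi.single_apply, ite_smul]

end P199K
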