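import Mathlib
import Vale.Agent.P199.Kurosh.Stmts
import Vale.Agent.P199.Kurosh.Symbol.LaurentCyc

/-! Every stage has a symbol extension of every degree: `C((X))((y))[Y]` over `F((x))((y))` with
`X ^ M = x`, `Y ^ M = y` and `Y X = ζ X Y`. -/

noncomputable section

open Module Finset

namespace P199K.SymCon

variable {M : ℕ} [NeZero M]

section Twist

variable {F A : Type} [Field F] [Ring A] [Algebra F A]

theorem zpow_eq_one_iff_dvd {ζ : F} (hζ : IsPrimitiveRoot ζ M) (n : ℤ) :
    ζ ^ n = 1 ↔ (M : ℤ) ∣ n := hζ.zpow_eq_one_iff_dvd n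

/-- `X ↦ ζ X`, coefficientwise. -/
def rotFun (ζ : F) (x : LaurentSeries A) : LaurentSeries A where
  coeff n := algebraMap F A (ζ ^ n) * x.coeff n
  isPWO_support' := x.isPWO_support.mono fun n hn h => hn (by simp [h])

theorem rotFun_coeff (ζ : F) (x : LaurentSeries A) (n : ℤ) :
    (rotFun ζ x).coeff n = algebraMap F A (ζ ^ n) * x.coeff n := rfl

theorem rotFun_mul {ζ : F} (hζ : ζ ≠ 0) (x z : LaurentSeries A) :
    rotFun ζ (x * z) = rotFun ζ x * rotFun ζ z := by
  ext n
  rw [rotFun_coeff, HahnSeries.coeff_mul, HahnSeries.coeff_mul, Finset.mul_sum]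
  have hs : ∀ (w : LaurentSeries A) (i : ℤ), (rotFun ζ w).coeff i = 0 ↔ w.coeff i = 0 := fun w i =>
    ((isUnit_iff_ne_zero.2 (zpow_ne_zero i hζ)).map (algebraMap F A)).mul_right_eq_zero
  refine Finset.sum_congr ?_ fun ij hij => ?_
  · ext ij
    simp only [Finset.mem_antidiagonal, HahnSeries.mem_support, ne_eq, hs]
  · simp only [Finset.mem_antidiagonal] at hij
    rw [rotFun_coeff, rotFun_coeff, ← hij.2.2, zpow_add₀ hζ, map_mul, mul_assoc, mul_assoc,
      ← mul_assoc (algebraMap F A (ζ ^ ij.2)), Algebra.commutes (ζ ^ ij.2) (x.coeff ij.1), mul_assoc]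

/-- `X ↦ ζ X`. -/
def rot (ζ : F) (hζ : ζ ≠ 0) : Ram M F A →+* Ram M F A where
  toFun x := rotFun ζ x
  map_one' := HahnSeries.ext (funext fun n => by
    show algebraMap F A (ζ ^ n) * (1 : LaurentSeries A).coeff n = (1 : LaurentSeries A).coeff n
    by_cases h : n = 0 <;> simp [h])
  map_zero' := HahnSeries.ext (funext fun n => by
    show algebraMap F A (ζ ^ n) * (0 : LaurentSeries A).coeff n = (0 : LaurentSeries A).coeff n
    simp)
  map_add' x z := HahnSeries.ext (funext fun n => mul_add _ _ _)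
  map_mul' := rotFun_mul hζ

theorem rot_coeff (ζ : F) (hζ : ζ ≠ 0) (x : Ram M F A) (n : ℤ) :
    HahnSeries.coeff (R := A) (rot ζ hζ x) n =
      algebraMap F A (ζ ^ n) * HahnSeries.coeff (R := A) x n := rfl

theorem rot_iterate_coeff (ζ : F) (hζ : ζ ≠ 0) (k : ℕ) (x : Ram M F A) (n : ℤ) :
    HahnSeries.coeff (R := A) ((rot ζ hζ)^[k] x) n =
      algebraMap F A ((ζ ^ n) ^ k) * HahnSeries.coeff (R := A) x n := by
  induction k with
  | zero => simp
  | succ k ih =>
    rw [Function.iterate_succ_apply', rot_coeff, ih, ← mul_assoc, ← map_mul, pow_succ']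

theorem rot_pow {ζ : F} (hζ : IsPrimitiveRoot ζ M) (x : Ram M F A) :
    (rot ζ (hζ.ne_zero (NeZero.ne M)))^[M] x = x := by
  refine HahnSeries.ext (funext fun n => ?_)
  rw [rot_iterate_coeff, ← zpow_natCast, ← zpow_mul,
    (zpow_eq_one_iff_dvd hζ _).2 (dvd_mul_left _ _), map_one, one_mul]

theorem rot_ramMap {ζ : F} (hζ : IsPrimitiveRoot ζ M) (a : LaurentSeries F) :
    rot ζ (hζ.ne_zero (NeZero.ne M)) (ramMap M F A a) = ramMap M F A a := by
  refine HahnSeries.ext (funext fun n => ?_)
  rw [rot_coeff]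
  by_cases h : (M : ℤ) ∣ n
  · rw [(zpow_eq_one_iff_dvd hζ _).2 h, map_one, one_mul]
  · rw [ramMap_coeff_of_not_dvd a h, mul_zero]

/-- Membership in the scalars by coefficients. -/
theorem mem_range_ramMap [Nontrivial A] (u : Ram M F A)
    (h₁ : ∀ d : ℤ, HahnSeries.coeff (R := A) u ((M : ℤ) * d) ∈ Set.range (algebraMap F A))
    (h₂ : ∀ n : ℤ, ¬(M : ℤ) ∣ n → HahnSeries.coeff (R := A) u n = 0) :
    u ∈ Set.range (ramMap M F A) := by
  choose f hf using h₁
  have hM : (0 : ℤ) < M := by exact_mod_cast Nat.pos_of_ne_zero (NeZero.ne M)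
  have hb : BddBelow (Function.support f) := by
    refine ⟨min 0 (HahnSeries.order (R := A) u / M), fun d hd => ?_⟩
    have hne : HahnSeries.coeff (R := A) u ((M : ℤ) * d) ≠ 0 := fun e => hd (by
      have := hf d
      rw [e] at this
      exact (map_eq_zero (algebraMap F A)).1 this)
    have := HahnSeries.order_le_of_coeff_ne_zero hne
    refine min_le_of_right_le ((Int.ediv_le_iff_le_mul hM).2 ?_)
    nlinarith
  refine ⟨HahnSeries.ofSuppBddBelow f hb, HahnSeries.ext (funext fun n => ?_)⟩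
  by_cases h : (M : ℤ) ∣ n
  · obtain ⟨d, rfl⟩ := h
    rw [ramMap_coeff, HahnSeries.coeff_ofSuppBddBelow, hf]
  · rw [ramMap_coeff_of_not_dvd _ h, h₂ n h]

theorem single_central (n : ℤ) (r : Ram M F A) : r * mono M F n 1 = mono M F n 1 * r := by
  refine HahnSeries.ext (funext fun k => ?_)
  have h1 := HahnSeries.coeff_single_mul_add (r := (1 : A)) (x := (r : LaurentSeries A))
    (a := k - n) (b := n)
  have h2 := HahnSeries.coeff_mul_single_add (r := (1 : A)) (x := (r : LaurentSeries A))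
    (a := k - n) (b := n)
  rw [sub_add_cancel, one_mul] at h1
  rw [sub_add_cancel, mul_one] at h2
  exact h2.trans h1.symm

theorem mono_zero_comm (u : A) (hu : ∀ c, u * c = c * u) (r : Ram M F A) :
    mono M F 0 u * r = r * mono M F 0 u := by
  refine HahnSeries.ext (funext fun n => ?_)
  exact (HahnSeries.coeff_single_zero_mul (R := A)).trans
    ((hu _).trans (HahnSeries.coeff_mul_single_zero (R := A)).symm)

theorem mono_mul (n k : ℤ) (c c' : A) : mono M F n c * mono M F k c' = mono M F (n + k) (c * c') :=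
  HahnSeries.single_mul_single

theorem mono_one_pow (n : ℕ) : (mono M F 1 (1 : A)) ^ n = mono M F (n : ℤ) 1 := by
  induction n with
  | zero => rfl
  | succ n ih => rw [pow_succ, ih, mono_mul, one_mul, Nat.cast_succ]

theorem algebraMap_mono_zero (a : F) :
    algebraMap (LaurentSeries F) (Ram M F A) (HahnSeries.C a) = mono M F 0 (algebraMap F A a) := by
  refine HahnSeries.ext (funext fun n => ?_)
  rw [ram_algebraMap]
  show _ = (HahnSeries.single (0 : ℤ) (algebraMap F A a)).coeff n
  by_cases h : (M : ℤ) ∣ n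
  · obtain ⟨d, rfl⟩ := h
    rw [ramMap_coeff, HahnSeries.C_apply]
    by_cases hd : d = 0 <;> simp [hd, NeZero.ne M]
  · rw [ramMap_coeff_of_not_dvd _ h, HahnSeries.coeff_single_of_ne]
    exact fun e => h (e ▸ dvd_zero _)

/-- Constants of the coefficient algebra. -/
def constC (M : ℕ) [NeZero M] (F A : Type) [Ring A] : A →+* Ram M F A :=
  (HahnSeries.C : A →+* LaurentSeries A)

theorem constC_eq (c : A) : constC M F A c = mono M F 0 c := rfl

end Twist

variable (S : Stg)

/-- The first step `C((X))`. -/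
abbrev A1 (M : ℕ) [NeZero M] : Type := Ram M S.F S.C

/-- The second step `C((X))((y))`. -/
abbrev R2 (M : ℕ) [NeZero M] : Type := Ram 1 (LaurentSeries S.F) (A1 S M)

variable {S} {ζ : S.F} (hζ : IsPrimitiveRoot ζ M)

/-- The cyclic datum. -/
def symData : CycData (R2 S M) M :=
  laurentCyc (F := LaurentSeries S.F) (A := A1 S M) M (rot (M := M) ζ (hζ.ne_zero (NeZero.ne M)))
    (rot_pow hζ)

/-- The symbol algebra. -/
abbrev SymC : Type := Cyc (symData hζ)

theorem symData_fix (a : LaurentSeries (LaurentSeries S.F)) :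
    (symData hζ).σ (algebraMap _ (R2 S M) a) = algebraMap _ (R2 S M) a := by
  refine HahnSeries.ext (funext fun n => ?_)
  show rot ζ _ (HahnSeries.coeff (R := A1 S M)
    (ramMap 1 (LaurentSeries S.F) (A1 S M) a) n) = _
  have hd : ((1 : ℕ) : ℤ) * n = n := by simp
  rw [← hd, ramMap_coeff, ram_algebraMap, rot_ramMap hζ, ← ram_algebraMap,
    ← ramMap_coeff (M := 1) a n]
  rfl

instance symAlgebra : Algebra (LaurentSeries (LaurentSeries S.F)) (SymC hζ) :=
  Cyc.algebra (symData_fix hζ)

theorem sym_algebraMap (a : LaurentSeries (LaurentSeries S.F)) :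
    algebraMap _ (SymC hζ) a = Cyc.incl (symData hζ) (algebraMap _ (R2 S M) a) := rfl

instance : Nontrivial (SymC hζ) :=
  ⟨⟨1, 0, fun h => one_ne_zero (α := R2 S M) (by simpa [Cyc.one_def] using congrFun h 0)⟩⟩

instance : NoZeroDivisors (SymC hζ) :=
  laurentCyc_noZeroDivisors (F := LaurentSeries S.F) _ (rot_pow hζ)

instance : IsDomain (SymC hζ) := NoZeroDivisors.to_isDomain _

/-- The coordinates. -/
def symCoords : SymC hζ ≃ₗ[LaurentSeries (LaurentSeries S.F)] (ZMod M → R2 S M) where
  toFun a := a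
  invFun a := a
  left_inv _ := rfl
  right_inv _ := rfl
  map_add' _ _ := rfl
  map_smul' r a := funext fun l => by
    show (r • a : SymC hζ) l = r • a l
    rw [Algebra.smul_def, sym_algebraMap, Cyc.incl_mul_apply, Algebra.smul_def]

instance : FiniteDimensional (LaurentSeries (LaurentSeries S.F)) (SymC hζ) :=
  Module.Finite.equiv (symCoords hζ).symm

theorem sym_finrank :
    finrank (LaurentSeries (LaurentSeries S.F)) (SymC hζ) = S.dim * M ^ 2 := by
  rw [(symCoords hζ).finrank_eq, Module.finrank_pi_fintype]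
  simp only [ram_finrank, Finset.sum_const, Finset.card_univ, ZMod.card, smul_eq_mul, Stg.dim]
  ring

/-- The inclusion of the coefficient algebra. -/
def symEmb : S.C →+* SymC hζ :=
  (Cyc.incl (symData hζ)).comp ((constC 1 (LaurentSeries S.F) (A1 S M)).comp (constC M S.F S.C))

/-- The element `X`. -/
def symX : SymC hζ :=
  Cyc.incl (symData hζ) (mono 1 (LaurentSeries S.F) 0 (mono M S.F 1 (1 : S.C)))

/-- The element `Y`. -/
def symY : SymC hζ := Cyc.e (symData hζ) 1 1

theorem symData_σ_mono (k : ℕ) (u : A1 S M) :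
    (symData hζ).σ^[k] (mono 1 (LaurentSeries S.F) 0 u) =
      mono 1 (LaurentSeries S.F) 0 ((rot ζ (hζ.ne_zero (NeZero.ne M)))^[k] u) := by
  refine HahnSeries.ext (funext fun n => ?_)
  rw [symData, laurentCyc_coeff]
  show _ = (HahnSeries.single (0 : ℤ) _).coeff n
  rcases eq_or_ne n 0 with rfl | hn
  · rw [HahnSeries.coeff_single_same]
    congr 1
    exact HahnSeries.coeff_single_same (0 : ℤ) u
  · rw [HahnSeries.coeff_single_of_ne hn]
    refine Eq.trans ?_ (Function.iterate_fixed (map_zero (rot ζ (hζ.ne_zero (NeZero.ne M)))) k)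
    congr 1
    exact HahnSeries.coeff_single_of_ne hn

theorem rot_iterate_mono (k : ℕ) (n : ℤ) (c : S.C) :
    (rot ζ (hζ.ne_zero (NeZero.ne M)))^[k] (mono M S.F n c) =
      mono M S.F n (algebraMap S.F S.C ((ζ ^ n) ^ k) * c) := by
  refine HahnSeries.ext (funext fun j => ?_)
  rw [rot_iterate_coeff]
  show _ * (HahnSeries.single n c).coeff j = (HahnSeries.single n _).coeff j
  rcases eq_or_ne j n with rfl | hj
  · simp
  · simp [HahnSeries.coeff_single_of_ne hj]

theorem symEmb_compat (a : S.F) :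
    symEmb hζ (algebraMap S.F S.C a) =
      algebraMap (LaurentSeries (LaurentSeries S.F)) (SymC hζ) (HahnSeries.C (HahnSeries.C a)) := by
  rw [sym_algebraMap, algebraMap_mono_zero, algebraMap_mono_zero]
  rfl

theorem symX_comm (c : S.C) : symX hζ * symEmb hζ c = symEmb hζ c * symX hζ := by
  show Cyc.incl _ _ * Cyc.incl _ _ = Cyc.incl _ _ * Cyc.incl _ _
  rw [← map_mul, ← map_mul]
  congr 1
  show mono 1 (LaurentSeries S.F) 0 _ * mono 1 (LaurentSeries S.F) 0 (mono M S.F 0 c) =
    mono 1 (LaurentSeries S.F) 0 (mono M S.F 0 c) * mono 1 (LaurentSeries S.F) 0 _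
  rw [mono_mul, mono_mul, mono_mul, mono_mul]
  simp

theorem symY_comm (c : S.C) : symY hζ * symEmb hζ c = symEmb hζ c * symY hζ := by
  show Cyc.e _ 1 1 * Cyc.incl _ (mono 1 (LaurentSeries S.F) 0 (mono M S.F 0 c)) =
    Cyc.incl _ (mono 1 (LaurentSeries S.F) 0 (mono M S.F 0 c)) * Cyc.e _ 1 1
  rw [Cyc.incl_apply, Cyc.e_mul_e, Cyc.e_mul_e, symData_σ_mono, rot_iterate_mono hζ]
  simp [Cyc.carry_zero_left, Cyc.carry_zero_right]

theorem symY_symX :
    symY hζ * symX hζ =
      algebraMap (LaurentSeries (LaurentSeries S.F)) (SymC hζ) (HahnSeries.C (HahnSeries.C ζ)) *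
        (symX hζ * symY hζ) := by
  rw [sym_algebraMap, algebraMap_mono_zero, algebraMap_mono_zero, symX, symY, ← mul_assoc,
    ← map_mul, Cyc.incl_apply, Cyc.incl_apply, Cyc.e_mul_e, Cyc.e_mul_e, symData_σ_mono,
    rot_iterate_mono hζ, mono_mul, mono_mul]
  simp only [one_mul, mul_one, add_zero, zero_add, Cyc.carry_zero_left, Cyc.carry_zero_right,
    pow_zero, Cyc.σ_iterate_one, zpow_one]
  rcases eq_or_ne M 1 with h1 | h1
  · subst h1
    rw [IsPrimitiveRoot.one_right_iff] at hζ
    simp [hζ]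
  · rw [ZMod.val_one_eq_one_mod, Nat.mod_eq_of_lt (by have := NeZero.ne M; omega), pow_one]

theorem mono_mem_scalars :
    mono 1 (LaurentSeries S.F) 0 (mono M S.F (M : ℤ) (1 : S.C)) ∈
      Set.range (algebraMap (LaurentSeries (LaurentSeries S.F)) (R2 S M)) := by
  refine ⟨HahnSeries.C (HahnSeries.single 1 1), ?_⟩
  rw [algebraMap_mono_zero]
  congr 1
  refine HahnSeries.ext (funext fun n => ?_)
  rw [ram_algebraMap]
  show _ = (HahnSeries.single (M : ℤ) (1 : S.C)).coeff n
  by_cases h : (M : ℤ) ∣ n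
  · obtain ⟨d, rfl⟩ := h
    rw [ramMap_coeff]
    by_cases hd : d = 1
    · simp [hd]
    · rw [HahnSeries.coeff_single_of_ne hd, map_zero, HahnSeries.coeff_single_of_ne]
      intro e
      exact hd (mul_left_cancel₀ (Nat.cast_ne_zero.2 (NeZero.ne M)) (e.trans (mul_one _).symm))
  · rw [ramMap_coeff_of_not_dvd _ h, HahnSeries.coeff_single_of_ne]
    exact fun e => h (e ▸ dvd_refl _)

theorem symX_pow : symX hζ ^ M ∈
    Set.range (algebraMap (LaurentSeries (LaurentSeries S.F)) (SymC hζ)) := by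
  obtain ⟨a, ha⟩ := mono_mem_scalars (S := S) (M := M)
  refine ⟨a, ?_⟩
  rw [sym_algebraMap, ha, symX, ← map_pow]
  congr 1
  have : ∀ n : ℕ, (mono 1 (LaurentSeries S.F) 0 (mono M S.F 1 (1 : S.C)) : R2 S M) ^ n =
      mono 1 (LaurentSeries S.F) 0 (mono M S.F (n : ℤ) 1) := by
    intro n
    induction n with
    | zero => rfl
    | succ n ih =>
      rw [pow_succ, ih, mono_mul, mono_mul, one_mul, Nat.cast_succ]
      rfl
  rw [this]

theorem symY_pow : symY hζ ^ M ∈
    Set.range (algebraMap (LaurentSeries (LaurentSeries S.F)) (SymC hζ)) := by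
  rcases eq_or_ne M 1 with h1 | h1
  · subst h1
    refine ⟨1, ?_⟩
    rw [map_one, pow_one]
    exact congrArg (fun i => Cyc.e (symData hζ) i 1) (Subsingleton.elim (0 : ZMod 1) 1)
  refine ⟨HahnSeries.single 1 1, ?_⟩
  rw [symY, Cyc.e_one_pow_eq (by have := NeZero.ne M; omega), sym_algebraMap]
  congr 1
  refine HahnSeries.ext (funext fun n => ?_)
  rw [ram_algebraMap]
  have hd : ((1 : ℕ) : ℤ) * n = n := by simp
  show HahnSeries.coeff (R := A1 S M)
    (ramMap 1 (LaurentSeries S.F) (A1 S M) (HahnSeries.single 1 1)) n =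
      (HahnSeries.single (1 : ℤ) (1 : A1 S M)).coeff n
  conv_lhs => rw [← hd]
  rw [ramMap_coeff]
  by_cases hn : n = 1 <;> simp [hn]

theorem sym_span :
    Submodule.span (LaurentSeries (LaurentSeries S.F)) (Set.range fun p : S.C × Fin M × Fin M =>
      symEmb hζ p.1 * symX hζ ^ (p.2.1 : ℕ) * symY hζ ^ (p.2.2 : ℕ)) = ⊤ := by
  refine eq_top_iff.2 fun a _ => ?_
  set P := Submodule.span (LaurentSeries (LaurentSeries S.F))
    (Set.range fun p : S.C × Fin M × Fin M =>
      symEmb hζ p.1 * symX hζ ^ (p.2.1 : ℕ) * symY hζ ^ (p.2.2 : ℕ))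
  rw [Cyc.sum_e a]
  refine P.sum_mem fun j _ => ?_
  have hj : Cyc.e (symData hζ) j 1 = symY hζ ^ j.val := by
    rw [symY, ← Cyc.e_eq_pow j.val j.val_lt, ZMod.natCast_zmod_val]
  set bA := ramBasis (M := M) (Module.finBasis S.F S.C)
  rw [← (ramBasis (M := 1) bA).sum_repr (a j), map_sum, Finset.sum_mul]
  refine P.sum_mem fun q _ => ?_
  rw [Algebra.smul_def, map_mul, ← sym_algebraMap, mul_assoc, ← Algebra.smul_def]
  refine P.smul_mem _ (Submodule.subset_span ⟨((Module.finBasis S.F S.C) q.2.2, q.2.1,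
    ⟨j.val, j.val_lt⟩), ?_⟩)
  simp only [hj]
  congr 1
  rw [ramBasis_apply, ramBasis_apply, symX, ← map_pow]
  show Cyc.incl _ _ * Cyc.incl _ _ = _
  rw [← map_mul]
  congr 1
  have h0 : ((q.1 : ℕ) : ℤ) = 0 := by have := q.1.2; omega
  rw [h0]
  have hpow : ∀ n : ℕ, (mono 1 (LaurentSeries S.F) 0 (mono M S.F 1 (1 : S.C)) : R2 S M) ^ n =
      mono 1 (LaurentSeries S.F) 0 (mono M S.F (n : ℤ) 1) := by
    intro n
    induction n with
    | zero => rfl
    | succ n ih =>
      rw [pow_succ, ih, mono_mul, mono_mul, one_mul, Nat.cast_succ]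
      rfl
  rw [hpow]
  show mono 1 (LaurentSeries S.F) 0 (mono M S.F 0 _) * mono 1 (LaurentSeries S.F) 0 _ = _
  rw [mono_mul, mono_mul]
  simp

theorem sym_central (a : SymC hζ) (ha : ∀ b, a * b = b * a) :
    a ∈ Set.range (algebraMap (LaurentSeries (LaurentSeries S.F)) (SymC hζ)) := by
  set X' : R2 S M := mono 1 (LaurentSeries S.F) 0 (mono M S.F 1 (1 : S.C))
  -- only the degree zero part survives
  have hdeg : ∀ j, j ≠ 0 → a j = 0 := by
    intro j hj
    have e := congrFun (ha (Cyc.incl _ X')) j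
    rw [Cyc.mul_incl_apply, Cyc.incl_mul_apply, symData_σ_mono, rot_iterate_mono hζ, zpow_one,
      mul_one] at e
    have hc : X' * a j = a j * X' :=
      mono_zero_comm _ (fun c => (single_central 1 c).symm) _
    rw [hc] at e
    by_contra hne
    have e' : mono 1 (LaurentSeries S.F) 0
        (mono M S.F 1 (algebraMap S.F S.C (ζ ^ j.val))) = X' :=
      mul_left_cancel₀ hne e
    have e2 := congrArg (fun z : R2 S M => HahnSeries.coeff (R := S.C)
      (HahnSeries.coeff (R := A1 S M) z 0) 1) e'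
    have e3 : algebraMap S.F S.C (ζ ^ j.val) = 1 :=
      ((HahnSeries.coeff_single_same (1 : ℤ) _).symm.trans (Eq.trans
        (congrArg (fun w : LaurentSeries S.C => w.coeff 1)
          (HahnSeries.coeff_single_same (0 : ℤ)
            (mono M S.F 1 (algebraMap S.F S.C (ζ ^ j.val)) : A1 S M)).symm) e2)).trans
        ((congrArg (fun w : LaurentSeries S.C => w.coeff 1)
          (HahnSeries.coeff_single_same (0 : ℤ) (mono M S.F 1 (1 : S.C) : A1 S M))).trans
            (HahnSeries.coeff_single_same (1 : ℤ) _))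
    rw [map_eq_one_iff _ (FaithfulSMul.algebraMap_injective S.F S.C),
      hζ.pow_eq_one_iff_dvd] at e3
    exact hj ((ZMod.val_eq_zero j).1 (Nat.eq_zero_of_dvd_of_lt e3 j.val_lt))
  -- the degree zero part commutes with the coefficient ring and is fixed by `σ`
  have hR : ∀ r, a 0 * r = r * a 0 := fun r => by
    have e := congrFun (ha (Cyc.incl _ r)) 0
    rwa [Cyc.mul_incl_apply, Cyc.incl_mul_apply, ZMod.val_zero] at e
  have hσ : (symData hζ).σ (a 0) = a 0 := by
    rcases eq_or_ne M 1 with h1 | h1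
    · subst h1
      exact (symData hζ).σ_pow (a 0)
    · have e := congrFun (ha (symY hζ)) (0 + 1)
      rw [symY, Cyc.mul_apply, Cyc.mul_apply, Finset.sum_eq_single 0 (fun i _ hi => by
          simp [hdeg i hi]) (by simp),
        Finset.sum_eq_single (1 : ZMod M) (fun i _ hi => by simp [Cyc.e, hi]) (by simp)] at e
      simp [ZMod.val_one_eq_one_mod,
        Nat.mod_eq_of_lt (show 1 < M by have := NeZero.ne M; omega),
        Cyc.carry_zero_left, Cyc.carry_zero_right] at e
      exact e.symm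
  obtain ⟨g, hg⟩ : a 0 ∈ Set.range (ramMap 1 (LaurentSeries S.F) (A1 S M)) := by
    refine mem_range_ramMap _ (fun d => ?_) (fun n hn => absurd (one_dvd n) (by simpa using hn))
    set u : A1 S M := HahnSeries.coeff (R := A1 S M) (a 0) ((1 : ℕ) * d)
    have hu : ∀ w : A1 S M, u * w = w * u := fun w => by
      have e := congrArg (fun z : R2 S M => HahnSeries.coeff (R := A1 S M) z ((1 : ℕ) * d))
        (hR (mono 1 (LaurentSeries S.F) 0 w))
      exact (HahnSeries.coeff_mul_single_zero (R := A1 S M)).symm.trans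
        (e.trans (HahnSeries.coeff_single_zero_mul (R := A1 S M)))
    have huc : ∀ n, HahnSeries.coeff (R := S.C) u n ∈ Set.range (algebraMap S.F S.C) := fun n =>
      S.central _ fun c => by
        have e := congrArg (fun z : A1 S M => HahnSeries.coeff (R := S.C) z n) (hu (mono M S.F 0 c))
        exact (HahnSeries.coeff_mul_single_zero (R := S.C)).symm.trans
          (e.trans (HahnSeries.coeff_single_zero_mul (R := S.C)))
    have hfix : rot ζ (hζ.ne_zero (NeZero.ne M)) u = u :=
      congrArg (fun z : R2 S M => HahnSeries.coeff (R := A1 S M) z ((1 : ℕ) * d)) hσ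
    obtain ⟨v, hv⟩ := mem_range_ramMap u (fun k => huc _) (fun n hn => by
      obtain ⟨f, hf⟩ := huc n
      have e := congrArg (fun z : A1 S M => HahnSeries.coeff (R := S.C) z n) hfix
      simp only [rot_coeff, ← hf, ← map_mul] at e
      rw [← hf]
      have e' := FaithfulSMul.algebraMap_injective S.F S.C e
      have : ζ ^ n ≠ 1 := fun h => hn ((zpow_eq_one_iff_dvd hζ n).1 h)
      rcases eq_or_ne f 0 with h0 | h0
      · rw [h0, map_zero]
      · exact absurd ((mul_eq_right₀ h0).1 e') this)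
    exact ⟨v, hv⟩
  refine ⟨g, Cyc.ext fun l => ?_⟩
  rw [sym_algebraMap, Cyc.incl_apply, Cyc.e_apply, ram_algebraMap, hg]
  split_ifs with hl
  · rw [hl]
  · exact (hdeg l hl).symm

/-- The stage of the symbol extension. -/
def symStg : Stg where
  F := LaurentSeries (LaurentSeries S.F)
  C := SymC hζ
  charF := charZero_of_injective_ringHom
    (((HahnSeries.C : LaurentSeries S.F →+* LaurentSeries (LaurentSeries S.F)).comp
      (HahnSeries.C : S.F →+* LaurentSeries S.F)).injective)
  ringC := divisionRingOfFiniteDimensional (LaurentSeries (LaurentSeries S.F)) (SymC hζ)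
  algC := symAlgebra hζ
  central := sym_central hζ
  roots n hn := ⟨HahnSeries.C (HahnSeries.C (S.roots n hn).choose),
    (S.roots n hn).choose_spec.map_of_injective
      (((HahnSeries.C : LaurentSeries S.F →+* LaurentSeries (LaurentSeries S.F)).comp
        (HahnSeries.C : S.F →+* LaurentSeries S.F)).injective)⟩

/-- The symbol extension. -/
def symExt : Sym S M where
  T := symStg hζ
  emb :=
    { iF := (HahnSeries.C : LaurentSeries S.F →+* LaurentSeries (LaurentSeries S.F)).comp
        (HahnSeries.C : S.F →+* LaurentSeries S.F)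
      iC := symEmb hζ
      compat := symEmb_compat hζ }
  ζ := ζ
  prim := hζ
  X := symX hζ
  Y := symY hζ
  X_ne h := by
    have e : symX hζ (0 : ZMod M) = (0 : SymC hζ) (0 : ZMod M) := congrFun h 0
    have e1 : mono 1 (LaurentSeries S.F) 0 (mono M S.F 1 (1 : S.C)) = (0 : R2 S M) := by
      simpa [symX, Cyc.incl_apply] using e
    have e2 := congrArg (fun z : R2 S M => HahnSeries.coeff (R := A1 S M) z 0) e1
    have e3 := congrArg (fun w : A1 S M => HahnSeries.coeff (R := S.C) w 1)
      ((HahnSeries.coeff_single_same (0 : ℤ) (mono M S.F 1 (1 : S.C) : A1 S M)).symm.trans e2)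
    exact one_ne_zero ((HahnSeries.coeff_single_same (1 : ℤ) (1 : S.C)).symm.trans e3)
  Y_ne h := by
    have e : symY hζ (1 : ZMod M) = (0 : SymC hζ) (1 : ZMod M) := congrFun h 1
    exact one_ne_zero (α := R2 S M) (by simpa [symY] using e)
  X_comm := symX_comm hζ
  Y_comm := symY_comm hζ
  YX := symY_symX hζ
  X_pow := symX_pow hζ
  Y_pow := symY_pow hζ
  span := sym_span hζ
  dim_eq := sym_finrank hζ

end P199K.SymCon

namespace P199K

theorem symExists_holds : SymExistsStmt := fun S M hM => by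
  have : NeZero M := ⟨hM.ne'⟩
  exact ⟨SymCon.symExt (S.roots M hM).choose_spec⟩

end P199K
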