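import Vale.Agent.P199.Kurosh.Vanish.Key
import Vale.Agent.P199.Kurosh.Vanish.Sep

/-!
Vanishing of the leading residual at a minimal state.
-/

open Finset

namespace P199K

namespace Vanish

set_option backward.isDefEq.respectTransparency false

section Derivative

variable {F A : Type} [Field F] [Ring A] [Algebra F A] (φ : A →ₗ[F] F)

/-- `ε ↦ φ (A * ∏ (x + ε y))` is a polynomial with the evident first two coefficients. -/
theorem exists_poly : ∀ {n : ℕ} (x y : Fin n → A) (B : A), ∃ q : Polynomial F,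
    (∀ ε : F, q.eval ε = φ (B * (List.ofFn fun a => x a + ε • y a).prod)) ∧
    q.coeff 0 = φ (B * (List.ofFn x).prod) ∧
    q.coeff 1 = φ (B * ∑ a : Fin n,
      ((List.ofFn x).take a).prod * y a * ((List.ofFn x).drop (a + 1)).prod)
  | 0, x, y, B => ⟨Polynomial.C (φ B), fun ε => by simp, by simp, by simp⟩
  | n + 1, x, y, B => by
    obtain ⟨q₀, h₀, h₀0, h₀1⟩ := exists_poly (fun a => x a.succ) (fun a => y a.succ) (B * x 0)
    obtain ⟨q₁, h₁, h₁0, -⟩ := exists_poly (fun a => x a.succ) (fun a => y a.succ) (B * y 0)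
    refine ⟨q₀ + Polynomial.X * q₁, fun ε => ?_, ?_, ?_⟩
    · rw [Polynomial.eval_add, Polynomial.eval_mul, Polynomial.eval_X, h₀, h₁, List.ofFn_succ,
        List.prod_cons, show ∀ u, ε * φ u = φ (ε • u) from fun u => (map_smul φ ε u).symm, ← map_add]
      congr 1
      simp [mul_add, add_mul, mul_assoc]
    · rw [Polynomial.coeff_add, Polynomial.mul_coeff_zero, Polynomial.coeff_X_zero, zero_mul,
        add_zero, h₀0, List.ofFn_succ, List.prod_cons, mul_assoc]
    · rw [Polynomial.coeff_add, Polynomial.coeff_X_mul, h₀1, h₁0, Fin.sum_univ_succ, ← map_add]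
      congr 1
      simp only [Fin.val_zero, List.take_zero, List.prod_nil, Fin.val_succ, List.ofFn_succ,
        List.take_succ_cons, List.drop_succ_cons, List.prod_cons, List.drop_zero, Finset.mul_sum,
        mul_add, one_mul, mul_assoc]
      abel

end Derivative

theorem rotate_ofFn {α : Type} {l : ℕ} (v : Fin (l + 1) → α) (a : Fin (l + 1)) :
    (List.ofFn v).rotate a = List.ofFn fun b => v (b + a) := by
  refine List.ext_getElem (by simp) fun i h1 h2 => ?_
  rw [List.getElem_rotate]
  simp only [List.getElem_ofFn]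
  congr 1
  simp [Fin.ext_iff, Fin.val_add]

theorem drop_append_take_ofFn {α : Type} {l : ℕ} (v : Fin (l + 1) → α) (a : Fin (l + 1)) :
    (List.ofFn v).drop (a + 1) ++ (List.ofFn v).take a = List.ofFn fun b : Fin l => v (b.succ + a) := by
  have h := rotate_ofFn v a
  rw [List.rotate_eq_drop_append_take (by simp), List.drop_eq_getElem_cons (by simp; omega),
    List.ofFn_succ (f := fun b => v (b + a)), List.cons_append] at h
  exact (List.cons.inj h).2

variable {S : Stg} {M : ℕ} (E : Sym S M)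

/-- Differentiating a vanishing cyclic combination of traces in the direction `X`. -/
theorem rotation_sum_eq_zero {l : ℕ}
    (hsep : ∀ c : (Fin (l + 1) → Fin 2) → E.T.F, (∀ U : Fin 2 → E.T.C, (∀ s, U s ∈ E.E) →
      ∑ v, c v * E.T.τ (E.X * (List.ofFn fun a => U (v a)).prod) = 0) → c = 0)
    (hM : 0 < M) (c : (Fin (l + 2) → Fin 2) → E.T.F)
    (h : ∀ U : Fin 2 → E.T.C, (∀ s, U s ∈ E.E) →
      ∑ v, c v * E.T.τ (List.ofFn fun a => U (v a)).prod = 0)
    (w : Fin (l + 2) → Fin 2) : ∑ a, c (fun b => w (b + a)) = 0 := by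
  classical
  have hd : ∀ U : Fin 2 → E.T.C, (∀ s, U s ∈ E.E) →
      ∑ v : Fin (l + 2) → Fin 2, c v * ∑ a : Fin (l + 2),
        (if v a = w 0 then
          E.T.τ (E.X * (List.ofFn fun b : Fin (l + 1) => U (v (b.succ + a))).prod) else 0) = 0 := by
    intro U hU
    let y : Fin 2 → E.T.C := fun s => if s = w 0 then E.X else 0
    choose q hq hq0 hq1 using fun v : Fin (l + 2) → Fin 2 =>
      exists_poly E.T.τ (fun a => U (v a)) (fun a => y (v a)) 1
    have hzero : ∑ v, Polynomial.C (c v) * q v = 0 := Polynomial.funext fun ε => by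
      simp only [Polynomial.eval_finsetSum, Polynomial.eval_mul, Polynomial.eval_C, hq, one_mul,
        Polynomial.eval_zero]
      exact h (fun s => U s + ε • y s) fun s => add_mem (hU s) <| Submodule.smul_mem _ _ <| by
        simp only [y]
        split
        · exact X_mem_E E hM
        · exact zero_mem _
    have h1 := congrArg (fun p => Polynomial.coeff p 1) hzero
    simp only [Polynomial.finsetSum_coeff, Polynomial.coeff_C_mul, hq1, one_mul,
      Polynomial.coeff_zero] at h1
    refine Eq.trans ?_ h1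
    refine Finset.sum_congr rfl fun v _ => ?_
    rw [map_sum]
    congr 1
    refine Finset.sum_congr rfl fun a _ => ?_
    simp only [y]
    split
    · rw [mul_assoc, tau_mul_comm E.T ((List.ofFn fun a => U (v a)).take a).prod, mul_assoc,
        ← List.prod_append, drop_append_take_ofFn]
    · simp
  have key := hsep (fun u => ∑ a, c (fun b => Fin.cons (α := fun _ => Fin 2) (w 0) u (b + a)))
    fun U hU => by
    rw [← hd U hU]
    simp_rw [Finset.sum_mul, Finset.mul_sum]
    rw [Finset.sum_comm]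
    conv_rhs => rw [Finset.sum_comm]
    refine Fintype.sum_equiv (Equiv.neg (Fin (l + 2))) _ _ fun a => ?_
    simp only [Equiv.neg_apply]
    let T : (Fin (l + 2) → Fin 2) ≃ (Fin (l + 2) → Fin 2) :=
      Equiv.arrowCongr (Equiv.addRight (-a)) (Equiv.refl _)
    conv_rhs => rw [← T.sum_comp]
    have hT : ∀ (v : Fin (l + 2) → Fin 2) b, T v b = v (b + a) := fun v b => by
      simp [T, Equiv.arrowCongr]
    have hT' : ∀ v, T v = fun b => v (b + a) := fun v => funext (hT v)
    simp only [hT', neg_add_cancel_right]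
    rw [← (Fin.consEquiv fun _ : Fin (l + 2) => Fin 2).sum_comp, Fintype.sum_prod_type,
      Finset.sum_eq_single (w 0)]
    · refine Finset.sum_congr rfl fun u _ => ?_
      simp [Fin.consEquiv]
    · intro s _ hs
      simp [Fin.consEquiv, hs]
    · simp
  have := congrFun key (fun b => w b.succ)
  have hw : Fin.cons (α := fun _ => Fin 2) (w 0) (fun b => w b.succ) = w := Fin.cons_self_tail w
  simpa only [hw, Pi.zero_apply] using this

end Vanish

open Vanish in
/-- Vanishing of the leading residual at a minimal state. -/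
theorem vanish_holds (hsym : SymExistsStmt) (hgrow : GrowExistsStmt) (hpert : PerturbStmt)
    (hlim : LimitStmt) (hminimal : MinimalStmt) : VanishStmt := by
  intro root o hmin n hn Y h hs
  obtain ⟨hWgen, m, hm⟩ := hminimal root o hmin
  obtain ⟨l, rfl⟩ : ∃ l, n = l + 2 := ⟨n - 2, by omega⟩
  obtain ⟨M₁, hM₁⟩ := sep l
  obtain ⟨M₂, hM₂⟩ := sep (l + 1)
  let M := max (max M₁ M₂) (max (o.d + 1) 5)
  have hM : 0 < M := lt_of_lt_of_le (by norm_num) ((le_max_right _ _).trans (le_max_right _ _))
  obtain ⟨E⟩ := hsym o.S M hM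
  have hd : o.d < M := (le_max_left (o.d + 1) 5).trans (le_max_right _ _)
  have h5 : 5 ≤ M := (le_max_right (o.d + 1) 5).trans (le_max_right _ _)
  let R := o.residual Y h
  -- commutation inside the centraliser
  have hcW : ∀ g ∈ o.S.cent o.θ, ∀ a ∈ o.W, Commute g a := fun g hg a ha =>
    commute_of_gen o.S hg (hWgen ha)
  have hWcent : ∀ a ∈ o.W, a ∈ o.S.cent o.θ := fun a ha => ha.2
  have hθW : ∀ a ∈ o.W, Commute o.θ a := fun a ha => (mem_cent_iff o.S).1 (hWcent a ha)
  have hw : ∀ (m : Model o) (g : o.S.C), g ∈ o.S.cent o.θ → Commute g m.w0 ∧ Commute g m.w1 := by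
    intro m g hg
    have hω := (hcW g hg m.ω m.ω_mem).inv_right₀
    refine ⟨?_, ?_⟩
    · simpa [inv_mul_cancel_left₀ m.ω_ne] using hω.mul_right (hcW g hg _ m.w0_mem)
    · simpa [inv_mul_cancel_left₀ m.ω_ne] using hω.mul_right (hcW g hg _ m.w1_mem)
  have hθcent : o.θ ∈ o.S.cent o.θ := (mem_cent_iff o.S).2 (Commute.refl _)
  have hmemKZ : ∀ (m : Model o) (μ : E.T.C), Commute (E.emb.iC o.θ) μ → Commute (m.Z E) μ →
      (∀ w ∈ o.W, ∀ e ∈ E.E, E.T.τ (μ * (E.emb.iC w * e)) = 0) → μ ∈ m.KZ E := by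
    intro m μ h1 h2 h3
    refine ⟨⟨(mem_cent_iff E.T).2 h1, (mem_cent_iff E.T).2 h2⟩, fun v hv => ?_⟩
    induction hv using Submodule.span_induction with
    | mem x hx =>
      obtain ⟨w, hw, e, he, rfl⟩ := hx
      exact h3 w hw e he
    | zero => simp
    | add x y _ _ hx hy => rw [mul_add, map_add, hx, hy, add_zero]
    | smul r x _ hx => rw [mul_smul_comm, map_smul, hx, smul_zero]
  refine ⟨?_, ?_⟩
  · -- the cyclic claim
    intro z hz w hwlen
    have hzc : z ∈ o.S.cent o.θ :=
      mem_cent_of_orth o.S fun x => hz _ (Submodule.mem_sup_right ⟨x, rfl⟩)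
    have hzT : ∀ a ∈ o.W, o.S.τ (z * a) = 0 := fun a ha => hz a ha.1
    have hzKZ : E.emb.iC z ∈ m.KZ E := by
      refine hmemKZ m _ (((mem_cent_iff o.S).1 hzc).map E.emb.iC) ?_ fun a ha e he => ?_
      · have hX : Commute (E.emb.iC z) E.X := (E.X_comm z).symm
        have hY : Commute (E.emb.iC z) E.Y := (E.Y_comm z).symm
        refine Commute.symm (((hcW z hzc _ m.ω_mem).map E.emb.iC).mul_right (Commute.add_right ?_ ?_))
        · exact ((hw m z hzc).1.map E.emb.iC).mul_right hX
        · exact ((hw m z hzc).2.map E.emb.iC).mul_right hY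
      · rw [← mul_assoc, ← map_mul, tau_emb_mul E he, hzT a ha, zero_div, map_zero, zero_mul]
    have hrot := rotation_sum_eq_zero E (l := l)
      (hM₁ M ((le_max_left M₁ M₂).trans (le_max_left _ _)) E) hM
      (fun v => E.emb.iF (o.S.τ (z * R (List.ofFn v)) / o.S.τ 1))
      fun U hU => by
        have := key hgrow hpert hlim hmin m hm hd h5 E (n := l + 2) hn Y h hs U hU hzKZ
        rw [RU, Finset.mul_sum, map_sum] at this
        rw [← this]
        refine Finset.sum_congr rfl fun v _ => ?_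
        rw [← mul_assoc, ← map_mul, tau_emb_mul E (prod_mem_E E hM fun e he => ?_)]
        obtain ⟨a, rfl⟩ := List.mem_ofFn.1 he
        exact hU _
    obtain ⟨w', rfl⟩ : ∃ w' : Fin (l + 2) → Fin 2, List.ofFn w' = w :=
      ⟨fun a => w.get (a.cast hwlen.symm),
        List.ext_getElem (by simp [hwlen]) fun i h1 h2 => by rw [List.getElem_ofFn]; rfl⟩
    have := hrot w'
    rw [← map_sum, map_eq_zero E.emb.iF, ← Finset.sum_div, div_eq_zero_iff,
      or_iff_left (tau_one_ne o.S)] at this
    rw [← this, Finset.sum_range]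
    exact Finset.sum_congr rfl fun a _ => by rw [rotate_ofFn]
  · -- the pointwise claim
    intro z hz w hwlen
    obtain ⟨w', rfl⟩ : ∃ w' : Fin (l + 2) → Fin 2, List.ofFn w' = w :=
      ⟨fun a => w.get (a.cast hwlen.symm),
        List.ext_getElem (by simp [hwlen]) fun i h1 h2 => by rw [List.getElem_ofFn]; rfl⟩
    have hcomm_w : ∀ (m : Model o) (a : o.S.C), a ∈ o.W → Commute a m.w0 ∧ Commute a m.w1 :=
      fun m a ha => hw m a (hWcent a ha)
    have hL0 : ∀ (m : Model o), m.w0 ∈ o.L0 ∧ m.w1 ∈ o.L0 ∧ m.w0⁻¹ ∈ o.L0 := fun m => by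
      refine ⟨?_, ?_, ?_⟩ <;> refine Algebra.subset_adjoin ?_
      · refine ⟨_, m.w0_mem, m.ω, m.ω_mem, m.ω_ne, ?_⟩
        rw [(hcomm_w m m.ω m.ω_mem).1.eq, mul_inv_cancel_right₀ m.ω_ne]
      · refine ⟨_, m.w1_mem, m.ω, m.ω_mem, m.ω_ne, ?_⟩
        rw [(hcomm_w m m.ω m.ω_mem).2.eq, mul_inv_cancel_right₀ m.ω_ne]
      · refine ⟨m.ω, m.ω_mem, _, m.w0_mem, mul_ne_zero m.ω_ne m.w0_ne, ?_⟩
        rw [(hcomm_w m m.ω m.ω_mem).1.eq, mul_inv_rev, ← mul_assoc, mul_inv_cancel₀ m.ω_ne, one_mul]
    have hkey : ∀ (m : Model o), m.Spans → ∀ g ∈ o.S.cent o.θ ⊓ o.S.orth o.WL,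
        ∀ U : Fin 2 → E.T.C, (∀ s, U s ∈ E.E) →
        ∑ v : Fin (l + 2) → Fin 2,
          (E.emb.iF (o.S.τ (g * m.w0 * R (List.ofFn v)) / o.S.τ 1) *
              E.T.τ (E.X * (List.ofFn fun a => U (v a)).prod) +
            E.emb.iF (o.S.τ (g * m.w1 * R (List.ofFn v)) / o.S.τ 1) *
              E.T.τ (E.Y * (List.ofFn fun a => U (v a)).prod)) = 0 := by
      intro m hm g hg U hU
      have hterm : ∀ (x : o.S.C) {e e' : E.T.C}, (∀ c, Commute e (E.emb.iC c)) → e ∈ E.E →
          ∀ (c : o.S.C), e' ∈ E.E → E.T.τ (E.emb.iC g * (E.emb.iC x * e) * (E.emb.iC c * e')) =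
            E.emb.iF (o.S.τ (g * x * c) / o.S.τ 1) * E.T.τ (e * e') := by
        intro x e e' hcomm he c he'
        rw [show E.emb.iC g * (E.emb.iC x * e) * (E.emb.iC c * e') =
            E.emb.iC (g * x * c) * (e * e') by
          rw [map_mul, map_mul, mul_assoc, mul_assoc, mul_assoc, mul_assoc, ← mul_assoc e,
            (hcomm c).eq, mul_assoc],
          tau_emb_mul E (mul_mem_E E hM he he')]
      let L : E.T.C := E.emb.iC m.w0 * E.X + E.emb.iC m.w1 * E.Y
      have hcL : ∀ a : o.S.C, Commute a m.w0 → Commute a m.w1 → Commute (E.emb.iC a) L :=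
        fun a h0 h1 => ((h0.map E.emb.iC).mul_right (E.X_comm a).symm).add_right
          ((h1.map E.emb.iC).mul_right (E.Y_comm a).symm)
      have hmem : E.emb.iC g * L ∈ m.KZ E := by
        refine hmemKZ m _ ((((mem_cent_iff o.S).1 hg.1).map E.emb.iC).mul_right
          (hcL _ (hw m _ hθcent).1 (hw m _ hθcent).2)) ?_ fun a ha e he => ?_
        · exact Commute.mul_left
            (((hcW g hg.1 _ m.ω_mem).symm.map E.emb.iC).mul_right
              (hcL _ (hcomm_w m _ m.ω_mem).1 (hcomm_w m _ m.ω_mem).2))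
            ((hcL g (hw m g hg.1).1 (hw m g hg.1).2).symm.mul_right (Commute.refl _))
        · have hz0 : ∀ x ∈ o.L0, Commute a x → o.S.τ (g * x * a) = 0 := fun x hx hax => by
            rw [mul_assoc, ← hax.eq]
            exact hg.2 _ (Submodule.subset_span ⟨a, ha, x, hx, rfl⟩)
          simp only [L, mul_add, add_mul, map_add]
          rw [hterm m.w0 E.X_comm (X_mem_E E hM) a he, hterm m.w1 E.Y_comm (Y_mem_E E hM) a he,
            hz0 _ (hL0 m).1 (hcomm_w m a ha).1, hz0 _ (hL0 m).2.1 (hcomm_w m a ha).2]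
          simp
      have := key hgrow hpert hlim hmin m hm hd h5 E (n := l + 2) hn Y h hs U hU hmem
      rw [RU, Finset.mul_sum, map_sum] at this
      rw [← this]
      refine Finset.sum_congr rfl fun v _ => ?_
      have hp : (List.ofFn fun a => U (v a)).prod ∈ E.E := prod_mem_E E hM fun e he => by
        obtain ⟨a, rfl⟩ := List.mem_ofFn.1 he
        exact hU _
      simp only [L, mul_add, add_mul, map_add]
      rw [hterm m.w0 E.X_comm (X_mem_E E hM) _ hp, hterm m.w1 E.Y_comm (Y_mem_E E hM) _ hp]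
    -- scale `w0` by `-1`
    let m' : Model o :=
      { m with
        w0 := -m.w0
        w0_ne := neg_ne_zero.2 m.w0_ne
        w0_mem := by rw [mul_neg]; exact neg_mem m.w0_mem }
    have hm' : m'.Spans := fun x hx => by
      obtain ⟨a, b, ha, hb, e⟩ := hm x hx
      refine ⟨-a, b, ?_, hb, ?_⟩
      · show m.ω * -a ∈ o.W
        rw [mul_neg]
        exact neg_mem ha
      · show x = -m.w0 * -a + m.w1 * b
        rw [neg_mul_neg, e]
    have hsep : ∀ g ∈ o.S.cent o.θ ⊓ o.S.orth o.WL, o.S.τ (g * m.w0 * R (List.ofFn w')) = 0 := by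
      intro g hg
      have hc := hM₂ M ((le_max_right M₁ M₂).trans (le_max_left _ _)) E
        (fun v => E.emb.iF (o.S.τ (g * m.w0 * R (List.ofFn v)) / o.S.τ 1)) fun U hU => by
          have e1 := hkey m hm g hg U hU
          have e2 := hkey m' hm' g hg U hU
          simp only [m', mul_neg, neg_mul, map_neg, neg_div, Finset.sum_add_distrib,
            Finset.sum_neg_distrib] at e1 e2
          linear_combination (e1 - e2) / 2
      have := congrFun hc w'
      rwa [Pi.zero_apply, map_eq_zero E.emb.iF, div_eq_zero_iff, or_iff_left (tau_one_ne o.S)]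
        at this
    have hg : z * m.w0⁻¹ ∈ o.S.cent o.θ ⊓ o.S.orth o.WL := by
      refine ⟨(mem_cent_iff o.S).2 (((mem_cent_iff o.S).1 hz.1).mul_right
        (hw m o.θ hθcent).1.inv_right₀), fun v hv => ?_⟩
      induction hv using Submodule.span_induction with
      | mem x hx =>
        obtain ⟨a, ha, x, hx, rfl⟩ := hx
        rw [mul_assoc, ← mul_assoc m.w0⁻¹, ← (hcomm_w m a ha).1.inv_right₀.eq, mul_assoc a]
        exact hz.2 _ (Submodule.subset_span ⟨a, ha, _, Subalgebra.mul_mem _ (hL0 m).2.2 hx, rfl⟩)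
      | zero => simp
      | add x y _ _ hx hy => rw [mul_add, map_add, hx, hy, add_zero]
      | smul r x _ hx => rw [mul_smul_comm, map_smul, hx, smul_zero]
    have := hsep _ hg
    rwa [inv_mul_cancel_right₀ m.w0_ne] at this

end P199K
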