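import Mathlib
import Vale.Agent.P199.Kurosh.Stmts
import Vale.Agent.P199.Kurosh.Alg
import Vale.Agent.P199.Kurosh.Lead
import Vale.Agent.P199.Kurosh.Approach
import Vale.Agent.P199.Kurosh.SymBase
import Vale.Agent.P199.Kurosh.Bot

/-! At a state of maximal degree the tangent space lies in the field of the base value: otherwise one
growth of degree one raises the degree. -/

open Module Polynomial

namespace P199K

namespace WLe

variable {o : Obj} {M : ℕ} {E : Sym o.S M} {P : Point E o.K}

theorem ev0_aeval (o : Obj) (Q : o.S.F[X]) : (aeval o.f Q) [] = aeval o.θ Q :=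
  (Polynomial.aeval_algHom_apply (NS.ev0A o.S o.K) o.f Q).symm

/-- The linear part in the direction `x`. -/
def lder (o : Obj) (x : Fin o.K → o.S.F) (g : NS o.K o.S.C) : o.S.C := ∑ i, x i • g [i]

theorem lder_add (x : Fin o.K → o.S.F) (g h : NS o.K o.S.C) :
    lder o x (g + h) = lder o x g + lder o x h := by
  simp [lder, smul_add, Finset.sum_add_distrib]

theorem lder_mul (x : Fin o.K → o.S.F) (g h : NS o.K o.S.C) :
    lder o x (g * h) = g [] * lder o x h + lder o x g * h [] := by
  simp only [lder, NS.mul_cons, NS.mul_nil, NS.shift_apply, smul_add, Finset.sum_add_distrib,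
    Finset.mul_sum, Finset.sum_mul, mul_smul_comm, smul_mul_assoc]

theorem lder_algebraMap (x : Fin o.K → o.S.F) (a : o.S.F) :
    lder o x (algebraMap o.S.F (NS o.K o.S.C) a) = 0 := by
  simp [lder, NS.algebraMap_eq]

/-- The linear part of a polynomial in `f`. -/
theorem lder_aeval {x : Fin o.K → o.S.F} {w c : o.S.C} (hw : o.θ * w = w * o.θ)
    (hx : o.Df x = w + (o.θ * c - c * o.θ)) (Q : o.S.F[X]) :
    lder o x (aeval o.f Q) =
      aeval o.θ (derivative Q) * w + (aeval o.θ Q * c - c * aeval o.θ Q) := by
  induction Q using Polynomial.induction_on with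
  | C a => simp [lder_algebraMap, Algebra.commutes]
  | add p q hp hq =>
    simp only [map_add, lder_add, hp, hq, add_mul, mul_add]
    abel
  | monomial n a ih =>
    rw [pow_succ, ← mul_assoc]
    generalize Polynomial.C a * Polynomial.X ^ n = q at ih ⊢
    have hf : lder o x o.f = w + (o.θ * c - c * o.θ) := hx
    rw [map_mul, aeval_X, lder_mul, ih, hf, ev0_aeval, derivative_mul, derivative_X, mul_one,
      map_add, map_mul (aeval o.θ) (derivative q), aeval_X, map_mul (aeval o.θ) q, aeval_X]
    rw [show o.f [] = o.θ from rfl]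
    simp only [mul_add, add_mul, mul_sub, sub_mul, mul_assoc, ← hw]
    abel

/-- Polynomials in the value lie in the field of the child base value. -/
theorem eval_mem_gen (G : Growth o E P) (Q : o.S.F[X]) :
    (P.eval (aeval o.f Q) : G.child.S.C) ∈ G.child.S.gen G.child.θ := by
  set A := Algebra.adjoin (LaurentSeries E.T.F) ({P.eval o.f} : Set (LaurentSeries E.T.C))
  suffices h : P.eval (aeval o.f Q) ∈ A by
    rw [show G.child.θ = P.eval o.f from G.base]
    exact h
  induction Q using Polynomial.induction_on with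
  | C a =>
    rw [aeval_C, NS.algebraMap_eq, P.eval_const, Sym.ι, RingHom.comp_apply, E.emb.compat]
    have := A.algebraMap_mem (HahnSeries.C (E.emb.iF a))
    rwa [laurent_algebraMap, show laurentMap (algebraMap E.T.F E.T.C) (HahnSeries.C (E.emb.iF a)) =
      HahnSeries.C (algebraMap E.T.F E.T.C (E.emb.iF a)) from HahnSeries.map_C _ _] at this
  | add p q hp hq =>
    rw [map_add, P.eval_add]
    exact A.add_mem hp hq
  | monomial n a ih =>
    rw [pow_succ, ← mul_assoc, map_mul, P.eval_mul, aeval_X]
    exact A.mul_mem ih (Algebra.self_mem_adjoin_singleton _ _)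

/-- If the child has no tangent space in its centraliser, the value kills every polynomial killing
the base value. -/
theorem eval_aeval_eq_zero (G : Growth o E P) (hW : G.child.W = ⊥) (q : o.S.F[X])
    (hq : aeval o.θ q = 0) : P.eval (aeval o.f q) = 0 := by
  have hbase : G.child.θ = P.eval o.f := G.base
  set x := P.eval o.f with hx
  have hT : G.child.T = LinearMap.range (G.child.S.ad G.child.θ) := by
    refine le_antisymm (fun v hv => ?_) le_sup_right
    obtain ⟨z, hz, y, rfl⟩ := G.child.S.exists_cent_add_ad G.child.θ v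
    have hy : G.child.S.ad G.child.θ y ∈ G.child.T := Submodule.mem_sup_right ⟨y, rfl⟩
    have hz0 : z ∈ G.child.W := ⟨by simpa using Submodule.sub_mem _ hv hy, hz⟩
    rw [hW, Submodule.mem_bot] at hz0
    exact ⟨y, by simp [hz0]⟩
  have hkill : ∀ j, E.T.laurent.τ (x ^ j * eulerL x : LaurentSeries E.T.C) = 0 := by
    intro j
    have hdir : ∀ i n, (eulerL (P.p i)).coeff n ∈ E.E := fun i n => zsmul_mem (P.mem i n) n
    have hord : ∀ i, OrdGE 0 (eulerL (P.p i)) := fun i => ((P.small i).mono (by norm_num)).eulerL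
    have hmem := G.tangent (fun i => eulerL (P.p i)) (eulerL x) hdir hord fun n => by
      rw [P.deriv_eq hord hdir, ← P.eulerL_eval]
    obtain ⟨y, hy⟩ := hT.le hmem
    have hy' : E.T.laurent.ad x y = (eulerL x : LaurentSeries E.T.C) := by
      rw [hbase] at hy
      exact hy
    rw [← hy']
    exact E.T.laurent.τ_cent_mul_ad (E.T.laurent.mem_cent.2 ((Commute.refl x).pow_right j).eq) y
  have htr : ∀ Q : o.S.F[X],
      (E.T.laurent.τ (P.eval (aeval o.f Q) : LaurentSeries E.T.C) : LaurentSeries E.T.F)
        = HahnSeries.C (E.T.τ (E.emb.iC (aeval o.θ Q))) := by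
    intro Q
    induction Q using Polynomial.induction_on' with
    | add a b ha hb =>
      rw [map_add, P.eval_add, map_add, map_add, map_add, map_add, ← ha, ← hb]
      exact map_add E.T.laurent.τ _ _
    | monomial k a =>
      rw [aeval_monomial, aeval_monomial, P.eval_mul, NS.algebraMap_eq,
        P.eval_const, ← Algebra.smul_def, E.iC_smul, map_smul, map_pow, ← P.evalHom_apply, map_pow]
      have e : E.ι (algebraMap o.S.F o.S.C a) =
          algebraMap (LaurentSeries E.T.F) (LaurentSeries E.T.C) (HahnSeries.C (E.emb.iF a)) := by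
        rw [Sym.ι, RingHom.comp_apply, E.emb.compat]
        exact E.T.toLaurent.compat _
      rw [e, ← Algebra.smul_def, P.evalHom_apply, ← hx]
      refine (map_smul E.T.laurent.τ _ _).trans ?_
      rw [laurent_τ_pow E.T x (P.eval_ordGE _) hkill k, Point.eval_coeff_zero', smul_eq_mul, map_mul]
      rfl
  refine E.T.laurent.eq_zero_of_τ_pow fun m hm => ?_
  have h := htr (q ^ m)
  rw [map_pow, map_pow (aeval o.θ), hq, zero_pow (by omega), map_zero,
    map_zero, map_zero, ← P.evalHom_apply, map_pow, P.evalHom_apply] at h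
  exact h

end WLe

open WLe in
/-- Module `WLe`. -/
theorem wLe_holds (hS : SymExistsStmt) (hG : GrowExistsStmt) (hP : PerturbStmt) : WLeStmt := by
  intro root o hst hmax w hw
  by_contra hwg
  obtain ⟨hfull, hK, -⟩ := hst.1
  obtain ⟨hwT, hwc⟩ := Submodule.mem_inf.1 hw
  obtain ⟨_, ⟨x, rfl⟩, _, ⟨c, rfl⟩, hab⟩ := Submodule.mem_sup.1 hwT
  have hw' : o.θ * w = w * o.θ := Stg.mem_cent.1 hwc
  have hx : o.Df x = w + (o.θ * (-c) - (-c) * o.θ) := by
    rw [← hab, Stg.ad_apply, mul_neg, neg_mul]
    abel
  -- the growth of degree one in the direction `x`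
  obtain ⟨E⟩ := hS o.S 1 one_pos
  let U : Fin o.K → E.T.C := fun i => algebraMap E.T.F E.T.C (E.emb.iF (x i))
  have hU : ∀ i, U i ∈ E.E := fun i => by
    simp only [U, Algebra.algebraMap_eq_smul_one]
    exact Submodule.smul_mem _ _ E.one_mem_E
  let P0 : Point E o.K :=
    { p := fun i => HahnSeries.single 1 (U i)
      small := fun i m hm => HahnSeries.coeff_single_of_ne hm.ne
      mem := fun i n => by
        by_cases hn : n = 1
        · subst hn; simpa using hU i
        · rw [HahnSeries.coeff_single_of_ne hn]; exact zero_mem _ }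
  obtain ⟨P, hgen, hclose⟩ := hP o 1 2 hfull hK one_pos E P0
  have hlin : ∀ i, (P.p i).coeff 1 = U i := fun i => by
    have h := hclose i 1 (by norm_num)
    rw [HahnSeries.coeff_sub, sub_eq_zero] at h
    rw [h]
    simp [P0]
  obtain ⟨G⟩ := hG o 1 hfull hK one_pos E P hgen
  -- the relation of `θ` at the point
  set p := minpoly o.S.F o.θ with hp
  have hint : IsIntegral o.S.F o.θ := Algebra.IsIntegral.isIntegral _
  have hp0 : aeval o.θ p = 0 := minpoly.aeval _ _
  have hd0 : aeval o.θ (derivative p) ≠ 0 := by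
    intro h0
    have h1 : 0 < p.natDegree := minpoly.natDegree_pos hint
    have h2 : derivative p ≠ 0 := fun e => by
      rw [Polynomial.derivative_eq_zero] at e
      omega
    have h3 := Polynomial.natDegree_le_of_dvd (minpoly.dvd o.S.F o.θ h0) h2
    have h4 := Polynomial.natDegree_derivative_lt (p := p) h1.ne'
    rw [← hp] at h3
    omega
  set g := aeval o.f p with hg
  set u := aeval o.θ (derivative p) * w with hu
  have hug : u ∉ o.S.gen o.θ := fun h => hwg (by
    have := Stg.mul_mem_gen (Stg.inv_mem_gen (Stg.mem_gen.2 ⟨derivative p, rfl⟩)) h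
    rwa [hu, ← mul_assoc, inv_mul_cancel₀ hd0, one_mul] at this)
  have hg1 : (P.eval g).coeff 1 = E.emb.iC u := by
    have hl := lder_aeval hw' hx p
    rw [hp0, zero_mul, mul_zero, sub_zero, add_zero] at hl
    rw [Point.eval_coeff_one', hu, ← hl, lder, map_sum]
    refine Finset.sum_congr rfl fun i _ => ?_
    rw [hlin, E.iC_smul, Algebra.smul_def]
    exact (Algebra.commutes _ _).symm
  have hgord : OrdGE 1 (P.eval g) := fun k hk => by
    rcases lt_trichotomy k 0 with hk0 | hk0 | hk0
    · exact P.eval_coeff_neg' g hk0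
    · rw [hk0, Point.eval_coeff_zero', hg, ev0_aeval, hp0, map_zero]
    · omega
  by_cases hW : G.child.W = ⊥
  · -- Euler: the relation holds at the point
    have h0 := eval_aeval_eq_zero G hW p hp0
    rw [← hg] at h0
    rw [h0, HahnSeries.coeff_zero] at hg1
    have hu0 : u = 0 := E.emb.iC.injective (by rw [← hg1, map_zero])
    exact hug (hu0 ▸ zero_mem _)
  -- the lead space of the child field is too large
  let V : Submodule (LaurentSeries E.T.F) (LaurentSeries E.T.C) := G.child.S.gen G.child.θ
  have hlead : E.ext (o.S.gen o.θ ⊔ Submodule.span o.S.F {u}) ≤ E.T.leadSp V := by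
    refine Submodule.span_le.2 ?_
    rintro _ ⟨z, hz, rfl⟩
    obtain ⟨a, ha, b, hb, rfl⟩ := Submodule.mem_sup.1 hz
    rw [SetLike.mem_coe, map_add]
    refine add_mem ?_ ?_
    · obtain ⟨Q, rfl⟩ := Stg.mem_gen.1 ha
      exact ⟨_, eval_mem_gen G Q, P.eval_ordGE _, by rw [Point.eval_coeff_zero', ev0_aeval]⟩
    · obtain ⟨r, rfl⟩ := Submodule.mem_span_singleton.1 hb
      rw [E.iC_smul]
      refine Submodule.smul_mem _ _ ?_
      obtain ⟨h1, h2⟩ := E.T.smul_ordGE (ordGE_single (-1) (1 : E.T.F)) hgord
      rw [neg_add_cancel] at h1 h2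
      exact ⟨_, V.smul_mem _ (eval_mem_gen G p), h1, by
        rw [h2, HahnSeries.coeff_single_same, one_smul, hg1]⟩
  have hlt : o.d < finrank o.S.F ↥(o.S.gen o.θ ⊔ Submodule.span o.S.F {u}) :=
    Submodule.finrank_lt_finrank_of_lt (lt_of_le_of_ne le_sup_left fun h =>
      hug (h.symm.le (Submodule.mem_sup_right (Submodule.mem_span_singleton_self u))))
  have hd : o.d < G.child.d := by
    refine lt_of_lt_of_le hlt ?_
    rw [← E.finrank_ext one_pos]
    exact (Submodule.finrank_mono hlead).trans (Stg.finrank_leadSp V).le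
  -- maximality
  have hchild : G.child.State root := ⟨hst.1.trans ⟨G.full, G.two_le, ⟨G.mor⟩⟩, hW⟩
  have hdim : G.child.S.dim = o.S.dim := by
    refine (E.T.laurent_dim).trans ?_
    rw [E.dim_eq, one_pow, mul_one]
  have h := hmax _ hchild
  rw [hdim] at h
  have h' := Nat.le_of_mul_le_mul_right h o.S.dim_pos
  exact absurd (Nat.pow_le_pow_left hd.le 2) (fun h2 => by nlinarith)

end P199K
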