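import Vale.Agent.P199.Kurosh.SelectDim
import Vale.Agent.P199.Kurosh.Assembly
import Vale.Agent.P199.Kurosh.HandIn
import Vale.Agent.P199.Kurosh.Models
import Vale.Agent.P199.Kurosh.Bot
import Vale.Agent.P199.Kurosh.Limit
import Vale.Agent.P199.Kurosh.Symbol
import Vale.Agent.P199.Kurosh.Approach
import Vale.Agent.P199.Kurosh.Subst
import Vale.Agent.P199.Kurosh.Perturb
import Vale.Agent.P199.Kurosh.Grow
import Vale.Agent.P199.Kurosh.WLe
import Vale.Agent.P199.Kurosh.Lead
import Vale.Agent.P199.Kurosh.Vanish

/-! Every module except the final one, with the hypotheses discharged. -/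

namespace P199K

theorem wle_all : WLeStmt := wLe_holds symExists_holds growExists_holds perturb_holds

theorem limit_all : LimitStmt := Lim.limit_holds rank_holds wle_all

theorem limitUp_all : LimitUpStmt := Lim.limit_up_holds wle_all

theorem vanish_all : VanishStmt :=
  vanish_holds symExists_holds growExists_holds perturb_holds limit_all (minimal_of wle_all)

theorem kurosh_of_final (hF : FinalStmt) : KuroshStmt :=
  kurosh_assemble degMul_holds dim_holds wle_all rankA_holds symExists_holds
    (approachExists_holds perturb_holds) growExists_holds perturb_holds limitUp_all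
    (bot_of symExists_holds growExists_holds perturb_holds) hF

end P199K
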