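import Mathlib
import Vale.Agent.P199.Kurosh.Assembly
import Vale.Agent.P199.Kurosh.Alg

/-! The dimension facts from the toolkit. -/

open Module

namespace P199K

theorem degMul_holds : DegMulStmt := fun o => o.S.finrank_gen_mul_finrank_cent o.θ

theorem dim_holds : DimStmt := by
  intro o
  have h := o.S.finrank_gen_mul_finrank_cent o.θ
  obtain ⟨e, he⟩ := o.S.finrank_gen_dvd_cent o.θ
  rw [he] at h
  have hpos : 0 < o.S.dim := o.S.dim_pos
  have hd : 0 < o.d := by
    rcases Nat.eq_zero_or_pos o.d with h0 | h0
    · exfalso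
      have : finrank o.S.F (o.S.gen o.θ) = 0 := h0
      rw [this, zero_mul] at h
      omega
    · exact h0
  refine ⟨hd, e, ?_, ?_⟩
  · rcases Nat.eq_zero_or_pos e with h0 | h0
    · exfalso; subst h0; simp at h; omega
    · exact h0
  · rw [← h, pow_two, mul_assoc]
    rfl

end P199K
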